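import Vale.Agent.P337.Poly

/-! Power sums over the roots of a system `x_i ^ e = r_i (x)`. -/

namespace Vale.Agent.P337

open Finset MvPolynomial

theorem exists_eigs {V : Type} [AddCommGroup V] [Module ℂ V] [FiniteDimensional ℂ V]
    (T : Module.End ℂ V) : ∃ Z : ℕ → ℂ, (∀ k, LinearMap.trace ℂ V (T ^ k) =
      ∑ i ∈ range (Module.finrank ℂ V), Z i ^ k) ∧
      ∀ μ, T.HasEigenvalue μ → ∃ i < Module.finrank ℂ V, Z i = μ := by
  classical
  have hds := DirectSum.isInternal_submodule_of_iSupIndep_of_iSup_eq_top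
    T.independent_maxGenEigenspace T.iSup_maxGenEigenspace_eq_top
  have hf : {μ | T.maxGenEigenspace μ ≠ ⊥}.Finite :=
    WellFoundedGT.finite_ne_bot_of_iSupIndep T.independent_maxGenEigenspace
  let l := (∑ μ ∈ hf.toFinset,
    Multiset.replicate (Module.finrank ℂ (T.maxGenEigenspace μ)) μ).toList
  have k1 : ∀ k, LinearMap.trace ℂ V (T ^ k) = ∑ i ∈ range l.length, l.getD i 0 ^ k := fun k => by
    have hm := fun μ => T.mapsTo_maxGenEigenspace_of_comm (Commute.refl T) μ
    rw [LinearMap.trace_eq_sum_trace_restrict' hds hf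
      fun μ => T.mapsTo_maxGenEigenspace_of_comm (Commute.self_pow T k) μ]
    have : ∑ i ∈ range l.length, l.getD i 0 ^ k = (l.map (· ^ k)).sum := by
      rw [sum_range, ← Fin.sum_univ_fun_getElem]; simp
    rw [this, ← Multiset.sum_coe, ← Multiset.map_coe, Multiset.coe_toList,
      ← Multiset.coe_mapAddMonoidHom, map_sum, Multiset.sum_sum]
    refine sum_congr rfl fun μ _ => ?_
    rw [← Module.End.pow_restrict k (hm μ)]
    simp only [Multiset.coe_mapAddMonoidHom, Multiset.map_replicate, Multiset.sum_replicate,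
      nsmul_eq_mul]
    clear this
    induction k with
    | zero => simp
    | succ k ih =>
      rw [pow_succ, Module.End.mul_eq_comp, LinearMap.trace_comp_eq_mul_of_commute_of_isNilpotent μ
        (Commute.pow_self _ k) (T.isNilpotent_restrict_maxGenEigenspace_sub_algebraMap μ), ih]
      ring
  have k2 : l.length = Module.finrank ℂ V := by simpa using (k1 0).symm
  refine ⟨fun i => l.getD i 0, k2 ▸ k1, fun μ hμ => ?_⟩
  have h : T.maxGenEigenspace μ ≠ ⊥ := fun h => hμ (eq_bot_mono
    ((T.genEigenspace μ).monotone le_top) h)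
  have : μ ∈ l := by
    simp only [l, Multiset.mem_toList, Multiset.mem_sum, Multiset.mem_replicate]
    exact ⟨μ, hf.mem_toFinset.2 h, fun h' => h (Submodule.finrank_eq_zero.1 h'), rfl⟩
  obtain ⟨i, hi, rfl⟩ := List.getElem_of_mem this
  exact ⟨i, k2 ▸ hi, List.getD_eq_getElem _ _ hi⟩

/-- Iterated application of a matrix to a vector. -/
noncomputable def vp {ι : Type} (S : Finset ι) (M : ι → ι → ℂ) (v : ι → ℂ) : ℕ → ι → ℂ
  | 0, x => v x
  | m + 1, x => ∑ z ∈ S, M x z * vp S M v m z

theorem neumann {ι : Type} {S : Finset ι} {M : ι → ι → ℂ} {v c : ι → ℂ} {deg : ι → ℕ} {L : ℕ}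
    (hc : ∀ x ∈ S, c x = v x + ∑ z ∈ S, M x z * c z)
    (hM : ∀ x ∈ S, ∀ z ∈ S, deg z ≤ deg x → M x z = 0) (hL : ∀ x ∈ S, deg x < L) :
    ∀ x ∈ S, c x = ∑ m ∈ range L, vp S M v m x := by
  have h1 : ∀ K, ∀ x ∈ S, c x = ∑ m ∈ range K, vp S M v m x + vp S M c K x := fun K => by
    induction K with
    | zero => simp [vp]
    | succ K ih =>
      intro x hx
      rw [hc x hx, sum_congr rfl fun z hz => congrArg _ (ih z hz), sum_range_succ']
      simp only [vp, mul_add, sum_add_distrib, mul_sum]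
      rw [sum_comm]
      ring
  have h2 : ∀ m, ∀ x ∈ S, L ≤ deg x + m → vp S M c m x = 0 := fun m => by
    induction m with
    | zero => exact fun x hx h => absurd (hL x hx) (by omega)
    | succ m ih =>
      refine fun x hx h => sum_eq_zero fun z hz => ?_
      by_cases h' : deg z ≤ deg x
      · rw [hM x hx z hz h', zero_mul]
      · rw [ih z hz (by omega), mul_zero]
  intro x hx
  rw [h1 L x hx, h2 L x hx (by omega), add_zero]

theorem vp_eq {ι : Type} (S : Finset ι) (M : ι → ι → ℂ) (v : ι → ℂ) (d : ι) : ∀ (m : ℕ) (x : ι),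
    vp S M v m x = ∑ l ∈ lists m S,
      (∏ i ∈ range m, M ((x :: l).getD i d) (l.getD i d)) * v ((x :: l).getD m d)
  | 0, x => by simp [vp, lists]
  | m + 1, x => by
    simp only [vp, sum_lists_succ, vp_eq S M v d m, mul_sum, prod_range_succ', List.getD_cons_succ,
      List.getD_cons_zero]
    exact sum_congr rfl fun _ _ => sum_congr rfl fun _ _ => by ring

variable {n : ℕ}

/-- Exponent vectors. -/
noncomputable def ex (n : ℕ) (μ : ℕ → ℕ) : Fin n →₀ ℕ :=
  Finsupp.equivFunOnFinite.symm fun i => μ i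

@[simp] theorem ex_apply (μ : ℕ → ℕ) (i : Fin n) : ex n μ i = μ i := rfl

theorem ex_inj {S : Finset ℕ} : Set.InjOn (fun l : List ℕ => ex n (l.getD · 0)) (lists n S) := by
  intro l hl m hm h
  have h1 := (mem_lists.1 hl).1
  have h2 := (mem_lists.1 hm).1
  refine List.ext_getElem (h1.trans h2.symm) fun i a b => ?_
  simpa [a, b] using DFunLike.congr_fun h ⟨i, h1 ▸ a⟩

theorem ex_surj {S : Finset ℕ} {m : Fin n →₀ ℕ} (h : ∀ i, m i ∈ S) :
    ∃ l ∈ lists n S, ex n (l.getD · 0) = m :=
  ⟨List.ofFn m, mem_lists.2 ⟨by simp, List.forall_mem_ofFn_iff.2 h⟩, by ext i; simp⟩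

theorem getD_mem {S : Finset ℕ} {l : List ℕ} (h : l ∈ lists n S) (i : Fin n) : l.getD i 0 ∈ S := by
  obtain ⟨rfl, h'⟩ := mem_lists.1 h
  rw [List.getD_eq_getElem _ _ i.2]
  exact h' _ (List.getElem_mem _)

theorem hasSum_lists {f : (Fin n →₀ ℕ) → ℂ} {B : ℕ} (h : ∀ m, f m ≠ 0 → ∀ i, m i ≤ B) :
    HasSum f (∑ l ∈ lists n (range (B + 1)), f (ex n (l.getD · 0))) := by
  classical
  rw [← sum_image (f := f) ex_inj]
  refine hasSum_sum_of_ne_finset_zero fun m hm => by_contra fun h' => hm ?_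
  exact mem_image.2 (ex_surj fun i => mem_range.2 (Nat.lt_succ_of_le (h m h' i)))

theorem sum_lists_prod (S : Finset ℕ) : ∀ (n : ℕ) (f : Fin n → ℕ → ℂ),
    ∑ y ∈ lists n S, ∏ i, f i (y.getD i 0) = ∏ i, ∑ s ∈ S, f i s
  | 0, f => by simp [lists]
  | n + 1, f => by
    simp only [sum_lists_succ, Fin.prod_univ_succ, Fin.val_zero, List.getD_cons_zero, Fin.val_succ,
      List.getD_cons_succ, ← mul_sum, sum_lists_prod S n fun i => f i.succ, ← sum_mul]

theorem le_deg {R : Type} [CommSemiring R] {g : MvPolynomial (Fin n) R} {m : Fin n →₀ ℕ}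
    (h : coeff m g ≠ 0) : ∑ i, m i ≤ g.totalDegree := by
  simpa [Finsupp.sum_fintype] using le_totalDegree (mem_support_iff.2 h)

theorem le_deg' {R : Type} [CommSemiring R] {g : MvPolynomial (Fin n) R} {m : Fin n →₀ ℕ}
    (h : coeff m g ≠ 0) (i : Fin n) : m i ≤ g.totalDegree :=
  (single_le_sum (f := m) (fun _ _ => Nat.zero_le _) (mem_univ i)).trans (le_deg h)

theorem eval_lists {g : MvPolynomial (Fin n) ℂ} {B : ℕ} (h : g.totalDegree ≤ B) (x : Fin n → ℂ) :
    eval x g = ∑ l ∈ lists n (range (B + 1)),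
      coeff (ex n (l.getD · 0)) g * ∏ i, x i ^ l.getD i 0 := by
  rw [eval_eq']
  exact (hasSum_sum_of_ne_finset_zero fun m hm => by simp [notMem_support_iff.1 hm]).unique
    (hasSum_lists (f := fun m => coeff m g * ∏ i, x i ^ m i)
      fun m hm i => (le_deg' (left_ne_zero_of_mul hm) i).trans h)

/-- The point with natural coordinates given by a list. -/
def pt (n : ℕ) (y : List ℕ) : Fin n → ℂ := fun i => y.getD i 0

/-- Extraction of a coefficient by interpolation on a grid. -/
noncomputable def cf (n B : ℕ) (μ : ℕ → ℕ) (g : List ℕ → ℂ) : ℂ :=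
  ∑ y ∈ lists n (range (B + 1)), g y * ∏ i ∈ range n, ell B (y.getD i 0) (μ i)

theorem cf_eq {g : MvPolynomial (Fin n) ℂ} {B : ℕ} (h : g.totalDegree ≤ B) (μ : ℕ → ℕ) :
    cf n B μ (fun y => eval (pt n y) g) = coeff (ex n μ) g := by
  classical
  simp only [cf, eval_eq', sum_mul, prod_range, mul_assoc, ← prod_mul_distrib, pt]
  rw [sum_comm]
  conv_rhs => rw [g.as_sum, coeff_sum]
  refine sum_congr rfl fun m hm => ?_
  rw [← mul_sum, sum_lists_prod _ n fun i s => (s : ℂ) ^ m i * ell B s (μ i), coeff_monomial]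
  have := fun i => co_eval (Q := Polynomial.X ^ m i) (D := B)
    (by simpa using (le_deg' (mem_support_iff.1 hm) i).trans h) (μ i)
  simp only [co, Polynomial.eval_pow, Polynomial.eval_X, Polynomial.coeff_X_pow] at this
  simp only [this, prod_boole, mem_univ, forall_true_left, mul_ite, mul_one, mul_zero]
  exact if_congr ⟨fun h => Finsupp.ext fun i => (h i).symm, fun h i => by simp [h]⟩ rfl rfl

section
variable {e : ℕ} {r : Fin n → MvPolynomial (Fin n) ℂ} (hr : ∀ i, (r i).totalDegree ≤ e)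
include hr

theorem deg_mul_prod (g : MvPolynomial (Fin n) ℂ) (k : Fin n → ℕ) :
    (g * ∏ i, r i ^ k i).totalDegree ≤ g.totalDegree + e * ∑ i, k i := by
  refine (totalDegree_mul _ _).trans (Nat.add_le_add_left ((totalDegree_finsetProd _ _).trans ?_) _)
  rw [mul_sum]
  exact sum_le_sum fun i _ => (totalDegree_pow _ _).trans
    (mul_comm e _ ▸ Nat.mul_le_mul_left _ (hr i))

theorem phi_supp {g : MvPolynomial (Fin n) ℂ} {b k : Fin n →₀ ℕ}
    (h : coeff (b + (e + 1) • k) (g * ∏ i, r i ^ k i) ≠ 0) :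
    ∑ i, b i + ∑ i, k i ≤ g.totalDegree := by
  have := (le_deg h).trans (deg_mul_prod hr g k)
  simp only [Finsupp.add_apply, Finsupp.smul_apply, smul_eq_mul, sum_add_distrib, ← mul_sum,
    add_mul] at this
  omega

theorem phi_hasSum {g : MvPolynomial (Fin n) ℂ} {B : ℕ} (hg : g.totalDegree ≤ B) (b : Fin n →₀ ℕ) :
    HasSum (fun k : Fin n →₀ ℕ => coeff (b + (e + 1) • k) (g * ∏ i, r i ^ k i))
      (∑ l ∈ lists n (range (B + 1)),
        coeff (b + (e + 1) • ex n (l.getD · 0)) (g * ∏ i, r i ^ l.getD i 0)) :=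
  hasSum_lists fun k hk i => by
    have := phi_supp hr hk
    have := single_le_sum (f := k) (fun _ _ => Nat.zero_le _) (mem_univ i)
    omega

/-- A residue functional vanishing on the ideal of the system. -/
noncomputable def Phi (b : Fin n →₀ ℕ) : MvPolynomial (Fin n) ℂ →ₗ[ℂ] ℂ where
  toFun g := ∑' k : Fin n →₀ ℕ, coeff (b + (e + 1) • k) (g * ∏ i, r i ^ k i)
  map_add' g h := by
    simp only [add_mul, coeff_add]
    exact (phi_hasSum hr le_rfl b).summable.tsum_add (phi_hasSum hr le_rfl b).summable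
  map_smul' c g := by simp only [smul_mul_assoc, coeff_smul, smul_eq_mul, tsum_mul_left]; rfl

theorem phi_ideal {b : Fin n →₀ ℕ} (hb : ∀ i, b i ≤ e) {g : MvPolynomial (Fin n) ℂ}
    (hg : g ∈ Ideal.span (Set.range fun i => X i ^ (e + 1) - r i)) : Phi hr b g = 0 := by
  classical
  obtain ⟨q, rfl⟩ := Ideal.mem_span_range_iff_exists_fun.1 hg
  rw [map_sum]
  refine sum_eq_zero fun i _ => ?_
  rw [mul_sub, map_sub, sub_eq_zero]
  refine ((add_left_injective (Finsupp.single i 1)).tsum_eq fun k hk => ?_).symm.trans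
    (tsum_congr fun k => ?_)
  · rw [Function.mem_support, mul_right_comm, X_pow_eq_monomial, coeff_mul_monomial'] at hk
    have : e + 1 ≤ b i + (e + 1) * k i := Finsupp.single_le_iff.1 (ite_ne_right_iff.1 hk).1
    have := hb i
    exact ⟨k - Finsupp.single i 1, tsub_add_cancel_of_le (Finsupp.single_le_iff.2
      (Nat.pos_of_ne_zero fun h => by simp [h] at *; omega))⟩
  · rw [mul_right_comm, X_pow_eq_monomial, smul_add, ← add_assoc, Finsupp.smul_single,
      smul_eq_mul, mul_one, coeff_mul_monomial, mul_one]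
    simp only [Finsupp.add_apply, pow_add, prod_mul_distrib, Finsupp.single_apply, pow_ite,
      pow_one, pow_zero, prod_ite_eq, mem_univ, if_true]
    ring_nf

theorem phi_monomial [DecidableEq (Fin n →₀ ℕ)] {a b : Fin n →₀ ℕ} (h : ∑ i, a i ≤ ∑ i, b i) :
    Phi hr b (monomial a 1) = if a = b then 1 else 0 := by
  refine (tsum_eq_single 0 fun k hk => by_contra fun h' => hk ?_).trans (by simp)
  have := phi_supp hr h'
  rw [totalDegree_monomial _ one_ne_zero, Finsupp.sum_fintype _ _ (by simp)] at this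
  ext i
  have := single_le_sum (f := k) (fun _ _ => Nat.zero_le _) (mem_univ i)
  simp only [Finsupp.coe_zero, Pi.zero_apply]
  omega

theorem exists_nf (g : MvPolynomial (Fin n) ℂ) : ∃ c : lists n (range (e + 1)) → ℂ,
    g - ∑ a, c a • monomial (ex n (a.1.getD · 0)) 1 ∈
      Ideal.span (Set.range fun i => X i ^ (e + 1) - r i) := by
  classical
  set I := Ideal.span (Set.range fun i => X i ^ (e + 1) - r i)
  set W := Submodule.span ℂ (Set.range fun a : lists n (range (e + 1)) =>
    monomial (ex n (a.1.getD · 0)) (1 : ℂ)) ⊔ I.restrictScalars ℂ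
  have key : ∀ N, ∀ g : MvPolynomial (Fin n) ℂ, g.totalDegree < N → g ∈ W := fun N => by
    induction N with
    | zero => simp
    | succ N ih =>
      intro g hg
      rw [g.as_sum]
      refine W.sum_mem fun m hm => ?_
      have := le_deg (mem_support_iff.1 hm)
      rw [← mul_one (coeff m g), ← smul_eq_mul, ← smul_monomial]
      refine W.smul_mem _ ?_
      by_cases h : ∀ i, m i ∈ range (e + 1)
      · obtain ⟨l, hl, rfl⟩ := ex_surj h
        exact Submodule.mem_sup_left (Submodule.subset_span ⟨⟨l, hl⟩, rfl⟩)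
      · obtain ⟨i, hi⟩ := not_forall.1 h
        obtain ⟨u, rfl⟩ := exists_add_of_le (Finsupp.single_le_iff.2 (not_lt.1 (mt mem_range.2 hi)))
        rw [add_comm, ← one_mul (1 : ℂ), ← monomial_mul, ← X_pow_eq_monomial,
          ← sub_add_cancel (X i ^ _) (r i), mul_add]
        refine W.add_mem (Submodule.mem_sup_right (I.mul_mem_left _ (Ideal.subset_span ⟨i, rfl⟩)))
          (ih _ ((totalDegree_mul _ _).trans_lt ?_))
        have := hr i
        simp only [Finsupp.add_apply, sum_add_distrib, Finsupp.single_apply, sum_ite_eq, mem_univ,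
          if_true] at *
        rw [totalDegree_monomial _ one_ne_zero, Finsupp.sum_fintype _ _ (by simp)]
        omega
  obtain ⟨y, hy, z, hz, rfl⟩ := Submodule.mem_sup.1 (key _ g (Nat.lt_succ_self _))
  obtain ⟨c, rfl⟩ := (Submodule.mem_span_range_iff_exists_fun ℂ).1 hy
  exact ⟨c, by simpa using hz⟩

end

end Vale.Agent.P337
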