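import Vale.Agent.P337.CF

/-! Arithmetic in the counting hierarchy. -/

namespace Vale.Agent.P337

open Vale.Agent.Lib.H24.T Finset

set_option linter.unusedSectionVars false

variable {α β γ δ : Type} [Enc α] [Enc β] [Enc γ] [Enc δ] [Dec α] [Dec β] [Dec γ] [Dec δ]

@[fun_prop] theorem CF.div {f g : α → ℕ} (hf : CF f) (hg : CF g) : CF fun a => f a / g a := by
  have : CF fun a => ((range (f a)).filter fun i => 0 < g a ∧ (i + 1) * g a ≤ f a).card := by
    fun_prop
  refine this.of_eq fun a => ?_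
  rw [← card_range (f a / g a)]
  congr 1
  ext i
  rcases Nat.eq_zero_or_pos (g a) with h | h
  · simp [h]
  · simp only [mem_filter, mem_range, h, true_and, Nat.lt_iff_add_one_le (n := f a / g a),
      Nat.le_div_iff_mul_le h]
    exact ⟨fun h => h.2, fun k => ⟨by nlinarith, k⟩⟩

@[fun_prop] theorem CF.mod {f g : α → ℕ} (hf : CF f) (hg : CF g) : CF fun a => f a % g a :=
  (show CF fun a => f a - g a * (f a / g a) by fun_prop).of_eq fun a => (Nat.mod_def _ _).symm

theorem CF.mapRange {n : α → ℕ} {f : α → ℕ → β} (hn : CF n) (hn' : Pb n)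
    (hf : CF fun p : α × ℕ => f p.1 p.2) : CF fun a => (List.range (n a)).map (f a) := by
  obtain ⟨χ, c1, c2⟩ := Pb.sup (CS.range hn) hf.1
  refine ⟨(show Pb fun a => n a * (χ a + 1) + 1 by fun_prop).mono fun a => ?_,
    (show CH fun p : α × List β => p.2.length = n p.1 ∧
      All (range (n p.1)) fun i => p.2.getD i (f p.1 0) = f p.1 i by fun_prop).congr
      fun p => ⟨fun h => List.ext_getElem (by simp [h.1]) fun i h1 h2 => ?_, fun h => ?_⟩⟩
  · refine (sz_list_le (B := χ a) fun x hx => ?_).trans (by simp)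
    obtain ⟨i, hi, rfl⟩ := List.mem_map.1 hx
    exact c2 a i (by simpa using hi)
  · rw [← List.getD_eq_getElem _ (f p.1 0) h2, h.2 i (by simpa using h1)]; simp
  · rw [← h]
    refine ⟨by simp, fun i hi => ?_⟩
    beta_reduce
    rw [List.getD_eq_getElem _ _ (by simpa using hi)]; simp

@[fun_prop] theorem CF.listRange {n : α → ℕ} (hn : CF n) (hn' : Pb n) :
    CF fun a => List.range (n a) :=
  (CF.mapRange (f := fun _ i => i) hn hn' (by fun_prop)).of_eq fun _ => List.map_id' _

@[fun_prop] theorem CF.map {l : α → List β} {f : α → β → γ} (hl : CF l)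
    (hf : CF fun p : α × β => f p.1 p.2) : CF fun a => (l a).map (f a) := by
  obtain ⟨d⟩ : Nonempty β := ⟨Dec.dec .nil⟩
  refine (CF.mapRange (n := fun a => (l a).length) (f := fun a i => f a ((l a).getD i d))
    (by fun_prop) (by fun_prop) (by fun_prop)).of_eq fun a => List.ext_getElem (by simp)
      fun i h1 h2 => ?_
  simp only [List.getElem_map, List.getElem_range]
  rw [List.getD_eq_getElem]

@[fun_prop] theorem CF.pow {f k : α → ℕ} (hf : CF f) (hk : CF k) (hk' : Pb k) :
    CF fun a => f a ^ k a := by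
  have key : ∀ (x : ℕ) (l : List ℕ) (y : ℕ), l.foldl (fun y _ => y * x) y = y * x ^ l.length := by
    intro x l
    induction l with
    | nil => simp
    | cons _ l ih => intro y; simp [ih, pow_succ', mul_assoc]
  refine (CF.foldl (h := fun a y _ => y * f a) (l := fun a => List.range (k a)) (b := fun _ => 1)
    (φ := fun a => 4 * (sz (f a) * k a + 1) + 1) (by fun_prop) (by fun_prop) (by fun_prop)
    (by fun_prop) fun a i => sz_nat_le ?_).of_eq fun a => by simp [key]
  rw [key, one_mul]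
  calc _ ≤ (2 ^ sz (f a)) ^ _ := Nat.pow_le_pow_left (lt_two_pow_sz _).le _
    _ ≤ (2 ^ sz (f a)) ^ k a := Nat.pow_le_pow_right (by positivity) (by simp)
    _ < _ := by rw [← pow_mul]; exact Nat.pow_lt_pow_right one_lt_two (by omega)

/-- Modular powers. -/
def pm (g e p : ℕ) : ℕ := g ^ e % (p + 1)

@[fun_prop] theorem CF.pm {g e p : α → ℕ} (hg : CF g) (he : CF e) (hp : CF p) :
    CF fun a => pm (g a) (e a) (p a) := by
  have key : ∀ (g p : ℕ) (L : List Bool) (m : ℕ), L.foldl
      (fun y b => y * y * (if b = true then g else 1) % (p + 1)) (P337.pm g m p) =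
      P337.pm g (bval L m) p := by
    intro g p L
    induction L with
    | nil => intro m; rfl
    | cons b L ih =>
      intro m
      rw [List.foldl_cons, show bval (b :: L) m = bval L (Nat.bit b m) from rfl, ← ih]
      congr 1
      unfold P337.pm
      rw [Nat.bit_val, pow_add, pow_mul', sq]
      cases b <;> simp [Nat.mul_mod]
  have h1 : CF fun a => (e a).bits.reverse := (PT.cf PT.id.bits.reverse).comp he
  refine (CF.foldl (h := fun a y b => y * y * (if b = true then g a else 1) % (p a + 1))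
    (b := fun a => 1 % (p a + 1)) (φ := fun a => 4 * sz (p a) + 1) (by fun_prop) h1 (by fun_prop)
    (by fun_prop) fun a i => sz_nat_mono ?_).of_eq fun a => ?_
  · rw [show 1 % (p a + 1) = P337.pm (g a) 0 (p a) from rfl, key]
    exact Nat.le_of_lt_succ (Nat.mod_lt _ (by omega))
  · rw [show 1 % (p a + 1) = P337.pm (g a) 0 (p a) from rfl, key, bval_bits]

theorem pm_cast {p : ℕ} (hp : 0 < p) (g e : ℕ) : (pm g e (p - 1) : ZMod p) = (g : ZMod p) ^ e := by
  rw [pm, Nat.sub_add_cancel hp, ZMod.natCast_mod, Nat.cast_pow]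

@[fun_prop] theorem CH.prime {p : α → ℕ} (hp : CF p) : CH fun a => (p a).Prime :=
  (show CH fun a => 2 ≤ p a ∧ All (range (p a)) fun m => m < 2 ∨ p a % m ≠ 0 by fun_prop).congr
    fun a => by
      rw [Nat.prime_def_lt']
      refine and_congr_right fun _ => ⟨fun h m h1 h2 h3 => ?_, fun h m hm => ?_⟩
      · exact (h m (mem_range.2 h2)).elim (by omega) fun k => k (Nat.mod_eq_zero_of_dvd h3)
      · by_cases k : m < 2
        · exact .inl k
        · exact .inr fun e => h m (by omega) (mem_range.1 hm) (Nat.dvd_of_mod_eq_zero e)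

open Classical in
/-- Bounded search. -/
noncomputable def mu (N : ℕ) (P : ℕ → Prop) : ℕ :=
  ((range N).filter fun e => All (range (e + 1)) fun i => ¬P i).card

theorem mu_spec {N : ℕ} {P : ℕ → Prop} (h : ∃ e < N, P e) : P (mu N P) := by
  classical
  obtain ⟨e, h1, h2⟩ := h
  have k : ∃ e, P e := ⟨e, h2⟩
  have : mu N P = Nat.find k := by
    rw [mu, ← card_range (Nat.find k)]
    congr 1
    ext i
    have := Nat.find_min' k h2
    simp only [mem_filter, mem_range, All, Nat.lt_find_iff, Nat.lt_succ_iff]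
    exact ⟨fun h => h.2, fun h => ⟨by by_contra hc; exact h e (by omega) h2, h⟩⟩
  exact this ▸ Nat.find_spec k

@[fun_prop] theorem CF.mu {N : α → ℕ} {P : α → ℕ → Prop} (hN : CF N)
    (hP : CH fun p : α × ℕ => P p.1 p.2) : CF fun a => mu (N a) (P a) := by
  unfold P337.mu
  fun_prop

/-- A primitive root. -/
noncomputable def gen (p : ℕ) : ℕ :=
  mu p fun g => All (range p) fun v => v = 0 ∨ ∃ e ∈ range p, pm g e (p - 1) = v

/-- The discrete logarithm. -/
noncomputable def lg (p v : ℕ) : ℕ := mu p fun e => pm (gen p) e (p - 1) = v % p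

theorem lg_spec {p v : ℕ} (hp : p.Prime) (hv : v % p ≠ 0) :
    (gen p : ZMod p) ^ lg p v = v := by
  have := Fact.mk hp
  have h1 : All (range p) fun v => v = 0 ∨ ∃ e ∈ range p, pm (gen p) e (p - 1) = v := by
    refine mu_spec (P := fun g => All (range p) fun v => v = 0 ∨
      ∃ e ∈ range p, pm g e (p - 1) = v) ?_
    obtain ⟨g, hg⟩ := IsCyclic.exists_generator (α := (ZMod p)ˣ)
    refine ⟨(g : ZMod p).val, ZMod.val_lt _, fun w hw => or_iff_not_imp_left.2 fun h0 => ?_⟩
    have w0 : (w : ZMod p) ≠ 0 := fun e => h0 (Nat.eq_zero_of_dvd_of_lt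
      ((ZMod.natCast_eq_zero_iff _ _).1 e) (mem_range.1 hw))
    obtain ⟨e, h1, h2⟩ := mem_image.1
      (mem_zpowers_iff_mem_range_orderOf.1 (hg (Units.mk0 _ w0)))
    have h3 : orderOf g ≤ p - 1 := by
      simpa [Nat.totient_prime hp] using orderOf_le_card_univ (x := g)
    refine ⟨e, mem_range.2 (by have := mem_range.1 h1; omega), ?_⟩
    have h4 : ((g : ZMod p).val ^ e : ℕ) = (w : ZMod p) := by
      simpa using congrArg Units.val h2
    rw [pm, Nat.sub_add_cancel hp.pos, (ZMod.natCast_eq_natCast_iff' _ _ _).1 h4,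
      Nat.mod_eq_of_lt (mem_range.1 hw)]
  obtain ⟨e, k1, k2⟩ := (h1 _ (mem_range.2 (Nat.mod_lt v hp.pos))).resolve_left hv
  have := mu_spec (P := fun e => pm (gen p) e (p - 1) = v % p) ⟨e, mem_range.1 k1, k2⟩
  rw [← pm_cast hp.pos, lg, this, ZMod.natCast_mod]

theorem prodMod {S : α → Finset β} {f : α → β → ℕ} {p : α → ℕ} (h : CS S)
    (hf : CF fun q : α × β => f q.1 q.2) (hp : CF p) : ∃ φ : α → ℕ, CF φ ∧ ∀ a, (p a).Prime →
      (φ a : ZMod (p a)) = ∏ y ∈ S a, (f a y : ZMod (p a)) := by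
  classical
  have h1 : CF gen := by unfold gen; fun_prop
  have h2 : CF fun q : ℕ × ℕ => lg q.1 q.2 := by unfold lg; fun_prop
  refine ⟨fun a => if ∃ y ∈ S a, f a y % p a = 0 then 0 else
    pm (gen (p a)) (∑ y ∈ S a, lg (p a) (f a y)) (p a - 1), by fun_prop, fun a ha => ?_⟩
  beta_reduce
  split_ifs with h0
  · obtain ⟨y, h1, h2⟩ := h0
    rw [prod_eq_zero h1 ((ZMod.natCast_eq_zero_iff _ _).2 (Nat.dvd_of_mod_eq_zero h2)),
      Nat.cast_zero]
  · rw [pm_cast ha.pos, ← prod_pow_eq_pow_sum]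
    exact prod_congr rfl fun y hy => lg_spec ha fun e => h0 ⟨y, hy, e⟩

end Vale.Agent.P337
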