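import Vale.Agent.P337.Sign

/-! Rational numbers with exponentially many digits. -/

namespace Vale.Agent.P337

open Vale.Agent.Lib.H24.T Finset

set_option linter.unusedSectionVars false

variable {α β γ δ : Type} [Enc α] [Enc β] [Enc γ] [Enc δ] [Dec α] [Dec β] [Dec γ] [Dec δ]

/-- Quotients of big integers. -/
@[fun_prop] def BQ (F : α → ℂ) : Prop :=
  ∃ N D : α → ℤ, Big N ∧ Big D ∧ ∀ a, D a ≠ 0 ∧ F a = N a / D a

theorem BQ.of_eq {F G : α → ℂ} (h : BQ F) (e : ∀ a, F a = G a) : BQ G := by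
  rwa [← show F = G from funext e]

@[fun_prop] theorem BQ.comp {G : β → ℂ} {f : α → β} (h : BQ G) (hf : CF f) :
    BQ fun a => G (f a) := by
  obtain ⟨N, D, h1, h2, h3⟩ := h
  exact ⟨_, _, h1.comp hf, h2.comp hf, fun a => h3 _⟩

@[fun_prop] theorem BQ.intCast {G : α → ℤ} (h : Big G) : BQ fun a => (G a : ℂ) :=
  ⟨G, _, h, Big.const 1, fun a => by simp⟩

@[fun_prop] theorem Big.of_cf {f : α → ℤ} (hf : CF f) : Big f := Big.cf hf

@[fun_prop] theorem BQ.natCast {f : α → ℕ} (h : CF f) : BQ fun a => (f a : ℂ) :=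
  (BQ.intCast (Big.natCast h)).of_eq fun a => by simp

/-- Integer constants. -/
class IsZ (c : ℂ) : Prop where
  /-- The constant is an integer. -/
  out : ∃ z : ℤ, c = z

instance : IsZ 0 := ⟨0, by simp⟩
instance : IsZ 1 := ⟨1, by simp⟩
instance (n : ℕ) [n.AtLeastTwo] : IsZ ofNat(n) := ⟨n, by simp [OfNat.ofNat]⟩
instance (c : ℂ) [h : IsZ c] : IsZ (-c) := ⟨h.out.elim fun z hz => ⟨-z, by simp [hz]⟩⟩

@[fun_prop] theorem BQ.const (c : ℂ) [h : IsZ c] : BQ fun _ : α => c :=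
  h.out.elim fun z hz => hz ▸ BQ.intCast (Big.const z)

@[fun_prop] theorem BQ.add {F G : α → ℂ} (h : BQ F) (h' : BQ G) : BQ fun a => F a + G a := by
  obtain ⟨N, D, h1, h2, h3⟩ := h
  obtain ⟨N', D', k1, k2, k3⟩ := h'
  refine ⟨fun a => N a * D' a + D a * N' a, fun a => D a * D' a, by fun_prop, by fun_prop,
    fun a => ⟨mul_ne_zero (h3 a).1 (k3 a).1, ?_⟩⟩
  simp only [(h3 a).2, (k3 a).2]
  push_cast
  exact div_add_div _ _ (by exact_mod_cast (h3 a).1) (by exact_mod_cast (k3 a).1)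

@[fun_prop] theorem BQ.mul {F G : α → ℂ} (h : BQ F) (h' : BQ G) : BQ fun a => F a * G a := by
  obtain ⟨N, D, h1, h2, h3⟩ := h
  obtain ⟨N', D', k1, k2, k3⟩ := h'
  refine ⟨fun a => N a * N' a, fun a => D a * D' a, by fun_prop, by fun_prop,
    fun a => ⟨mul_ne_zero (h3 a).1 (k3 a).1, ?_⟩⟩
  simp only [(h3 a).2, (k3 a).2]
  push_cast
  exact div_mul_div_comm _ _ _ _

@[fun_prop] theorem BQ.neg {F : α → ℂ} (h : BQ F) : BQ fun a => -F a :=
  ((BQ.const (-1)).mul h).of_eq fun a => by simp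

@[fun_prop] theorem BQ.sub {F G : α → ℂ} (h : BQ F) (h' : BQ G) : BQ fun a => F a - G a :=
  (h.add h'.neg).of_eq fun a => by ring

@[fun_prop] theorem BQ.inv {F : α → ℂ} (h : BQ F) : BQ fun a => (F a)⁻¹ := by
  obtain ⟨N, D, h1, h2, h3⟩ := h
  refine ⟨_, _, Big.ite h1.eq_zero (Big.const 0) h2, Big.ite h1.eq_zero (Big.const 1) h1,
    fun a => ?_⟩
  by_cases h : N a = 0 <;> simp [h, (h3 a).2]

@[fun_prop] theorem BQ.div {F G : α → ℂ} (h : BQ F) (h' : BQ G) : BQ fun a => F a / G a :=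
  h.mul h'.inv

@[fun_prop] theorem BQ.pow {F : α → ℂ} {k : α → ℕ} (h : BQ F) (hk : CF k) :
    BQ fun a => F a ^ k a := by
  obtain ⟨N, D, h1, h2, h3⟩ := h
  exact ⟨_, _, h1.pow hk, h2.pow hk, fun a => ⟨pow_ne_zero _ (h3 a).1, by simp [(h3 a).2, div_pow]⟩⟩

@[fun_prop] theorem BQ.ite {c : α → Prop} [DecidablePred c] {F G : α → ℂ} (hc : CH c) (h : BQ F)
    (h' : BQ G) : BQ fun a => if c a then F a else G a :=
  (show BQ fun a => ((if c a then 1 else 0 : ℕ) : ℂ) * F a +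
    ((if c a then 0 else 1 : ℕ) : ℂ) * G a by fun_prop).of_eq fun a => by split_ifs <;> simp

@[fun_prop] theorem BQ.prod {S : α → Finset β} {F : α → β → ℂ} (hS : CS S)
    (h : BQ fun p : α × β => F p.1 p.2) : BQ fun a => ∏ y ∈ S a, F a y := by
  obtain ⟨N, D, h1, h2, h3⟩ := h
  refine ⟨fun a => ∏ y ∈ S a, N (a, y), fun a => ∏ y ∈ S a, D (a, y), by fun_prop, by fun_prop,
    fun a => ⟨prod_ne_zero_iff.2 fun y _ => (h3 _).1, ?_⟩⟩
  push_cast
  rw [← prod_div_distrib]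
  exact prod_congr rfl fun y _ => (h3 (a, y)).2

theorem BQ.clear {S : α → Finset β} {F : α × β → ℂ} (hS : CS S) (h : BQ F) :
    ∃ (c : α → ℤ) (G : α × β → ℤ), Big c ∧ Big G ∧
      ∀ a, c a ≠ 0 ∧ ∀ y ∈ S a, F (a, y) = G (a, y) / c a := by
  classical
  obtain ⟨N, D, h1, h2, h3⟩ := h
  refine ⟨fun a => ∏ y ∈ S a, D (a, y), fun p => N p * ∏ y ∈ (S p.1).erase p.2, D (p.1, y),
    by fun_prop, by fun_prop, fun a => ⟨prod_ne_zero_iff.2 fun y _ => (h3 _).1, fun y hy => ?_⟩⟩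
  simp only [← mul_prod_erase _ _ hy, (h3 _).2, Int.cast_mul]
  exact (mul_div_mul_right _ _ (Int.cast_ne_zero.2 (prod_ne_zero_iff.2 fun y _ => (h3 _).1))).symm

@[fun_prop] theorem BQ.sum {S : α → Finset β} {F : α → β → ℂ} (hS : CS S)
    (h : BQ fun p : α × β => F p.1 p.2) : BQ fun a => ∑ y ∈ S a, F a y := by
  obtain ⟨c, G, h1, h2, h3⟩ := h.clear hS
  refine ⟨fun a => ∑ y ∈ S a, G (a, y), c, by fun_prop, h1, fun a => ⟨(h3 a).1, ?_⟩⟩
  push_cast
  rw [sum_div]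
  exact sum_congr rfl (h3 a).2

theorem BQ.pos {F : α → ℂ} (h : BQ F) : CH fun a => 0 < (F a).re := by
  obtain ⟨N, D, h1, h2, h3⟩ := h
  refine (h1.mul h2).pos.congr fun a => ?_
  rw [(h3 a).2, ← Complex.ofReal_intCast, ← Complex.ofReal_intCast, ← Complex.ofReal_div,
    Complex.ofReal_re, div_pos_iff, mul_pos_iff]
  norm_cast

theorem BQ.real {F : α → ℂ} (h : BQ F) (a : α) : ((F a).re : ℂ) = F a := by
  obtain ⟨N, D, -, -, h3⟩ := h
  rw [(h3 a).2, ← Complex.ofReal_intCast, ← Complex.ofReal_intCast, ← Complex.ofReal_div,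
    Complex.ofReal_re]

/-- The homogeneous polynomial with coefficients `n`. -/
def hom {R : Type} [CommSemiring R] (D : ℕ) (n : ℕ → R) (x : R × R) : R :=
  ∑ i ∈ range (D + 1), n i * x.1 ^ i * x.2 ^ (D - i)

theorem abs_hom_le {D T s : ℕ} {n : ℕ → ℤ} {x : ℤ × ℤ} (hn : ∀ i ≤ D, |n i| ≤ 2 ^ T)
    (h1 : |x.1| ≤ 2 ^ s) (h2 : |x.2| ≤ 2 ^ s) : |hom D n x| ≤ 2 ^ (D + T + s * D) := by
  refine (abs_sum_le_sum_abs _ _).trans ((sum_le_card_nsmul _ _ (2 ^ T * (2 ^ s) ^ D)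
    fun i hi => ?_).trans ?_)
  · have := Nat.le_of_lt_succ (mem_range.1 hi)
    rw [abs_mul, abs_mul, abs_pow, abs_pow, mul_assoc, ← Nat.add_sub_cancel' this, pow_add,
      Nat.add_sub_cancel' this]
    gcongr
    exact hn i this
  · rw [card_range, nsmul_eq_mul, pow_add, pow_add, pow_mul, mul_assoc]
    gcongr
    exact_mod_cast Nat.lt_two_pow_self

/-- The homogeneous polynomial with coefficients `n`, modulo `p`. -/
def homMod (D : ℕ) (n : ℕ → ℕ) (p : ℕ) (x : ℕ × ℕ) : ℕ :=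
  (∑ i ∈ range (D + 1), n i * pm x.1 i (p - 1) * pm x.2 (D - i) (p - 1)) % (p - 1 + 1)

theorem CF.homMod {D : α → ℕ} {φ : (α × ℕ) × ℕ → ℕ} (hD : CF D) (hn : CF φ) :
    CF fun q : α × ℕ × ℕ × ℕ => homMod (D q.1) (fun i => φ ((q.1, i), q.2.1)) q.2.1 q.2.2 := by
  simp only [P337.homMod]
  fun_prop

theorem homMod_cast {D p : ℕ} {n : ℕ → ℕ} {m : ℕ → ℤ} {x : ℤ × ℤ} {y : ℕ × ℕ} (hp : 0 < p)
    (h : ∀ i ≤ D, (n i : ZMod p) = m i) (a : (y.1 : ZMod p) = x.1) (b : (y.2 : ZMod p) = x.2) :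
    (homMod D n p y : ZMod p) = (hom D m x : ℤ) := by
  simp only [homMod, hom, Nat.sub_add_cancel hp, ZMod.natCast_mod]
  push_cast
  refine sum_congr rfl fun i hi => ?_
  rw [pm_cast hp, pm_cast hp, a, b, h i (Nat.le_of_lt_succ (mem_range.1 hi))]

theorem foldl_rel {A B : Type} {r : A → B → Prop} {f : A → γ → A} {g : B → γ → B} :
    ∀ (l : List γ), (∀ c ∈ l, ∀ x y, r x y → r (f x c) (g y c)) → ∀ x y, r x y →
      r (l.foldl f x) (l.foldl g y)
  | [], _, _, _, h => h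
  | c :: l, H, x, y, h => foldl_rel l (fun c hc => H c (List.mem_cons_of_mem _ hc)) _ _
      (H c (by simp) x y h)

theorem foldl_mul (u : ℕ) : ∀ (l : List γ) (s : ℕ), l.foldl (fun s _ => s * u) s = s * u ^ l.length
  | [], s => by simp
  | c :: l, s => by rw [List.foldl_cons, foldl_mul u l, List.length_cons, pow_succ', mul_assoc]

theorem cf_iterMod {D : α × γ → ℕ} {φ φ' : ((α × γ) × ℕ) × ℕ → ℕ} (hD : CF D) (h3 : CF φ)
    (k3 : CF φ') : CF fun q : (α × List γ) × ℕ =>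
      q.1.2.foldl (fun y c => (homMod (D (q.1.1, c)) (fun i => φ (((q.1.1, c), i), q.2)) q.2 y,
        homMod (D (q.1.1, c)) (fun i => φ' (((q.1.1, c), i), q.2)) q.2 y)) (0, 1) := by
  have k : ∀ φ : ((α × γ) × ℕ) × ℕ → ℕ, CF φ → CF fun p : ((α × List γ) × ℕ) × (ℕ × ℕ) × γ =>
      homMod (D (p.1.1.1, p.2.2)) (fun i => φ (((p.1.1.1, p.2.2), i), p.1.2)) p.1.2 p.2.1 :=
    fun φ h => (CF.homMod hD h).comp (g := fun p : ((α × List γ) × ℕ) × (ℕ × ℕ) × γ =>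
      ((p.1.1.1, p.2.2), p.1.2, p.2.1)) (by fun_prop)
  refine CF.foldl (l := fun q : (α × List γ) × ℕ => q.1.2) (b := fun _ => (0, 1))
    (φ := fun q => 8 * sz (q.2 + 1) + 3) ((k φ h3).pair (k φ' k3)) (by fun_prop) (by fun_prop)
    (by fun_prop) fun q i => ?_
  have : ∀ y : ℕ × ℕ, y.1 ≤ q.2 + 1 → y.2 ≤ q.2 + 1 → sz y ≤ 8 * sz (q.2 + 1) + 3 :=
    fun y a b => by
      have := sz_nat_mono a
      have := sz_nat_mono b
      rw [sz_pair']; omega
  induction q.1.2.take i using List.reverseRecOn with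
  | nil => exact this _ (by simp) (by simp)
  | append_singleton l c _ =>
    rw [List.foldl_append]
    exact this _ ((Nat.mod_lt _ (by omega)).le.trans (by omega))
      ((Nat.mod_lt _ (by omega)).le.trans (by omega))

theorem Big.iter {D : α × γ → ℕ} {n m : (α × γ) × ℕ → ℤ} (hD : CF D) (hn : Big n) (hm : Big m) :
    ∃ X : α × List γ → ℤ × ℤ, (Big fun p => (X p).1) ∧ (Big fun p => (X p).2) ∧ ∀ p, X p =
      p.2.foldl (fun x c => (hom (D (p.1, c)) (fun i => n ((p.1, c), i)) x,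
        hom (D (p.1, c)) (fun i => m ((p.1, c), i)) x)) (0, 1) := by
  classical
  obtain ⟨T, h1, h2, φ, h3, h4⟩ := hn
  obtain ⟨T', k1, k2, φ', k3, k4⟩ := hm
  obtain ⟨U, u1, u2⟩ : ∃ U : α × List γ → ℕ, CF U ∧ ∀ p, ∀ c ∈ p.2, ∀ i ≤ D (p.1, c),
      D (p.1, c) + T ((p.1, c), i) + T' ((p.1, c), i) ≤ U p := by
    refine ⟨fun p => ∑ c ∈ p.2.toFinset, ∑ i ∈ range (D (p.1, c) + 1),
      (D (p.1, c) + T ((p.1, c), i) + T' ((p.1, c), i)), by fun_prop, fun p c hc i hi => ?_⟩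
    exact (single_le_sum (f := fun i => D (p.1, c) + T ((p.1, c), i) + T' ((p.1, c), i))
      (fun _ _ => Nat.zero_le _) (mem_range.2 (Nat.lt_succ_of_le hi))).trans
      (single_le_sum (f := fun c => ∑ i ∈ range (D (p.1, c) + 1),
        (D (p.1, c) + T ((p.1, c), i) + T' ((p.1, c), i)))
        (fun _ _ => Nat.zero_le _) (List.mem_toFinset.2 hc))
  have s1 := fun p : α × List γ => foldl_rel
    (r := fun (x : ℤ × ℤ) (s : ℕ) => 1 ≤ s ∧ |x.1| ≤ 2 ^ s ∧ |x.2| ≤ 2 ^ s)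
    (f := fun x c => (hom (D (p.1, c)) (fun i => n ((p.1, c), i)) x,
        hom (D (p.1, c)) (fun i => m ((p.1, c), i)) x)) (g := fun s _ => s * (3 * U p + 1)) p.2
    (fun c hc x s ⟨hs, a, b⟩ => by
      have := u2 p c hc 0 (Nat.zero_le _)
      have e : D (p.1, c) + U p + s * D (p.1, c) ≤ s * (3 * U p + 1) := by
        nlinarith [Nat.mul_le_mul_left s (show D (p.1, c) ≤ U p by omega)]
      exact ⟨by nlinarith,
        (abs_hom_le (fun i hi => (h2 _).trans (two_pow_le (by have := u2 p c hc i hi; omega)))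
          a b).trans (two_pow_le e),
        (abs_hom_le (fun i hi => (k2 _).trans (two_pow_le (by have := u2 p c hc i hi; omega)))
          a b).trans (two_pow_le e)⟩) (0, 1) 1 (by simp)
  have s2 := fun (p : α × List γ) (q : ℕ) (hq : q.Prime) (hU : U p ≤ q) => foldl_rel
    (r := fun (y : ℕ × ℕ) (x : ℤ × ℤ) => (y.1 : ZMod q) = x.1 ∧ (y.2 : ZMod q) = x.2)
    (f := fun y c => (homMod (D (p.1, c)) (fun i => φ (((p.1, c), i), q)) q y,
        homMod (D (p.1, c)) (fun i => φ' (((p.1, c), i), q)) q y))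
    (g := fun x c => (hom (D (p.1, c)) (fun i => n ((p.1, c), i)) x,
        hom (D (p.1, c)) (fun i => m ((p.1, c), i)) x)) p.2
    (fun c hc y x ⟨a, b⟩ =>
      ⟨homMod_cast hq.pos (fun i hi => h4 _ q hq (by have := u2 p c hc i hi; omega)) a b,
        homMod_cast hq.pos (fun i hi => k4 _ q hq (by have := u2 p c hc i hi; omega)) a b⟩)
    (0, 1) (0, 1) (by simp)
  simp only [foldl_mul] at s1
  have s3 := cf_iterMod hD h3 k3
  have s4 : CF fun p : α × List γ => 1 * (3 * U p + 1) ^ p.2.length + U p := by fun_prop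
  exact ⟨_, ⟨_, s4, fun p => (s1 p).2.1.trans (two_pow_le (Nat.le_add_right _ _)), _, s3.fst,
      fun p q hq h => (s2 p q hq (le_of_add_le_right h)).1⟩,
    ⟨_, s4, fun p => (s1 p).2.2.trans (two_pow_le (Nat.le_add_right _ _)), _, s3.snd,
      fun p q hq h => (s2 p q hq (le_of_add_le_right h)).2⟩, fun _ => rfl⟩

theorem BQ.bound {F : α → ℂ} (h : BQ F) : ∃ T, CF T ∧ ∀ a, ‖F a‖ ≤ 2 ^ T a := by
  obtain ⟨N, D, ⟨T, h1, h2, -⟩, -, h3⟩ := h
  refine ⟨T, h1, fun a => ?_⟩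
  rw [(h3 a).2, norm_div, Complex.norm_intCast, Complex.norm_intCast]
  refine (div_le_self (abs_nonneg _) ?_).trans (by exact_mod_cast h2 a)
  exact_mod_cast Int.one_le_abs (h3 a).1

end Vale.Agent.P337
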