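import Vale.Agent.P337.Mach

/-! A typed version of the counting hierarchy. -/

namespace Vale.Agent.P337

open Vale.Agent.Lib.H24.T Finset

/-- The lists of given length with entries in a finite set. -/
def lists {β : Type} : ℕ → Finset β → Finset (List β)
  | 0, _ => {[]}
  | n + 1, S => (S ×ˢ lists n S).map ⟨fun p => p.1 :: p.2, fun _ _ h => by
      simp only [List.cons.injEq] at h; exact Prod.ext h.1 h.2⟩

theorem mem_lists {β : Type} {S : Finset β} : ∀ {n : ℕ} {l : List β},
    l ∈ lists n S ↔ l.length = n ∧ ∀ x ∈ l, x ∈ S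
  | 0, l => by cases l <;> simp [lists]
  | n + 1, [] => by simp [lists]
  | n + 1, a :: l => by
    simp only [lists, mem_map, mem_product, mem_lists (n := n), Prod.exists, List.length_cons,
      Nat.add_right_cancel_iff, List.forall_mem_cons]
    refine ⟨fun ⟨_, _, h, e⟩ => ?_, fun h => ⟨_, _, ⟨h.2.1, h.1, h.2.2⟩, rfl⟩⟩
    obtain ⟨rfl, rfl⟩ := List.cons.inj e
    exact ⟨h.2.1, h.1, h.2.2⟩

theorem sum_lists_succ {β M : Type} [AddCommMonoid M] (n : ℕ) (S : Finset β) (f : List β → M) :
    ∑ l ∈ lists (n + 1) S, f l = ∑ x ∈ S, ∑ l ∈ lists n S, f (x :: l) := by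
  rw [lists, sum_map, sum_product]; rfl

theorem card_lists {β : Type} (S : Finset β) : ∀ n, (lists n S).card = S.card ^ n
  | 0 => rfl
  | n + 1 => by rw [lists, card_map, card_product, card_lists S n, pow_succ']

open Classical in
/-- The number of bit strings of length `m` with property `Q`. -/
noncomputable def cnt (m : ℕ) (Q : List Bool → Prop) : ℕ :=
  ∑ r ∈ lists m univ, if Q r then 1 else 0

theorem cnt_succ (m : ℕ) (Q : List Bool → Prop) :
    cnt (m + 1) Q = cnt m (fun r => Q (true :: r)) + cnt m (fun r => Q (false :: r)) := by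
  rw [cnt, sum_lists_succ, Fintype.sum_bool]; rfl

theorem cnt_congr {m : ℕ} {Q R : List Bool → Prop} (h : ∀ r, r.length = m → (Q r ↔ R r)) :
    cnt m Q = cnt m R :=
  sum_congr rfl fun r hr => by rw [propext (h r (mem_lists.1 hr).1)]

theorem cnt_const (m : ℕ) (q : Prop) [Decidable q] :
    cnt m (fun _ => q) = if q then 2 ^ m else 0 := by
  by_cases h : q <;> simp [cnt, h, card_lists]

theorem cnt_zero (Q : List Bool → Prop) [Decidable (Q [])] :
    cnt 0 Q = if Q [] then 1 else 0 := by
  rw [cnt, lists, sum_singleton]; congr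

theorem cnt_not (m : ℕ) (Q : List Bool → Prop) : cnt m Q + cnt m (fun r => ¬Q r) = 2 ^ m := by
  rw [cnt, cnt, ← sum_add_distrib, sum_congr rfl (g := fun _ => 1) fun r _ => by
    by_cases h : Q r <;> simp [h]]
  simp [card_lists]

theorem cnt_take (k : ℕ) : ∀ (m : ℕ) (Q : List Bool → Prop),
    cnt (k + m) (fun r => Q (r.take m)) = 2 ^ k * cnt m Q
  | 0, Q => by
    classical
    simp only [List.take_zero, add_zero, cnt_const, cnt_zero]
    by_cases h : Q [] <;> simp [h]
  | m + 1, Q => by
    rw [← add_assoc, cnt_succ, cnt_succ, mul_add, ← cnt_take k m, ← cnt_take k m]; rfl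

theorem cnt_eq_ncard (m : ℕ) (Q : List Bool → Prop) :
    {r : List Bool | r.length = m ∧ Q r}.ncard = cnt m Q := by
  classical
  rw [cnt, ← card_filter, ← Set.ncard_coe_finset]
  congr 1
  ext r
  simp [mem_lists]

/-- The number with the given binary digits. -/
def val (l : List Bool) : ℕ := bval l.reverse 0

theorem val_cons (b : Bool) (l : List Bool) : val (b :: l) = 2 * val l + b.toNat := by
  rw [val, List.reverse_cons, bval, List.foldl_append, ← Nat.bit_val]; rfl

theorem val_lt : ∀ l : List Bool, val l < 2 ^ l.length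
  | [] => by decide
  | b :: l => by
    have := val_lt l
    rw [val_cons, List.length_cons, pow_succ]
    cases b <;> simp <;> omega

theorem cnt_val : ∀ m s : ℕ, cnt m (fun r => val r < s) = min s (2 ^ m)
  | 0, s => by
    rw [cnt_zero, show val [] = 0 from rfl]
    split_ifs <;> omega
  | m + 1, s => by
    rw [cnt_succ, cnt_congr (R := fun r => val r < s / 2) fun r _ => by simp [val_cons]; omega,
      cnt_congr (Q := fun r => val (false :: r) < s) (R := fun r => val r < (s + 1) / 2)
        fun r _ => by simp [val_cons]; omega, cnt_val m, cnt_val m, pow_succ]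
    omega

variable {α β γ : Type} [Enc α] [Enc β] [Enc γ]

@[fun_prop] theorem pt_val {f : α → List Bool} (hf : PT f) : PT (fun a => val (f a)) :=
  PT.foldl (h := fun _ m b => Nat.bit b m) (by fun_prop) hf.reverse (PT.const 0)
    (fun a => 4 * (f a).length + 1) (by fun_prop) fun a i => sz_nat_le
      ((bval_take _ _ _).trans_lt (val_lt _))

@[fun_prop] theorem pt_take {f : α → List β} {n : α → ℕ} (hn : PT n) (hf : PT f) :
    PT (fun a => (f a).take (n a)) := by
  have h : PT (fun a => ((f a).reverse.drop ((f a).length - n a)).reverse) := by fun_prop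
  refine h.of_eq fun a => ?_
  rw [List.drop_reverse, List.reverse_reverse]
  by_cases hl : n a ≤ (f a).length
  · congr 1; omega
  · rw [List.take_of_length_le (by omega), List.take_of_length_le (by omega)]

@[fun_prop] theorem pt_two_pow {f : α → List β} (hf : PT f) : PT (fun a => 2 ^ (f a).length) := by
  have key : ∀ i : ℕ, (fun m : ℕ => 2 * m)^[i] 1 = 2 ^ i := fun i => by
    induction i with
    | zero => rfl
    | succ i ih => rw [Function.iterate_succ_apply', ih, pow_succ']
  refine (PT.iterate (h := fun _ (m : ℕ) => 2 * m) (by fun_prop) hf (PT.const 1)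
    (fun a => 4 * ((f a).length + 1) + 1) (by fun_prop) fun a i hi => sz_nat_le ?_).of_eq
    fun a => key _
  rw [key]
  exact Nat.pow_lt_pow_right one_lt_two (by omega)

theorem Pb.unary {φ : α → ℕ} (h : Pb φ) :
    ∃ len : α → List Unit, PT len ∧ ∀ a, φ a ≤ (len a).length := by
  obtain ⟨k, hk⟩ := h
  suffices ∃ len : α → List Unit, PT len ∧ ∀ a, (len a).length = (sz a + 2) ^ k by
    obtain ⟨len, h1, h2⟩ := this
    exact ⟨len, h1, fun a => h2 a ▸ hk a⟩
  clear hk
  induction k with
  | zero => exact ⟨fun _ => [()], by fun_prop, fun _ => rfl⟩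
  | succ k ih =>
    obtain ⟨len, h1, h2⟩ := ih
    refine ⟨fun a => (true :: true :: code a).flatMap fun _ => len a, by fun_prop, fun a => ?_⟩
    simp [List.length_flatMap, h2, sz, pow_succ]
    ring

open Classical in
/-- The levels of the hierarchy of majority quantifiers, for predicates on encodable types. -/
def K : ℕ → (α : Type) → [Enc α] → (α → Prop) → Prop
  | 0, _, _, P => PT (fun a => decide (P a))
  | j + 1, α, _, P => ∃ (len : α → List Unit) (Q : α × List Bool → Prop), PT len ∧
      K j (α × List Bool) Q ∧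
      ∀ a, P a ↔ 2 ^ (len a).length < 2 * cnt (len a).length fun r => Q (a, r)

theorem K.comp : ∀ {j : ℕ} {α β : Type} [Enc α] [Enc β] {P : β → Prop} {f : α → β},
    K j β P → PT f → K j α (fun a => P (f a))
  | 0, _, _, _, _, _, _, h, hf => PT.comp h hf
  | _ + 1, _, _, _, _, _, f, ⟨len, Q, h1, h2, h3⟩, hf =>
    ⟨fun a => len (f a), fun p => Q (f p.1, p.2), h1.comp hf, K.comp h2 (by fun_prop),
      fun a => h3 (f a)⟩

theorem K.congr {j : ℕ} {P Q : α → Prop} (h : K j α P) (e : ∀ a, P a ↔ Q a) : K j α Q := by
  rwa [← show P = Q from funext fun a => propext (e a)]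

theorem K.succ {j : ℕ} {P : α → Prop} (h : K j α P) : K (j + 1) α P := by
  classical
  refine ⟨fun _ => [], fun p => P p.1, by fun_prop, h.comp (by fun_prop), fun a => ?_⟩
  by_cases h : P a <;> simp [h, cnt_zero]

theorem K.mono {j k : ℕ} {P : α → Prop} (h : K j α P) (hk : j ≤ k) : K k α P := by
  induction hk with
  | refl => exact h
  | step _ ih => exact ih.succ

theorem K.of_pt {j : ℕ} {P : α → Prop} [DecidablePred P] (h : PT fun a => decide (P a)) :
    K j α P := K.mono (j := 0) (h.of_eq fun a => by simp) j.zero_le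

theorem K.ite : ∀ {j : ℕ} {α : Type} [Enc α] {P Q : α → Prop} {c : α → Bool},
    PT c → K j α P → K j α Q → K j α (fun a => if c a then P a else Q a)
  | 0, _, _, _, _, c, hc, h, h' => (PT.cond hc h h').of_eq fun a => by cases h : c a <;> simp [h]
  | _ + 1, _, _, _, _, c, hc, ⟨len, Q, h1, h2, h3⟩, ⟨len', Q', h1', h2', h3'⟩ =>
    ⟨fun a => cond (c a) (len a) (len' a), fun p => if c p.1 then Q p else Q' p, by fun_prop,
      K.ite (by fun_prop) h2 h2', fun a => by cases h : c a <;> simp [h, h3, h3']⟩

theorem K.thr {j : ℕ} {Q : α × List Bool → Prop} {len : α → List Unit} {t : α → ℕ}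
    (h : K j _ Q) (hl : PT len) (ht : PT t) :
    K (j + 1) α (fun a => t a ≤ cnt (len a).length fun r => Q (a, r)) := by
  have : K (j + 1) α (fun a => 2 ^ (len a).length <
      cnt (len a).length (fun r => Q (a, r)) + min (2 ^ (len a).length + 1 - t a)
        (2 ^ (len a).length)) := by
    refine ⟨fun a => () :: len a, fun p => if p.2.headD false then Q (p.1, p.2.tail) else
      val p.2.tail < 2 ^ (len p.1).length + 1 - t p.1, by fun_prop,
      K.ite (by fun_prop) (h.comp (by fun_prop)) (K.of_pt (by fun_prop)), fun a => ?_⟩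
    simp only [List.length_cons, cnt_succ, List.headD_cons, List.tail_cons, if_true,
      Bool.false_eq_true, if_false, cnt_val, pow_succ]
    omega
  refine (K.ite (c := fun a => decide (t a = 0)) (by fun_prop)
    (K.of_pt (P := fun _ => True) (by fun_prop)) this).congr fun a => ?_
  have := cnt_not (len a).length fun r => Q (a, r)
  by_cases h : t a = 0 <;> simp [h]
  omega

theorem K.not : ∀ {j : ℕ} {α : Type} [Enc α] {P : α → Prop}, K j α P → K j α (fun a => ¬P a)
  | 0, _, _, _, h => (PT.not h).of_eq fun a => by simp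
  | _ + 1, _, _, _, ⟨len, Q, h1, h2, h3⟩ => by
    refine ((K.not h2).thr (t := fun a => (2 ^ (len a).length + 1) / 2) h1
      (by fun_prop)).congr fun a => ?_
    have := cnt_not (len a).length fun r => Q (a, r)
    rw [h3]
    omega

/-- Types with a polynomial time decoder. -/
class Dec (α : Type) [Enc α] where
  /-- The decoder. -/
  dec : Tr → α
  /-- Decoding inverts encoding. -/
  dec_enc : ∀ a, dec (enc a) = a
  /-- Decoding is fast. -/
  pt : PT dec

theorem pt_left : PT Tr.left := PT.left (α := Tr)

theorem pt_right : PT Tr.right := PT.right (α := Tr)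

instance : Dec Tr := ⟨fun t => t, fun _ => rfl, PT.id⟩

instance : Dec Unit := ⟨fun _ => (), fun _ => rfl, PT.const _⟩

instance : Dec Bool := ⟨Tr.isNode, fun b => by cases b <;> rfl, PT.isNode (α := Tr)⟩

instance [Dec α] [Dec β] : Dec (α × β) :=
  ⟨fun t => (Dec.dec t.left, Dec.dec t.right), fun p => Prod.ext (Dec.dec_enc p.1) (Dec.dec_enc p.2),
    (Dec.pt.comp pt_left).pair (Dec.pt.comp pt_right)⟩

/-- A tree as a list of trees. -/
def spine : Tr → List Tr
  | .nil => []
  | .node a b => a :: spine b

theorem enc_spine : ∀ t : Tr, enc (spine t) = t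
  | .nil => rfl
  | .node a b => congrArg (Tr.node a) (enc_spine b)

instance [Dec α] : Dec (List α) :=
  ⟨fun t => (spine t).map Dec.dec, fun l => by
    induction l with
    | nil => rfl
    | cons a l ih => rw [enc_cons, spine, List.map_cons, ih, Dec.dec_enc],
    PT.map (g := fun _ => Dec.dec) (PT.id.of_enc fun t => (enc_spine t).symm)
      (Dec.pt.comp PT.id.snd)⟩

instance : Dec ℕ :=
  ⟨fun t => val (Dec.dec t), fun n => (congrArg val (Dec.dec_enc n.bits)).trans (bval_bits n),
    pt_val Dec.pt⟩

instance : Dec ℤ :=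
  ⟨fun t => cond (Dec.dec t : Bool × ℕ).1 (-(Dec.dec t : Bool × ℕ).2) (Dec.dec t : Bool × ℕ).2,
    fun z => by
      rw [show (Dec.dec (enc z) : Bool × ℕ) = (decide (z < 0), z.natAbs) from Dec.dec_enc _]
      by_cases h : z < 0 <;> simp only [h, decide_true, decide_false, cond_true, cond_false] <;>
        omega,
    PT.comp (f := fun p : Bool × ℕ => cond p.1 (-(p.2 : ℤ)) p.2) (by fun_prop) Dec.pt⟩

/-- One step of the parser. -/
def pstep (st : List Tr) (b : Bool) : List Tr :=
  cond b (.node (st.headD .nil) (st.tail.headD .nil) :: st.tail.tail) (.nil :: st)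

theorem foldl_ser : ∀ (t : Tr) (st : List Tr), (ser t).reverse.foldl pstep st = t :: st
  | .nil, _ => rfl
  | .node a b, st => by
    rw [ser, List.reverse_cons, List.reverse_append, List.foldl_append, List.foldl_append,
      foldl_ser b, foldl_ser a]
    rfl

/-- The parser. -/
def prs [Dec α] (w : List Bool) : α := Dec.dec ((w.reverse.foldl pstep []).headD .nil)

theorem prs_code [Dec α] (a : α) (w : List Bool) : prs (code a ++ w) = a := by
  rw [prs, List.reverse_append, List.foldl_append, code, foldl_ser]
  exact Dec.dec_enc a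

theorem code_inj [Dec α] {a b : α} (h : code a = code b) : a = b := by
  rw [← prs_code a [], h, prs_code]

@[fun_prop] theorem pt_prs [Dec β] {f : α → List Bool} (hf : PT f) :
    PT (fun a => (prs (f a) : β)) := by
  have h1 : PT (fun p : α × List Tr × Bool =>
      Tr.node (p.2.1.headD .nil) (p.2.1.tail.headD .nil)) :=
    PT.of_enc (f := fun p : α × List Tr × Bool => (p.2.1.headD .nil, p.2.1.tail.headD .nil))
      (by fun_prop) fun _ => rfl
  refine Dec.pt.comp (PT.headD (PT.foldl_add (h := fun _ => pstep) (by unfold pstep; fun_prop)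
    hf.reverse (PT.const _) (fun _ => 4) (by fun_prop) fun _ st b => ?_) (PT.const _))
  have e : ∀ a b : Tr, sz (Tr.node a b) = sz a + sz b + 1 := fun a b => sz_pair a b
  have e0 : sz Tr.nil = 1 := rfl
  rcases st with _ | ⟨x, _ | ⟨y, st⟩⟩ <;> cases b <;> simp [pstep, e, e0] <;> omega

theorem K.level : ∀ {j : ℕ} {α : Type} [Enc α] {P : α → Prop} {d : List Bool → α},
    PT d → K j α P → Level j {w | P (d w)}
  | 0, _, _, P, d, hd, h => by
    have := inP_of_pt (PT.comp h hd)
    simpa [Level] using this
  | j + 1, α, _, P, d, hd, ⟨len, Q, h1, h2, h3⟩ => by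
    obtain ⟨k, hk⟩ : Pb fun w => (len (d w)).length := by fun_prop
    refine ⟨_, K.level (d := fun w => (d (prs w : List Bool × List Bool).1,
      (prs w : List Bool × List Bool).2.take (len (d (prs w : List Bool × List Bool).1)).length))
      (PT.comp (f := fun p : List Bool × List Bool => (d p.1, p.2.take (len (d p.1)).length))
        (by fun_prop) (pt_prs PT.id)) h2, ?_⟩
    refine (congrArg (InPP _) (Set.ext fun x => ?_)).mp
      (inPP_query _ ((4 * Polynomial.X + 3) ^ k))
    obtain ⟨s, hs⟩ : ∃ s, ((4 * Polynomial.X + 3) ^ k : Polynomial ℕ).eval x.length =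
        s + (len (d x)).length := by
      refine Nat.exists_eq_add_of_le' ((hk x).trans ?_)
      have := sz_bits x
      simpa using Nat.pow_le_pow_left (show sz x + 2 ≤ 4 * x.length + 3 by omega) k
    have e : ∀ r : List Bool, (prs (code (x, r)) : List Bool × List Bool) = (x, r) := fun r => by
      simpa using prs_code (x, r) []
    simp only [Set.mem_ofPred_eq, cnt_eq_ncard, e, hs, h3]
    rw [cnt_take s _ fun r => Q (d x, r), pow_add, mul_left_comm,
      Nat.mul_lt_mul_left (by positivity)]

end Vale.Agent.P337
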