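import Vale.Agent.P337.Arith

/-! Integers with exponentially many digits, given by their residues. -/

namespace Vale.Agent.P337

open Vale.Agent.Lib.H24.T Finset

set_option linter.unusedSectionVars false

variable {α β γ δ : Type} [Enc α] [Enc β] [Enc γ] [Enc δ] [Dec α] [Dec β] [Dec γ] [Dec δ]

/-- Integers with exponentially many digits whose residues are computable. -/
@[fun_prop] def Big (G : α → ℤ) : Prop :=
  ∃ T : α → ℕ, CF T ∧ (∀ a, |G a| ≤ 2 ^ T a) ∧ ∃ φ : α × ℕ → ℕ, CF φ ∧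
    ∀ a p, p.Prime → T a ≤ p → (φ (a, p) : ZMod p) = G a

theorem Big.of_eq {F G : α → ℤ} (h : Big F) (e : ∀ a, F a = G a) : Big G := by
  rwa [← show F = G from funext e]

@[fun_prop] theorem Big.comp {G : β → ℤ} {f : α → β} (h : Big G) (hf : CF f) :
    Big fun a => G (f a) := by
  obtain ⟨T, h1, h2, φ, h3, h4⟩ := h
  exact ⟨fun a => T (f a), by fun_prop, fun a => h2 _, fun p => φ (f p.1, p.2), by fun_prop,
    fun a => h4 _⟩

@[fun_prop] theorem CF.natAbs {f : α → ℤ} (hf : CF f) : CF fun a => (f a).natAbs :=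
  (PT.cf PT.id.natAbs).comp hf

@[fun_prop] theorem CF.natCast {f : α → ℕ} (hf : CF f) : CF fun a => (f a : ℤ) :=
  (PT.cf PT.id.natCast).comp hf

theorem CH.neg {f : α → ℤ} (hf : CF f) : CH fun a => f a < 0 := (CH.of_pt PT.id.neg_test).comp hf

theorem cast_pred {p : ℕ} (hp : p.Prime) : ((p - 1 : ℕ) : ZMod p) = -1 := by
  rw [Nat.cast_sub hp.pos]; simp

theorem Big.cf {f : α → ℤ} (hf : CF f) : Big f := by
  refine ⟨fun a => (f a).natAbs, by fun_prop, fun a => ?_,
    fun p => if f p.1 < 0 then (p.2 - 1) * (f p.1).natAbs else (f p.1).natAbs,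
    CF.ite (CH.neg (by fun_prop)) (by fun_prop) (by fun_prop),
    fun a p hp _ => ?_⟩
  · rw [Int.abs_eq_natAbs]
    exact_mod_cast Nat.lt_two_pow_self.le
  · simp only
    rw [← Int.cast_natCast (R := ZMod p)]
    split_ifs with h
    · rw [Nat.cast_mul, Int.cast_mul, Int.cast_natCast, cast_pred hp, Int.natCast_natAbs,
        abs_of_neg h]
      simp
    · rw [Int.natCast_natAbs, abs_of_nonneg (not_lt.1 h)]

@[fun_prop] theorem Big.const (c : ℤ) : Big fun _ : α => c := Big.cf (CF.const c)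

@[fun_prop] theorem Big.natCast {f : α → ℕ} (hf : CF f) : Big fun a => (f a : ℤ) :=
  Big.cf hf.natCast

theorem two_pow_le {m n : ℕ} (h : m ≤ n) : (2 : ℤ) ^ m ≤ 2 ^ n := pow_le_pow_right₀ one_le_two h

@[fun_prop] theorem Big.add {F G : α → ℤ} (h : Big F) (h' : Big G) : Big fun a => F a + G a := by
  obtain ⟨T, h1, h2, φ, h3, h4⟩ := h
  obtain ⟨T', k1, k2, φ', k3, k4⟩ := h'
  refine ⟨fun a => T a + T' a + 1, by fun_prop, fun a => ?_, fun p => φ p + φ' p, by fun_prop,
    fun a p hp h => ?_⟩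
  · have := two_pow_le (show T a ≤ T a + T' a by omega)
    have := two_pow_le (show T' a ≤ T a + T' a by omega)
    have := abs_add_le (F a) (G a)
    have := h2 a
    have := k2 a
    simp only [pow_succ]; omega
  · simp only at h
    simp [h4 a p hp (by omega), k4 a p hp (by omega)]

@[fun_prop] theorem Big.mul {F G : α → ℤ} (h : Big F) (h' : Big G) : Big fun a => F a * G a := by
  obtain ⟨T, h1, h2, φ, h3, h4⟩ := h
  obtain ⟨T', k1, k2, φ', k3, k4⟩ := h'
  refine ⟨fun a => T a + T' a, by fun_prop, fun a => ?_, fun p => φ p * φ' p, by fun_prop,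
    fun a p hp h => ?_⟩
  · rw [abs_mul, pow_add]
    exact mul_le_mul (h2 a) (k2 a) (abs_nonneg _) (by positivity)
  · simp only at h
    simp [h4 a p hp (by omega), k4 a p hp (by omega)]

@[fun_prop] theorem Big.neg {F : α → ℤ} (h : Big F) : Big fun a => -F a :=
  ((Big.const (-1)).mul h).of_eq fun a => by simp

@[fun_prop] theorem Big.sub {F G : α → ℤ} (h : Big F) (h' : Big G) : Big fun a => F a - G a :=
  (h.add h'.neg).of_eq fun a => by ring

@[fun_prop] theorem Big.ite {c : α → Prop} [DecidablePred c] {F G : α → ℤ} (hc : CH c) (h : Big F)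
    (h' : Big G) : Big fun a => if c a then F a else G a :=
  (show Big fun a => ((if c a then 1 else 0 : ℕ) : ℤ) * F a +
    ((if c a then 0 else 1 : ℕ) : ℤ) * G a by fun_prop).of_eq fun a => by split_ifs <;> simp

@[fun_prop] theorem Big.pow {F : α → ℤ} {k : α → ℕ} (h : Big F) (hk : CF k) :
    Big fun a => F a ^ k a := by
  obtain ⟨T, h1, h2, φ, h3, h4⟩ := h
  refine ⟨fun a => T a * k a + T a, by fun_prop, fun a => ?_,
    fun p => pm (φ p) (k p.1) (p.2 - 1), by fun_prop, fun a p hp h => ?_⟩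
  · rw [abs_pow]
    exact (pow_le_pow_left₀ (abs_nonneg _) (h2 a) _).trans
      (by rw [← pow_mul]; exact two_pow_le (Nat.le_add_right _ _))
  · simp only at h
    simp [pm_cast hp.pos, h4 a p hp (by omega)]

@[fun_prop] theorem Big.sum {S : α → Finset β} {F : α → β → ℤ} (hS : CS S)
    (h : Big fun p : α × β => F p.1 p.2) : Big fun a => ∑ y ∈ S a, F a y := by
  obtain ⟨T, h1, h2, φ, h3, h4⟩ := h
  have k : ∀ a, ∀ y ∈ S a, T (a, y) ≤ ∑ y ∈ S a, T (a, y) := fun a y hy =>
    single_le_sum (f := fun y => T (a, y)) (fun _ _ => Nat.zero_le _) hy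
  refine ⟨fun a => (S a).card + ∑ y ∈ S a, T (a, y), by fun_prop, fun a => ?_,
    fun p => ∑ y ∈ S p.1, φ ((p.1, y), p.2), by fun_prop, fun a p hp h => ?_⟩
  · refine (abs_sum_le_sum_abs _ _).trans ((sum_le_card_nsmul _ _ _ fun y hy =>
      (h2 (a, y)).trans (two_pow_le (k a y hy))).trans ?_)
    rw [nsmul_eq_mul, pow_add]
    exact mul_le_mul_of_nonneg_right (by exact_mod_cast Nat.lt_two_pow_self.le) (by positivity)
  · push_cast
    exact sum_congr rfl fun y hy => h4 (a, y) p hp ((k a y hy).trans (le_of_add_le_right h))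

@[fun_prop] theorem Big.prod {S : α → Finset β} {F : α → β → ℤ} (hS : CS S)
    (h : Big fun p : α × β => F p.1 p.2) : Big fun a => ∏ y ∈ S a, F a y := by
  obtain ⟨T, h1, h2, φ, h3, h4⟩ := h
  obtain ⟨ψ, k1, k2⟩ := prodMod (S := fun p : α × ℕ => S p.1) (f := fun p y => φ ((p.1, y), p.2))
    (p := fun p => p.2) (by fun_prop) (by fun_prop) (by fun_prop)
  refine ⟨fun a => ∑ y ∈ S a, T (a, y), by fun_prop, fun a => ?_, ψ, k1, fun a p hp h => ?_⟩
  · rw [abs_prod, ← prod_pow_eq_pow_sum]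
    exact prod_le_prod (fun _ _ => abs_nonneg _) fun y _ => h2 (a, y)
  · rw [k2 (a, p) hp]
    push_cast
    exact prod_congr rfl fun y hy => h4 (a, y) p hp
      ((single_le_sum (f := fun y => T (a, y)) (fun _ _ => Nat.zero_le _) hy).trans h)

theorem sum_range_zmod {p : ℕ} [NeZero p] {M : Type} [AddCommMonoid M] (f : ZMod p → M) :
    ∑ z ∈ range p, f z = ∑ x, f x :=
  sum_nbij' Nat.cast ZMod.val (by simp) (fun x _ => by simpa using ZMod.val_lt x)
    (fun z hz => ZMod.val_cast_of_lt (mem_range.1 hz)) (by simp) (by simp)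

theorem sum_pow_zmod {p : ℕ} [Fact p.Prime] {m : ℕ} (hm : m ≠ 0) :
    ∑ x : ZMod p, x ^ m = if p - 1 ∣ m then -1 else 0 := by
  have := FiniteField.sum_pow_units (ZMod p) m
  rw [ZMod.card] at this
  rw [← this, ← sum_erase (s := univ) (a := 0) (zero_pow hm)]
  refine (sum_bij (fun (x : (ZMod p)ˣ) _ => (x : ZMod p)) (by simp)
    (fun _ _ _ _ h => Units.ext h) (fun x hx => ?_) (by simp)).symm
  exact ⟨Units.mk0 x (mem_erase.1 hx).1, mem_univ _, rfl⟩

open Polynomial in
theorem coeff_eq_sum {p : ℕ} [Fact p.Prime] {Q : (ZMod p)[X]} {D k : ℕ} (hQ : Q.natDegree ≤ D)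
    (hk : k ≤ D) (hp : D + 2 ≤ p) :
    -∑ z ∈ range p, (z : ZMod p) ^ (p - 1 - k) * Q.eval (z : ZMod p) = Q.coeff k := by
  rw [sum_range_zmod fun z => z ^ (p - 1 - k) * Q.eval z]
  simp only [eval_eq_sum_range' (Nat.lt_succ_of_le hQ), mul_sum,
    mul_left_comm (_ ^ (p - 1 - k)), ← pow_add]
  rw [sum_comm, sum_eq_single k]
  · rw [← mul_sum, sum_pow_zmod (by omega), if_pos ⟨1, by omega⟩]; simp
  · intro i hi h
    have := mem_range.1 hi
    rw [← mul_sum, sum_pow_zmod (by omega), if_neg, mul_zero]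
    rintro ⟨c, hc⟩
    rcases c with _ | _ | c
    · omega
    · omega
    · have : (p - 1) * 2 ≤ (p - 1) * (c + 1 + 1) := Nat.mul_le_mul_left _ (by omega)
      omega
  · intro h
    exact absurd (mem_range.2 (by omega)) h

open Polynomial in
/-- The numerator of a Lagrange basis polynomial. -/
noncomputable def lagW (D j : ℕ) : ℤ[X] := ∏ i ∈ (range (D + 1)).erase j, (X - C (i : ℤ))

open Polynomial in
theorem abs_coeff_le {B : ℕ} (s : Finset ℕ) (hs : ∀ i ∈ s, i ≤ B) :
    ∀ k, |(∏ i ∈ s, (X - C (i : ℤ))).coeff k| ≤ (B + 1 : ℤ) ^ s.card := by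
  induction s using Finset.induction_on with
  | empty => intro k; simp only [prod_empty, coeff_one]; split_ifs <;> simp
  | insert i s hi ih =>
    intro k
    have ih := ih fun j hj => hs j (mem_insert_of_mem hj)
    have h1 : (i : ℤ) ≤ B := by exact_mod_cast hs i (mem_insert_self _ _)
    have h2 : |(X * ∏ i ∈ s, (X - C (i : ℤ))).coeff k| ≤ (B + 1 : ℤ) ^ s.card := by
      rcases k with _ | k
      · rw [coeff_X_mul_zero]; positivity
      · rw [coeff_X_mul]; exact ih k
    rw [prod_insert hi, card_insert_of_notMem hi, sub_mul, coeff_sub, coeff_C_mul, pow_succ]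
    refine (abs_sub _ _).trans ?_
    rw [abs_mul, Nat.abs_cast]
    nlinarith [mul_le_mul h1 (ih k) (abs_nonneg _) (by positivity)]

open Polynomial in
theorem natDegree_lagW (D j : ℕ) : (lagW D j).natDegree ≤ D + 1 := by
  refine (natDegree_prod_le _ _).trans ?_
  simp only [natDegree_X_sub_C, sum_const, smul_eq_mul, mul_one]
  exact card_erase_le.trans (card_range _).le

open Polynomial in
theorem big_lagW : Big fun x : ℕ × ℕ × ℕ => (lagW x.1 x.2.1).coeff x.2.2 := by
  obtain ⟨ψ, k1, k2⟩ := prodMod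
    (S := fun q : ((ℕ × ℕ × ℕ) × ℕ) × ℕ => (range (q.1.1.1 + 1)).erase q.1.1.2.1)
    (f := fun q i => q.2 + (q.1.2 - 1) * i) (p := fun q => q.1.2) (by fun_prop) (by fun_prop)
    (by fun_prop)
  refine ⟨fun x => x.1 * (x.1 + 1) + x.1 + 3, by fun_prop, fun x => ?_,
    fun q => if q.1.2.2 ≤ q.1.1 + 1 then (q.2 - 1) * ∑ z ∈ range q.2,
      pm z (q.2 - 1 - q.1.2.2) (q.2 - 1) * ψ (q, z) else 0, by fun_prop, fun x p hp h => ?_⟩
  · refine (abs_coeff_le (B := x.1) _ (fun i hi => ?_) _).trans ?_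
    · exact Nat.le_of_lt_succ (mem_range.1 (mem_erase.1 hi).2)
    · calc _ ≤ ((2 : ℤ) ^ x.1) ^ _ := pow_le_pow_left₀ (by positivity)
            (by exact_mod_cast Nat.lt_two_pow_self) _
        _ ≤ ((2 : ℤ) ^ x.1) ^ (x.1 + 1) := pow_le_pow_right₀ (one_le_pow₀ one_le_two)
            (card_erase_le.trans (card_range _).le)
        _ ≤ _ := by rw [← pow_mul]; exact two_pow_le (by simp only; omega)
  · have := Fact.mk hp
    simp only at h ⊢
    split_ifs with hk
    · rw [← eq_intCast (Int.castRingHom (ZMod p)), ← coeff_map, ← coeff_eq_sum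
        (natDegree_map_le.trans (natDegree_lagW _ _)) hk (by omega)]
      push_cast
      rw [cast_pred hp, neg_one_mul]
      refine congrArg _ (sum_congr rfl fun z _ => ?_)
      rw [pm_cast hp.pos, k2 ((x, p), z) hp, lagW, Polynomial.map_prod, eval_prod]
      refine congrArg _ (prod_congr rfl fun i _ => ?_)
      simp [cast_pred hp, sub_eq_add_neg]
    · rw [coeff_eq_zero_of_natDegree_lt ((natDegree_lagW _ _).trans_lt (not_le.1 hk))]; simp

end Vale.Agent.P337
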