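import Vale.Agent.P337.Base

/-! Predicates, functions and finite sets definable in the counting hierarchy. -/

namespace Vale.Agent.P337

open Vale.Agent.Lib.H24.T Finset

set_option linter.unusedSectionVars false

variable {α β γ δ : Type} [Enc α] [Enc β] [Enc γ] [Enc δ]

/-- Predicates in the counting hierarchy. -/
@[fun_prop] def CH (P : α → Prop) : Prop := ∃ j, K j α P

/-- Functions of polynomial growth with graph in the counting hierarchy. -/
@[fun_prop] def CF (f : α → β) : Prop :=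
  Pb (fun a => sz (f a)) ∧ CH (fun p : α × β => f p.1 = p.2)

/-- Sets of short elements with membership in the counting hierarchy. -/
@[fun_prop] def CS (S : α → Finset β) : Prop :=
  (∃ φ, Pb φ ∧ ∀ a, ∀ y ∈ S a, sz y ≤ φ a) ∧ CH (fun p : α × β => p.2 ∈ S p.1)

theorem CH.congr {P Q : α → Prop} (h : CH P) (e : ∀ a, P a ↔ Q a) : CH Q :=
  h.imp fun _ h => h.congr e

theorem CF.of_eq {f g : α → β} (h : CF f) (e : ∀ a, f a = g a) : CF g := by
  rwa [← show f = g from funext e]

theorem CH.pt {P : β → Prop} {f : α → β} (h : CH P) (hf : PT f) : CH fun a => P (f a) :=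
  h.imp fun _ h => h.comp hf

theorem CH.of_pt {P : α → Prop} [DecidablePred P] (h : PT fun a => decide (P a)) : CH P :=
  ⟨0, K.of_pt h⟩

@[fun_prop] theorem CH.const (q : Prop) : CH fun _ : α => q := by
  classical exact CH.of_pt (PT.const _)

@[fun_prop] theorem CH.not {P : α → Prop} (h : CH P) : CH fun a => ¬P a := h.imp fun _ h => h.not

theorem CH.thr {Q : α × List Bool → Prop} {len : α → List Unit} {t : α → ℕ}
    (h : CH Q) (hl : PT len) (ht : PT t) :
    CH fun a => t a ≤ cnt (len a).length fun r => Q (a, r) :=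
  h.elim fun j h => ⟨j + 1, h.thr hl ht⟩

theorem cnt_eq_card (m : ℕ) (Q : List Bool → Prop) [DecidablePred Q] :
    cnt m Q = ((lists m univ).filter Q).card := by
  rw [cnt, card_filter]; congr; funext r; congr

theorem CH.exBits {Q : α × List Bool → Prop} {len : α → List Unit} (h : CH Q) (hl : PT len) :
    CH fun a => ∃ r, r.length = (len a).length ∧ Q (a, r) := by
  classical
  refine (h.thr hl (PT.const 1)).congr fun a => ?_
  rw [cnt_eq_card, Nat.one_le_iff_ne_zero, card_ne_zero]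
  simp [Finset.Nonempty, mem_lists]

@[fun_prop] theorem CH.or {P Q : α → Prop} (h : CH P) (h' : CH Q) : CH fun a => P a ∨ Q a := by
  obtain ⟨j, h⟩ := h
  obtain ⟨k, h'⟩ := h'
  have := K.ite (c := fun p : α × List Bool => p.2.headD false) (by fun_prop)
    ((h.mono (le_max_left j k)).comp PT.id.fst) ((h'.mono (le_max_right j k)).comp PT.id.fst)
  refine (CH.exBits ⟨_, this⟩ (PT.const [()])).congr fun a => ⟨fun ⟨r, _, h⟩ => ?_, fun h => ?_⟩
  · split_ifs at h
    exacts [.inl h, .inr h]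
  · exact h.elim (fun h => ⟨[true], rfl, by simpa⟩) fun h => ⟨[false], rfl, by simpa⟩

@[fun_prop] theorem CH.and {P Q : α → Prop} (h : CH P) (h' : CH Q) : CH fun a => P a ∧ Q a :=
  (h.not.or h'.not).not.congr fun a => by tauto

theorem CH.ex [Dec β] {Q : α × β → Prop} (h : CH Q) {φ : α → ℕ} (hφ : Pb φ)
    (hb : ∀ a y, Q (a, y) → sz y ≤ φ a) : CH fun a => ∃ y, Q (a, y) := by
  obtain ⟨len, h1, h2⟩ := Pb.unary hφ
  refine (CH.exBits (h.pt (f := fun p : α × List Bool => (p.1, prs p.2))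
    (PT.id.fst.pair (pt_prs PT.id.snd))) h1).congr fun a =>
      ⟨fun ⟨r, _, h⟩ => ⟨_, h⟩, fun ⟨y, h⟩ => ⟨code y ++ List.replicate ((len a).length - sz y) false,
        ?_, by rwa [prs_code]⟩⟩
  have := (hb a y h).trans (h2 a)
  simp only [List.length_append, List.length_replicate, sz] at this ⊢
  omega

theorem pt_eq [Dec β] [DecidableEq β] {f g : α → β} (hf : PT f) (hg : PT g) :
    PT fun a => decide (f a = g a) := by
  have key : ∀ l m : List Bool, (decide (l.length = m.length) &&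
      (l.zip m).all fun p => cond p.1 p.2 !p.2) = decide (l = m) := by
    intro l
    induction l with
    | nil => intro m; cases m <;> simp
    | cons a l ih =>
      rintro (_ | ⟨b, m⟩)
      · simp
      · cases a <;> cases b <;> simp [← ih m]
  have : PT fun a => decide ((code (f a)).length = (code (g a)).length) &&
      ((code (f a)).zip (code (g a))).all fun p => cond p.1 p.2 !p.2 := by fun_prop
  refine this.of_eq fun a => ?_
  rw [key]
  exact decide_eq_decide.2 ⟨code_inj, fun h => h ▸ rfl⟩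

@[fun_prop] theorem PT.cf [Dec β] {f : α → β} (h : PT f) : CF f := by
  classical exact ⟨Pb.sz h, CH.of_pt (pt_eq (h.comp PT.id.fst) PT.id.snd)⟩

@[fun_prop] theorem CF.pb {f : α → β} (h : CF f) : Pb fun a => sz (f a) := h.1

@[fun_prop] theorem CF.pb_length {f : α → List β} (h : CF f) : Pb fun a => (f a).length :=
  h.1.mono fun _ => length_le_sz _

@[fun_prop] theorem Pb.compCF {φ : β → ℕ} {f : α → β} (h : Pb φ) (hf : CF f) :
    Pb fun a => φ (f a) := h.comp hf.1

@[fun_prop] theorem CH.comp [Dec β] {P : β → Prop} {f : α → β} (h : CH P) (hf : CF f) :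
    CH fun a => P (f a) :=
  (CH.ex (hf.2.and (h.pt PT.id.snd)) hf.1 fun _ _ h => h.1 ▸ le_rfl).congr fun a => by simp

@[fun_prop] theorem CF.id [Dec α] : CF fun a : α => a := PT.cf PT.id

@[fun_prop] theorem CF.const [Dec β] (b : β) : CF fun _ : α => b := PT.cf (PT.const b)

theorem CF.pt {f : β → γ} {g : α → β} (hf : CF f) (hg : PT g) : CF fun a => f (g a) :=
  ⟨hf.1.comp (Pb.sz hg), hf.2.pt (f := fun p : α × γ => (g p.1, p.2)) (by fun_prop)⟩

@[fun_prop] theorem CF.pair {f : α → β} {g : α → γ} (hf : CF f) (hg : CF g) :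
    CF fun a => (f a, g a) :=
  ⟨((hf.1.add hg.1).add (Pb.const 1)).mono fun a => (sz_pair _ _).le,
    ((hf.2.pt (f := fun p : α × β × γ => (p.1, p.2.1)) (by fun_prop)).and
      (hg.2.pt (f := fun p : α × β × γ => (p.1, p.2.2)) (by fun_prop))).congr fun p =>
        (Prod.ext_iff (x := (f p.1, g p.1))).symm⟩

@[fun_prop] theorem CF.comp [Dec β] [Dec γ] {f : β → γ} {g : α → β} (hf : CF f) (hg : CF g) :
    CF fun a => f (g a) :=
  ⟨hf.1.comp hg.1, hf.2.comp ((hg.pt PT.id.fst).pair (PT.cf PT.id.snd))⟩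

@[fun_prop] theorem CF.fst [Dec β] [Dec γ] {f : α → β × γ} (hf : CF f) : CF fun a => (f a).1 :=
  (PT.cf PT.id.fst).comp hf

@[fun_prop] theorem CF.snd [Dec β] [Dec γ] {f : α → β × γ} (hf : CF f) : CF fun a => (f a).2 :=
  (PT.cf PT.id.snd).comp hf

variable [Dec α] [Dec β] [Dec γ] [Dec δ]

@[fun_prop] theorem CH.eq {f g : α → β} (hf : CF f) (hg : CF g) : CH fun a => f a = g a :=
  hf.2.comp (CF.id.pair hg)

@[fun_prop] theorem CH.ne {f g : α → β} (hf : CF f) (hg : CF g) : CH fun a => f a ≠ g a :=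
  (CH.eq hf hg).not

@[fun_prop] theorem CF.ite {c : α → Prop} [DecidablePred c] {f g : α → β} (hc : CH c) (hf : CF f)
    (hg : CF g) : CF fun a => if c a then f a else g a :=
  ⟨(hf.1.add hg.1).mono fun a => by beta_reduce; split_ifs <;> omega,
    (((hc.pt PT.id.fst).and hf.2).or ((hc.pt PT.id.fst).not.and hg.2)).congr fun p => by
      by_cases h : c p.1 <;> simp [h]⟩

@[fun_prop] theorem CF.decide {c : α → Prop} [DecidablePred c] (hc : CH c) :
    CF fun a => decide (c a) :=
  (CF.ite hc (CF.const true) (CF.const false)).of_eq fun a => by by_cases h : c a <;> simp [h]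

theorem CF.pt2 {f : α → β} {g : α → γ} {h : β → γ → δ} (hh : PT fun p : β × γ => h p.1 p.2)
    (hf : CF f) (hg : CF g) : CF fun a => h (f a) (g a) := (PT.cf hh).comp (hf.pair hg)

@[fun_prop] theorem CF.add {f g : α → ℕ} (hf : CF f) (hg : CF g) : CF fun a => f a + g a :=
  CF.pt2 (h := (· + ·)) (by fun_prop) hf hg

@[fun_prop] theorem CF.mul {f g : α → ℕ} (hf : CF f) (hg : CF g) : CF fun a => f a * g a :=
  CF.pt2 (h := (· * ·)) (by fun_prop) hf hg

@[fun_prop] theorem CF.sub {f g : α → ℕ} (hf : CF f) (hg : CF g) : CF fun a => f a - g a :=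
  CF.pt2 (h := (· - ·)) (by fun_prop) hf hg

@[fun_prop] theorem CH.le {f g : α → ℕ} (hf : CF f) (hg : CF g) : CH fun a => f a ≤ g a :=
  (CH.of_pt (P := fun p : ℕ × ℕ => p.1 ≤ p.2) (by fun_prop)).comp (hf.pair hg)

@[fun_prop] theorem CH.lt {f g : α → ℕ} (hf : CF f) (hg : CF g) : CH fun a => f a < g a :=
  (CH.le hg hf).not.congr fun _ => not_le

@[fun_prop] theorem CF.length {f : α → List β} (hf : CF f) : CF fun a => (f a).length :=
  (PT.cf PT.id.length).comp hf

@[fun_prop] theorem CF.getD {f : α → List β} {n : α → ℕ} {d : α → β} (hf : CF f) (hn : CF n)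
    (hd : CF d) : CF fun a => (f a).getD (n a) (d a) :=
  (PT.cf (f := fun p : List β × ℕ × β => p.1.getD p.2.1 p.2.2) (by fun_prop)).comp
    (hf.pair (hn.pair hd))

@[fun_prop] theorem CF.cons {f : α → β} {g : α → List β} (hf : CF f) (hg : CF g) :
    CF fun a => f a :: g a := CF.pt2 (h := (· :: ·)) (by fun_prop) hf hg

@[fun_prop] theorem CS.comp {S : β → Finset γ} {f : α → β} (h : CS S) (hf : CF f) :
    CS fun a => S (f a) := by
  obtain ⟨⟨φ, h1, h2⟩, h3⟩ := h
  exact ⟨⟨_, h1.comp hf.1, fun a => h2 _⟩, h3.comp (f := fun p : α × γ => (f p.1, p.2))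
    (by fun_prop)⟩

@[fun_prop] theorem CH.mem {S : α → Finset β} {f : α → β} (h : CS S) (hf : CF f) :
    CH fun a => f a ∈ S a := h.2.comp (CF.id.pair hf)

@[fun_prop] theorem CH.exS {S : α → Finset β} {P : α → β → Prop} (h : CS S)
    (hP : CH fun p : α × β => P p.1 p.2) : CH fun a => ∃ y ∈ S a, P a y := by
  obtain ⟨⟨φ, h1, h2⟩, h3⟩ := h
  exact CH.ex (h3.and hP) h1 fun a y h => h2 a y h.1

/-- Bounded universal quantification. -/
def All (S : Finset β) (P : β → Prop) : Prop := ∀ y ∈ S, P y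

@[fun_prop] theorem CH.all {S : α → Finset β} {P : α → β → Prop} (h : CS S)
    (hP : CH fun p : α × β => P p.1 p.2) : CH fun a => All (S a) (P a) :=
  (CH.exS (P := fun a y => ¬P a y) h hP.not).not.congr fun a => by simp [All]

@[fun_prop] theorem CS.range {n : α → ℕ} (hn : CF n) : CS fun a => range (n a) :=
  ⟨⟨fun a => 4 * sz (n a) + 1, by fun_prop, fun _ _ hy => sz_nat_mono (mem_range.1 hy).le⟩,
    (show CH fun p : α × ℕ => p.2 < n p.1 by fun_prop).congr fun _ => mem_range.symm⟩

@[fun_prop] theorem CS.filter {S : α → Finset β} {P : α → β → Prop} [∀ a, DecidablePred (P a)]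
    (h : CS S) (hP : CH fun p : α × β => P p.1 p.2) : CS fun a => (S a).filter (P a) := by
  obtain ⟨⟨φ, h1, h2⟩, h3⟩ := h
  exact ⟨⟨φ, h1, fun a y hy => h2 a y (mem_filter.1 hy).1⟩,
    (h3.and hP).congr fun _ => mem_filter.symm⟩

@[fun_prop] theorem CS.erase [DecidableEq β] {S : α → Finset β} {f : α → β} (h : CS S)
    (hf : CF f) : CS fun a => (S a).erase (f a) := by
  have := CS.filter (P := fun a y => y ≠ f a) h (by fun_prop)
  simpa only [filter_ne'] using this

@[fun_prop] theorem CS.toFinset [DecidableEq β] {l : α → List β} (h : CF l) :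
    CS fun a => (l a).toFinset := by
  refine ⟨⟨_, h.1, fun a y hy => sz_mem (List.mem_toFinset.1 hy)⟩, ?_⟩
  have : PT fun p : β × List β => p.2.any fun x => decide (x = p.1) :=
    PT.any PT.id.snd (pt_eq (by fun_prop) (by fun_prop))
  exact ((CH.of_pt (P := fun p : β × List β => p.1 ∈ p.2) (this.of_eq fun p => by
    rw [Bool.eq_iff_iff]; simp)).comp (f := fun p : α × β => (p.2, l p.1)) (by fun_prop)).congr
      fun _ => List.mem_toFinset.symm

@[fun_prop] theorem CS.lists {S : α → Finset β} {n : α → ℕ} (h : CS S) (hn : CF n)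
    (hn' : Pb n) : CS fun a => lists (n a) (S a) := by
  classical
  obtain ⟨φ, h1, h2⟩ := h.1
  refine ⟨⟨fun a => n a * (φ a + 1) + 1, by fun_prop, fun a y hy => ?_⟩, ?_⟩
  · beta_reduce
    rw [← (mem_lists.1 hy).1]
    exact sz_list_le fun x hx => h2 a x ((mem_lists.1 hy).2 x hx)
  · have : CH fun p : α × List β => p.2.length = n p.1 ∧ All p.2.toFinset fun x => x ∈ S p.1 := by
      fun_prop
    exact this.congr fun p => by simp [All, mem_lists]

theorem Pb.sup {S : α → Finset β} (h : CS S) {ψ : α × β → ℕ} (hψ : Pb ψ) :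
    ∃ χ, Pb χ ∧ ∀ a, ∀ y ∈ S a, ψ (a, y) ≤ χ a := by
  obtain ⟨φ, h1, h2⟩ := h.1
  obtain ⟨k, hk⟩ := hψ
  have := Pb.sz_id (α := α)
  refine ⟨fun a => (sz a + φ a + 3) ^ k, by fun_prop, fun a y hy => (hk _).trans ?_⟩
  have := h2 a y hy
  exact Nat.pow_le_pow_left (by rw [sz_pair]; omega) k

@[fun_prop] theorem CF.card {S : α → Finset β} (h : CS S) : CF fun a => (S a).card := by
  classical
  obtain ⟨⟨φ, h1, h2⟩, h3⟩ := h
  obtain ⟨len, l1, l2⟩ := Pb.unary h1
  let pad : α → β → List Bool := fun a y =>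
    (code y ++ (len a).map fun _ => false).take (len a).length
  have p1 : ∀ a, ∀ y ∈ S a, prs (pad a y) = y := fun a y hy => by
    simp only [pad]
    rw [List.take_append, List.take_of_length_le ((h2 a y hy).trans (l2 a)), prs_code]
  have key : ∀ a, cnt (len a).length (fun r => prs r ∈ S a ∧ r = pad a (prs r)) = (S a).card :=
    fun a => by
    rw [cnt_eq_card]
    refine (card_nbij' (pad a) prs (fun y hy => ?_) (fun r hr => ?_) (p1 a) fun r hr => ?_).symm
    · simp only [coe_filter, Set.mem_ofPred_eq, mem_lists, p1 a y hy]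
      exact ⟨⟨by simp [pad], by simp⟩, hy, trivial⟩
    · exact (mem_filter.1 hr).2.1
    · exact (mem_filter.1 hr).2.2.symm
  have p2 : PT fun p : α × List Bool => (prs p.2 : β) := pt_prs PT.id.snd
  have k1 : CH fun p : α × List Bool => prs p.2 ∈ S p.1 ∧ p.2 = pad p.1 (prs p.2) :=
    (h3.pt (PT.id.fst.pair p2)).and (CH.of_pt (pt_eq PT.id.snd
      (PT.comp (f := fun q : α × β => pad q.1 q.2) (by simp only [pad]; fun_prop)
        (PT.id.fst.pair p2))))
  have k2 : ∀ t : α × ℕ → ℕ, PT t → CH fun p : α × ℕ => t p ≤ (S p.1).card := fun t ht =>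
    (CH.thr (k1.pt (f := fun q : (α × ℕ) × List Bool => (q.1.1, q.2)) (by fun_prop))
      (l1.comp PT.id.fst) ht).congr fun p => by rw [← key]
  refine ⟨(show Pb fun a => 4 * ((len a).length + 1) + 1 by fun_prop).mono fun a => sz_nat_le ?_,
    ((k2 _ PT.id.snd).and (k2 (fun p => p.2 + 1) (by fun_prop)).not).congr fun p => by
      beta_reduce; omega⟩
  have := cnt_not (len a).length fun r => prs r ∈ S a ∧ r = pad a (prs r)
  rw [key] at this
  have := Nat.two_pow_pos (len a).length
  beta_reduce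
  omega

@[fun_prop] theorem CF.sum {S : α → Finset β} {f : α → β → ℕ} (h : CS S)
    (hf : CF fun p : α × β => f p.1 p.2) : CF fun a => ∑ y ∈ S a, f a y := by
  obtain ⟨χ, c1, c2⟩ := Pb.sup h (ψ := fun p => sz p.2 + (4 * sz (f p.1 p.2) + 1) + 1)
    (by fun_prop)
  let T : α → Finset (β × ℕ) := fun a => ((S a).sigma fun y => range (f a y)).map
    ⟨fun x => (x.1, x.2), fun x y h => by
      obtain ⟨h1, h2⟩ := Prod.ext_iff.1 h
      exact Sigma.ext h1 (heq_of_eq h2)⟩
  have hT : ∀ a q, q ∈ T a ↔ q.1 ∈ S a ∧ q.2 < f a q.1 := fun a q => by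
    simp only [T, mem_map, mem_sigma, mem_range]
    exact ⟨fun ⟨x, h1, h2⟩ => h2 ▸ h1, fun h => ⟨⟨q.1, q.2⟩, h, rfl⟩⟩
  have : CS T := by
    refine ⟨⟨χ, c1, fun a q hq => le_trans ?_ (c2 a _ ((hT a q).1 hq).1)⟩,
      (show CH fun p : α × β × ℕ => p.2.1 ∈ S p.1 ∧ p.2.2 < f p.1 p.2.1 by fun_prop).congr
        fun p => (hT _ _).symm⟩
    have := sz_nat_mono ((hT a q).1 hq).2.le
    rw [sz_pair']
    simp only
    omega
  exact (CF.card this).of_eq fun a => by simp [T]

theorem CF.foldl {h : α → β → γ → β} {l : α → List γ} {b : α → β}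
    (hh : CF fun p : α × β × γ => h p.1 p.2.1 p.2.2) (hl : CF l) (hb : CF b)
    {φ : α → ℕ} (hφ : Pb φ) (hB : ∀ a i, sz (((l a).take i).foldl (h a) (b a)) ≤ φ a) :
    CF fun a => (l a).foldl (h a) (b a) := by
  obtain ⟨d⟩ : Nonempty γ := ⟨Dec.dec .nil⟩
  let Q : α → List β → Prop := fun a s => s.length = (l a).length + 1 ∧ s.getD 0 (b a) = b a ∧
    All (range (l a).length) fun i => s.getD (i + 1) (b a) = h a (s.getD i (b a)) ((l a).getD i d)
  have step : ∀ a i, i < (l a).length → ((l a).take (i + 1)).foldl (h a) (b a) =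
      h a (((l a).take i).foldl (h a) (b a)) ((l a).getD i d) := fun a i hi => by
    rw [List.take_succ_eq_append_getElem hi, List.foldl_append, List.getD_eq_getElem _ _ hi]; rfl
  have q1 : ∀ a s, Q a s → ∀ i ≤ (l a).length,
      s.getD i (b a) = ((l a).take i).foldl (h a) (b a) := fun a s hs i hi => by
    induction i with
    | zero => exact hs.2.1
    | succ i ih => rw [hs.2.2 i (mem_range.2 hi), ih (by omega), step a i hi]
  have q2 : CH fun p : (α × β) × List β =>
      Q p.1.1 p.2 ∧ p.2.getD (l p.1.1).length (b p.1.1) = p.1.2 := by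
    simp only [Q]
    fun_prop
  refine ⟨hφ.mono fun a => by simpa using hB a (l a).length, (CH.ex q2
    (φ := fun p => ((l p.1).length + 1) * (φ p.1 + 1) + 1) (by fun_prop) fun p s hs => ?_).congr
    fun p => ⟨fun ⟨s, h1, h2⟩ => ?_, fun e => ?_⟩⟩
  · have e : s.length = (l p.1).length + 1 := hs.1.1
    rw [← e]
    refine sz_list_le fun x hx => ?_
    obtain ⟨i, hi, rfl⟩ := List.getElem_of_mem hx
    rw [← List.getD_eq_getElem _ (b p.1), q1 p.1 s hs.1 i (by omega)]
    exact hB _ _
  · rw [← h2, q1 _ _ h1 _ le_rfl, List.take_length]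
  · have k : ∀ i ≤ (l p.1).length, ((List.range ((l p.1).length + 1)).map fun i =>
        ((l p.1).take i).foldl (h p.1) (b p.1)).getD i (b p.1) =
        ((l p.1).take i).foldl (h p.1) (b p.1) := fun i hi => by
      rw [List.getD_eq_getElem _ _ (by simp; omega)]; simp
    refine ⟨_, ⟨by simp, k 0 (by omega), fun i hi => ?_⟩, (k _ le_rfl).trans (by simpa using e)⟩
    have : i < (l p.1).length := mem_range.1 hi
    simp only
    rw [k (i + 1) this, k _ this.le, step _ _ this]

end Vale.Agent.P337
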