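import Mathlib

/-! The existential theory of the reals and the counting hierarchy: definitions. -/

namespace Vale.Agent.P337

open Turing

/-- The class `P`: languages over `{0,1}` decided by a deterministic multi-stack Turing machine
with finite alphabets in polynomial time. -/
def InP (L : Set (List Bool)) : Prop :=
  ∃ f : List Bool → Bool,
    (∃ M : TM2ComputableInPolyTime (fun x : List Bool => x) (fun b : Bool => [b]) f,
      ∀ k, Finite (M.tm.Γ k)) ∧ ∀ x, x ∈ L ↔ f x = true

/-- A probabilistic oracle machine: a multi-stack Turing machine with finite alphabets, a stack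
`coin` that initially holds the coin flips, a query stack `qry`, a query state `ask` and a return
state `ret`. -/
structure OracleTM where
  /-- The underlying machine. -/
  tm : FinTM2
  /-- All stack alphabets are finite. -/
  fin : ∀ k, Finite (tm.Γ k)
  /-- The stack of coin flips. -/
  coin : tm.K
  /-- The query stack. -/
  qry : tm.K
  /-- The query state. -/
  ask : tm.Λ
  /-- The state entered after a query. -/
  ret : tm.Λ
  /-- The coin stack is not the input stack. -/
  coin_ne : coin ≠ tm.k₀
  /-- The input alphabet is binary. -/
  inA : tm.Γ tm.k₀ ≃ Bool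
  /-- The output alphabet is binary. -/
  outA : tm.Γ tm.k₁ ≃ Bool
  /-- The coin alphabet is binary. -/
  coinA : tm.Γ coin ≃ Bool
  /-- The query alphabet is binary. -/
  qryA : tm.Γ qry ≃ Bool

namespace OracleTM

variable (M : OracleTM)

open Classical in
/-- One step with oracle `A`: in the query state the content of the query stack is replaced by
the bit telling whether it lies in `A`; in all other states the machine makes an ordinary step. -/
noncomputable def step (A : Set (List Bool)) (c : M.tm.Cfg) : Option M.tm.Cfg :=
  if c.l = some M.ask then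
    some ⟨some M.ret, c.var,
      Function.update c.stk M.qry [M.qryA.symm (decide ((c.stk M.qry).map M.qryA ∈ A))]⟩
  else M.tm.step c

/-- The initial configuration on input `x` with coin flips `r`. -/
def init (x r : List Bool) : M.tm.Cfg :=
  ⟨some M.tm.main, M.tm.initialState,
    Function.update (Function.update (fun _ => []) M.tm.k₀ (x.map M.inA.symm)) M.coin
      (r.map M.coinA.symm)⟩

/-- After `t` steps on input `x` with coin flips `r` the machine is in the halting
configuration `c`. -/
def HaltsAt (A : Set (List Bool)) (x r : List Bool) (t : ℕ) (c : M.tm.Cfg) : Prop :=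
  (fun o : Option M.tm.Cfg => o.bind (M.step A))^[t] (some (M.init x r)) = some c ∧ c.l = none

/-- The machine halts with the single bit `1` on the output stack. -/
def Accepts (A : Set (List Bool)) (x r : List Bool) : Prop :=
  ∃ t c, M.HaltsAt A x r t c ∧ (c.stk M.tm.k₁).map M.outA = [true]

end OracleTM

/-- The class `PP^A`: a polynomial-time probabilistic machine with oracle `A` accepts with
probability more than `1/2` exactly on the words of `L`. -/
def InPP (A L : Set (List Bool)) : Prop :=
  ∃ (M : OracleTM) (p q : Polynomial ℕ),
    (∀ x r : List Bool, r.length = p.eval x.length →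
      ∃ t ≤ q.eval x.length, ∃ c, M.HaltsAt A x r t c) ∧
    ∀ x : List Bool, x ∈ L ↔ 2 ^ p.eval x.length <
      2 * {r : List Bool | r.length = p.eval x.length ∧ M.Accepts A x r}.ncard

/-- The levels of the counting hierarchy. -/
def Level : ℕ → Set (List Bool) → Prop
  | 0, L => InP L
  | j + 1, L => ∃ A, Level j A ∧ InPP A L

/-- The value at `x` of an integer polynomial given as a list of monomials; the monomial
`(c, [e₀, …, e_{k-1}])` is `c x₀ ^ e₀ ⋯ x_{k-1} ^ e_{k-1}`. -/
def evalPoly (p : List (ℤ × List ℕ)) (x : ℕ → ℝ) : ℝ :=
  (p.map fun m => (m.1 : ℝ) * ∏ i : Fin m.2.length, x i ^ m.2.get i).sum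

/-- Quantifier-free formulas. -/
inductive Fm : Type
  | eq (p : List (ℤ × List ℕ)) : Fm
  | pos (p : List (ℤ × List ℕ)) : Fm
  | not (φ : Fm) : Fm
  | and (φ ψ : Fm) : Fm
  | or (φ ψ : Fm) : Fm

/-- Truth of a formula at a real point. -/
def Fm.Holds (x : ℕ → ℝ) : Fm → Prop
  | .eq p => evalPoly p x = 0
  | .pos p => 0 < evalPoly p x
  | .not φ => ¬φ.Holds x
  | .and φ ψ => φ.Holds x ∧ ψ.Holds x
  | .or φ ψ => φ.Holds x ∨ ψ.Holds x

/-- Self-delimiting code of a list: each item is preceded by `1`, the end is `0`. -/
def codeList {α : Type} (f : α → List Bool) (l : List α) : List Bool :=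
  (l.flatMap fun a => true :: f a) ++ [false]

/-- Binary code of a natural number. -/
def codeNat (n : ℕ) : List Bool :=
  codeList (fun b => if b then [true, false, false] else [false]) n.bits

/-- Binary code of an integer: sign and absolute value. -/
def codeInt (z : ℤ) : List Bool :=
  true :: ((if z < 0 then [true, false, false] else [false]) ++ codeNat z.natAbs)

/-- Unary code of a natural number. -/
def codeUnary (e : ℕ) : List Bool := codeList (fun _ => [false]) (List.replicate e ())

/-- Code of a polynomial: coefficients in binary, exponents in unary. -/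
def codePoly (p : List (ℤ × List ℕ)) : List Bool :=
  codeList (fun m => true :: (codeInt m.1 ++ codeList codeUnary m.2)) p

/-- Code of a symbol with number `k` and polynomial `p`. -/
def codeSym (k : ℕ) (p : List (ℤ × List ℕ)) : List Bool :=
  true :: true :: (codeNat k ++ codePoly p)

/-- Code of a formula, in Polish order. -/
def codeFm : Fm → List Bool
  | .eq p => codeSym 0 p
  | .pos p => codeSym 1 p
  | .not φ => codeSym 2 [] ++ codeFm φ
  | .and φ ψ => codeSym 3 [] ++ (codeFm φ ++ codeFm ψ)
  | .or φ ψ => codeSym 4 [] ++ (codeFm φ ++ codeFm ψ)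

/-- The language of true existential sentences over the reals. -/
def ETR : Set (List Bool) := {w | ∃ φ : Fm, w = codeFm φ ∧ ∃ x : ℕ → ℝ, φ.Holds x}

end Vale.Agent.P337
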