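import Mathlib

/-! Rational filters that locate the majority cluster of a finite family of complex numbers. -/

namespace Vale.Agent.P337

open Finset

/-- The number `y` is not close to `r`. -/
def Gap (J : ℕ) (y r : ℝ) : Prop := y * (1 + 1 / J) ≤ r ∨ r * (1 + 1 / J) ≤ y

lemma exists_gap {ι : Type} [Nonempty ι] (s : Finset ι) (f : ι → ℝ) {b : ℝ} (hb : 0 < b) {lo J : ℕ}
    (h0 : 0 < J) (hJ : lo + 2 * s.card ≤ J) : ∃ j : ℕ, lo ≤ j ∧ j ≤ J ∧ ∀ i ∈ s, Gap J (f i) (j * b) := by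
  have : ∃ t ∈ range (s.card + 1), ∀ i ∈ s, f i < (lo + 2 * t - 1) * b ∨ (lo + 2 * t + 1) * b ≤ f i := by
    by_contra! H
    choose! g g1 g2 g3 using H
    obtain ⟨t, ht, u, hu, h1, h2⟩ := exists_ne_map_eq_of_card_lt_of_maps_to
      (s := range (s.card + 1)) (t := s) (by simp) (f := g) fun t ht => g1 t ht
    have a := (g2 t ht).trans_lt (h2 ▸ g3 u hu)
    have c := (g2 u hu).trans_lt (h2 ▸ g3 t ht)
    rw [mul_lt_mul_iff_left₀ hb] at a c
    have a' : (t : ℝ) < u + 1 := by linarith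
    have c' : (u : ℝ) < t + 1 := by linarith
    norm_cast at a' c'
    omega
  obtain ⟨t, ht, H⟩ := this
  have ht := mem_range.1 ht
  have k : ((lo + 2 * t : ℕ) : ℝ) * (1 / J) ≤ 1 := by
    rw [mul_one_div, div_le_one (by positivity)]
    exact_mod_cast (by omega)
  have : (0 : ℝ) < 1 / J := by positivity
  refine ⟨lo + 2 * t, by omega, by omega, fun i hi => (H i hi).imp (fun h => ?_) fun h => ?_⟩ <;>
    push_cast at k ⊢ <;> nlinarith [mul_le_mul_of_nonneg_right k hb.le, mul_pos hb this]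

lemma small_frac {a b : ℂ} {M : ℝ} (hM : 2 ≤ M) (hb : b ≠ 0) (h : ‖a‖ * M ≤ ‖b‖) :
    a + b ≠ 0 ∧ ‖a / (a + b)‖ ≤ 2 / M := by
  have h1 := norm_sub_le (a + b) a
  rw [add_sub_cancel_left] at h1
  have h2 := norm_pos_iff.2 hb
  have h3 := norm_nonneg a
  have h4 : 0 < ‖a + b‖ := by nlinarith
  refine ⟨norm_pos_iff.1 h4, ?_⟩
  rw [norm_div, div_le_div_iff₀ h4 (by linarith)]
  nlinarith

lemma fil_spec {J n : ℕ} {r : ℝ} {z : ℂ} (hJ : 0 < J) (hn : 0 < n) (hr : 0 < r)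
    (h : Gap J ‖z‖ r) : (r : ℂ) ^ (J * n) + z ^ (J * n) ≠ 0 ∧
      ‖(r : ℂ) ^ (J * n) / (r ^ (J * n) + z ^ (J * n)) - if ‖z‖ < r then 1 else 0‖ ≤ 2 / 2 ^ n := by
  have p : (0 : ℝ) < 1 / J := by positivity
  have q : (2 : ℝ) ^ n ≤ (1 + 1 / J) ^ (J * n) := by
    rw [pow_mul]
    refine pow_le_pow_left₀ zero_le_two (le_trans ?_ (one_add_mul_le_pow (by linarith) J)) n
    rw [mul_one_div_cancel (by positivity)]; norm_num
  have q2 : (2 : ℝ) ≤ 2 ^ n := le_self_pow₀ one_le_two hn.ne'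
  have k : ∀ a b : ℂ, b ≠ 0 → ‖a‖ * (1 + 1 / J) ≤ ‖b‖ → a ^ (J * n) + b ^ (J * n) ≠ 0 ∧
      ‖a ^ (J * n) / (a ^ (J * n) + b ^ (J * n))‖ ≤ 2 / 2 ^ n := fun a b hb h => by
    refine small_frac q2 (pow_ne_zero _ hb) ?_
    rw [norm_pow, norm_pow]
    exact (mul_le_mul_of_nonneg_left q (by positivity)).trans
      (mul_pow ‖a‖ _ _ ▸ pow_le_pow_left₀ (by positivity) h _)
  have r1 : ‖(r : ℂ)‖ = r := by simp [hr.le]
  rcases h with h | h
  · obtain ⟨h1, h2⟩ := k z r (by simpa using hr.ne') (r1.symm ▸ h)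
    rw [add_comm] at h1 h2
    refine ⟨h1, ?_⟩
    rw [if_pos (by nlinarith [norm_nonneg z]), ← norm_neg]
    refine le_of_eq_of_le (congrArg _ ?_) h2
    field_simp
    ring
  · have : r < ‖z‖ := by nlinarith
    rw [if_neg this.not_gt, sub_zero]
    exact k r z (norm_pos_iff.1 (hr.trans this)) (r1.symm ▸ h)

lemma frac_sum {s : Finset ℕ} {u v : ℕ → ℂ} (h : ∀ i ∈ s, v i ≠ 0) :
    ∑ i ∈ s, u i * ∏ j ∈ s.erase i, v j = (∏ i ∈ s, v i) * ∑ i ∈ s, u i / v i := by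
  rw [mul_sum]
  refine sum_congr rfl fun i hi => ?_
  rw [← mul_prod_erase _ _ hi]
  field_simp [h i hi]

section
variable (d : ℕ) (Z : ℕ → ℂ) (r s : ℂ) (N κ h : ℕ)

/-- Denominator of the approximate count of neighbours. -/
noncomputable def zV (x t : ℂ) : ℂ :=
  ∏ j ∈ range d, (r ^ N + (Z j - x) ^ N) * (s ^ N + (Z j - t) ^ N)

/-- Numerator of the approximate count of neighbours. -/
noncomputable def zU (x t : ℂ) : ℂ := ∑ j ∈ range d, 4 * r ^ N * s ^ N *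
  ∏ i ∈ (range d).erase j, (r ^ N + (Z i - x) ^ N) * (s ^ N + (Z i - t) ^ N)

/-- Denominator of the approximate majority test. -/
noncomputable def zW (x t : ℂ) : ℂ := (κ * zV d Z r s N x t) ^ N + zU d Z r s N x t ^ N

/-- Denominator of the approximate mean of the majority cluster. -/
noncomputable def zD (x : ℂ) : ℂ := h * ∏ i ∈ range d, zW d Z r s N κ x (Z i)

/-- Numerator of the approximate mean of the majority cluster. -/
noncomputable def zS (x : ℂ) : ℂ := ∑ i ∈ range d, Z i * zU d Z r s N x (Z i) ^ N *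
  ∏ j ∈ (range d).erase i, zW d Z r s N κ x (Z j)

end

lemma count_spec {d J n : ℕ} {Z : ℕ → ℂ} {r s : ℝ} {x t : ℂ} (hJ : 0 < J) (hn : d + 7 ≤ n)
    (hr : 0 < r) (hs : 0 < s) (h1 : ∀ j ∈ range d, Gap J ‖Z j - x‖ r)
    (h2 : ∀ j ∈ range d, Gap J ‖Z j - t‖ s) : zV d Z r s (J * n) x t ≠ 0 ∧
      ‖zU d Z r s (J * n) x t / zV d Z r s (J * n) x t - 4 * #(((range d).filter
        fun j => ‖Z j - x‖ < r).filter fun j => ‖Z j - t‖ < s)‖ ≤ 1 / 2 := by
  have a := fun j hj => fil_spec hJ (show 0 < n by omega) hr (h1 j hj)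
  have b := fun j hj => fil_spec hJ (show 0 < n by omega) hs (h2 j hj)
  have v := fun j hj => mul_ne_zero (a j hj).1 (b j hj).1
  have v' : zV d Z r s (J * n) x t ≠ 0 := prod_ne_zero_iff.2 v
  refine ⟨v', ?_⟩
  rw [zU, frac_sum v, ← zV, mul_div_cancel_left₀ _ v', filter_filter, card_filter]
  push_cast
  rw [mul_sum, ← sum_sub_distrib]
  have e : (2 : ℝ) / 2 ^ n ≤ 1 := by
    rw [div_le_one (by positivity)]; exact le_self_pow₀ one_le_two (by omega)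
  refine (norm_sum_le _ _).trans ((sum_le_card_nsmul _ _ (4 * (3 * (2 / 2 ^ n)))
    fun j hj => ?_).trans ?_)
  · obtain ⟨a0, a1⟩ := a j hj
    obtain ⟨b0, b1⟩ := b j hj
    rw [mul_assoc, mul_div_assoc, mul_div_mul_comm, ← mul_sub, norm_mul, ite_and]
    refine mul_le_mul (by simp) ?_ (norm_nonneg _) (by norm_num)
    set A := (r : ℂ) ^ (J * n) / _
    set B := (s : ℂ) ^ (J * n) / _
    have k : ∀ p q : ℂ, ‖p‖ ≤ 1 → ‖q‖ ≤ 1 → ‖A - p‖ ≤ 2 / 2 ^ n → ‖B - q‖ ≤ 2 / 2 ^ n →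
        ‖A * B - p * q‖ ≤ 3 * (2 / 2 ^ n) := fun p q hp hq h h' => by
      rw [show A * B - p * q = (A - p) * (B - q) + ((A - p) * q + p * (B - q)) by ring]
      refine (norm_add_le _ _).trans ((add_le_add_right (norm_add_le _ _) _).trans ?_)
      simp only [norm_mul]
      nlinarith [norm_nonneg (A - p), norm_nonneg (B - q), norm_nonneg p, norm_nonneg q]
    have := k _ _ (by split_ifs <;> simp) (by split_ifs <;> simp) a1 b1
    split_ifs at this ⊢ <;> simpa using this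
  · have : (d : ℝ) ≤ 2 ^ d := by exact_mod_cast Nat.lt_two_pow_self.le
    have : (2 : ℝ) ^ d * 128 ≤ 2 ^ n := by
      simpa [pow_add, show (2 : ℝ) ^ 7 = 128 by norm_num] using
        pow_le_pow_right₀ (one_le_two (α := ℝ)) hn
    rw [card_range, nsmul_eq_mul]
    field_simp
    linarith

lemma major_spec {J n k m : ℕ} {U V : ℂ} (hn : 0 < n) (hJ : 4 * k + 2 ≤ J) (hV : V ≠ 0)
    (h : ‖U / V - 4 * m‖ ≤ 1 / 2) :
    ((2 * k + 1 : ℕ) * V) ^ (J * n) + U ^ (J * n) ≠ 0 ∧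
      ‖U ^ (J * n) / (((2 * k + 1 : ℕ) * V) ^ (J * n) + U ^ (J * n)) -
        if k < 2 * m then 1 else 0‖ ≤ 2 / 2 ^ n := by
  have a := (abs_norm_sub_norm_le _ _).trans h
  rw [show ‖(4 * m : ℂ)‖ = 4 * m by simp, abs_le] at a
  have j : (2 * k + 1 : ℝ) * (1 / J) ≤ 1 / 2 := by
    rw [mul_one_div, div_le_iff₀ (by exact_mod_cast (by omega))]
    have : (4 * k + 2 : ℝ) ≤ J := by exact_mod_cast hJ
    linarith
  have p : (0 : ℝ) ≤ 1 / J := by positivity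
  have c : (k < 2 * m → (k + 1 : ℝ) ≤ 2 * m) ∧ (¬k < 2 * m → (2 * m : ℝ) ≤ k) :=
    ⟨fun h => by exact_mod_cast h, fun h => by exact_mod_cast not_lt.1 h⟩
  obtain ⟨h1, h2⟩ := fil_spec (J := J) (z := U / V) (r := 2 * k + 1) (by omega) hn (by positivity)
    (by
      by_cases h : k < 2 * m
      · exact .inr (by nlinarith [c.1 h])
      · exact .inl (by nlinarith [c.2 h]))
  have e : ((2 * k + 1 : ℕ) * V) ^ (J * n) + U ^ (J * n) =
      V ^ (J * n) * (((2 * k + 1 : ℝ) : ℂ) ^ (J * n) + (U / V) ^ (J * n)) := by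
    rw [mul_add, ← mul_pow, ← mul_pow, mul_div_cancel₀ _ hV, mul_comm V]
    simp
  refine ⟨e ▸ mul_ne_zero (pow_ne_zero _ hV) h1, ?_⟩
  rw [← norm_neg]
  refine le_of_eq_of_le (congrArg _ ?_) h2
  have : ‖U / V‖ < 2 * k + 1 ↔ ¬k < 2 * m :=
    ⟨fun h h' => by linarith [c.1 h'], fun h => by linarith [c.2 h]⟩
  rw [e, ← div_div, ← div_pow]
  simp only [this, ite_not]
  split_ifs <;> field_simp <;> ring

lemma mean_spec {d J n ρ : ℕ} {Z : ℕ → ℂ} {r s : ℝ} {x : ℂ} (hJ : 4 * d + 2 ≤ J)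
    (hn : d + ρ + 7 ≤ n) (hB : ∀ i < d, ‖Z i‖ ≤ 2 ^ ρ)
    (hr : 0 < r) (hs : 0 < s) (h1 : ∀ j ∈ range d, Gap J ‖Z j - x‖ r)
    (h2 : ∀ i ∈ range d, ∀ j ∈ range d, Gap J ‖Z j - Z i‖ s) {C M : Finset ℕ}
    (hC : C = (range d).filter fun j => ‖Z j - x‖ < r)
    (hM : M = (range d).filter fun i => #C < 2 * #(C.filter fun j => ‖Z j - Z i‖ < s))
    {ξ : ℂ} {R : ℝ} (h0 : M.Nonempty) (hR : ∀ i ∈ M, ‖Z i - ξ‖ ≤ R) :
    zD d Z r s (J * n) (2 * #C + 1) #M x ≠ 0 ∧ ‖zS d Z r s (J * n) (2 * #C + 1) x /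
      zD d Z r s (J * n) (2 * #C + 1) #M x - ξ‖ ≤ R + 1 := by
  have k : #C ≤ d := hC ▸ (card_filter_le _ _).trans (card_range d).le
  have a := fun i hi => count_spec (n := n) (by omega) (by omega) hr hs h1 (h2 i hi)
  have b := fun i hi => major_spec (n := n) (k := #C) (J := J) (by omega) (by omega) (a i hi).1 (a i hi).2
  simp only [← hC] at b
  have m0 : (1 : ℝ) ≤ #M := by exact_mod_cast h0.card_pos
  have m1 : (#M : ℂ) ≠ 0 := by exact_mod_cast h0.card_pos.ne'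
  have w : ∏ i ∈ range d, zW d Z r s (J * n) (2 * #C + 1) x (Z i) ≠ 0 :=
    prod_ne_zero_iff.2 fun i hi => (b i hi).1
  refine ⟨mul_ne_zero m1 w, ?_⟩
  rw [zS, frac_sum (v := fun i => zW d Z r s (J * n) (2 * #C + 1) x (Z i)) fun i hi => (b i hi).1, zD, mul_comm (#M : ℂ), mul_div_mul_left _ _ w]
  set F := fun i => zU d Z r s (J * n) x (Z i) ^ (J * n) / zW d Z r s (J * n) (2 * #C + 1) x (Z i)
  have e : (∑ i ∈ range d, Z i * zU d Z r s (J * n) x (Z i) ^ (J * n) /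
      zW d Z r s (J * n) (2 * #C + 1) x (Z i)) / #M - ξ = (∑ i ∈ M, (Z i - ξ) + ∑ i ∈ range d,
        Z i * (F i - if #C < 2 * #(C.filter fun j => ‖Z j - Z i‖ < s) then 1 else 0)) / #M := by
    simp only [mul_sub, sum_sub_distrib, mul_ite, mul_one, mul_zero, ← sum_filter, ← hM, F,
      mul_div_assoc, sum_const, nsmul_eq_mul]
    field_simp
    ring
  rw [e, norm_div, Complex.norm_natCast, div_le_iff₀ (by linarith)]
  refine (norm_add_le _ _).trans ((add_le_add ((norm_sum_le _ _).trans (sum_le_card_nsmul _ _ _ hR))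
    ((norm_sum_le _ _).trans (sum_le_card_nsmul _ _ (2 ^ ρ * (2 / 2 ^ n)) fun i hi => ?_))).trans ?_)
  · rw [norm_mul]
    exact mul_le_mul (hB i (mem_range.1 hi)) (b i hi).2 (norm_nonneg _) (by positivity)
  · have : (d : ℝ) ≤ 2 ^ d := by exact_mod_cast Nat.lt_two_pow_self.le
    have : (2 : ℝ) ^ d * 2 ^ ρ * 128 ≤ 2 ^ n := by
      simpa [pow_add, show (2 : ℝ) ^ 7 = 128 by norm_num] using
        pow_le_pow_right₀ (one_le_two (α := ℝ)) hn
    have : (d : ℝ) * (2 ^ ρ * (2 / 2 ^ n)) ≤ 1 := by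
      field_simp
      nlinarith [show (0 : ℝ) < 2 ^ ρ by positivity, show (0 : ℝ) < 2 ^ d by positivity]
    rw [card_range, nsmul_eq_mul, nsmul_eq_mul]
    nlinarith

end Vale.Agent.P337
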