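import Vale.Agent.P337.Defs
import Vale.Agent.Lib.H24.PTNum

/-! Machines: deciding with a polynomial time function, and asking a single query. -/

namespace Vale.Agent.P337

open Vale.Agent.Lib.H24.T Turing Function

/-- Push the codes of the bits of stack `t` on stack `b`. -/
def cw (t b : ℕ) : BP :=
  .whilePop t (.seq (.ifv (fun o => o.getD false)
    (.seq (.push b false) (.seq (.push b false) (.push b true))) (.push b false)) (.push b true))

/-- Push the code of stack `a` on stack `b`. -/
def cv (a t b : ℕ) : BP := .seq (mv a t) (.seq (.push b false) (cw t b))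

theorem tri_cw {t b : ℕ} (h : t ≠ b) (l : List Bool) : ∀ S : ℕ → List Bool, S t = l →
    Tri (cw t b) S (update (update S t []) b
      ((l.reverse.flatMap fun x => true :: serB x) ++ S b)) (l.length + 1) := by
  induction l with
  | nil =>
    intro S hS
    refine (Tri.whileNil hS).cast rfl ?_
    rw [← hS, update_eq_self]; simp [hS]
  | cons x l ih =>
    intro S hS
    cases x
    · have := Tri.whileCons hS ⟨0 + 0, _, le_rfl,
        Exec.seq (Exec.ifF rfl (Exec.push (x := b) (γ := false))) (Exec.push (x := b) (γ := true))⟩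
        (ih _ (by simp [h]))
      refine (this.mono (by simp)).cast rfl ?_
      funext j
      by_cases h1 : j = b <;> by_cases h2 : j = t <;> simp_all [h.symm, serB]
    · have := Tri.whileCons hS ⟨0 + (0 + 0) + 0, _, le_rfl,
        Exec.seq (Exec.ifT rfl ((Exec.push (x := b) (γ := false)).seq
          ((Exec.push (x := b) (γ := false)).seq (Exec.push (x := b) (γ := true)))))
          (Exec.push (x := b) (γ := true))⟩ (ih _ (by simp [h]))
      refine (this.mono (by simp)).cast rfl ?_
      funext j
      by_cases h1 : j = b <;> by_cases h2 : j = t <;> simp_all [h.symm, serB]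

theorem code_list {α : Type} [Enc α] {f : α → List Bool} (h : ∀ a, code a = f a) (l : List α) :
    code l = codeList f l := by
  induction l with
  | nil => rfl
  | cons a l ih => rw [code_cons, ih, h]; simp [codeList]

theorem tri_cv {a t b : ℕ} (h1 : a ≠ t) (h2 : t ≠ b) (S : ℕ → List Bool) (hS : S t = []) :
    Tri (cv a t b) S (update (update S a []) b (code (S a) ++ update S a [] b))
      (2 * (S a).length + 2) := by
  have := (Tri.mv h1 _ S rfl).seq ((Tri.push b false _).seq
    (tri_cw h2 (S a).reverse _ (by simp [h2, hS])))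
  refine (this.mono (by simp; omega)).cast rfl ?_
  rw [code_list code_bool, codeList]
  funext j
  by_cases k1 : j = b <;> by_cases k2 : j = t <;> simp_all [h1.symm, h2.symm]

theorem run_cv (x : List Bool) : Run (cv 0 1 0) x (code x) (2 * x.length + 2) := by
  refine (tri_cv (a := 0) (t := 1) (b := 0) (by omega) (by omega) (W x [] [] []) rfl).cast rfl ?_
  funext j
  rcases j with _ | j <;> simp [W, scons]

@[fun_prop] theorem pt_code {α β : Type} [Enc α] [Enc β] {f : α → β} (hf : PT f) :
    PT (fun a => code (f a)) := by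
  have : PT (fun b : β => code b) :=
    ⟨_, fun b => 2 * sz b + 2, by have := Pb.sz_id (α := β); fun_prop, fun b => run_cv _⟩
  exact this.comp hf

theorem exists_tm' (p : BP) : ∃ (tm : FinTM2) (ein : tm.Γ tm.k₀ ≃ Bool)
    (eout : tm.Γ tm.k₁ ≃ Bool), (∀ k, Finite (tm.Γ k)) ∧ ∀ x y t, Run p x y t →
      Nonempty (TM2OutputsInTime tm (x.map ein.invFun) (some (y.map eout.invFun)) (t + 2)) := by
  let P : BP := .seq p (clr 1)
  refine ⟨toFinTM2 (P.map (clamp P.bound)) (clamp P.bound 0) (clamp P.bound 0), Equiv.refl _,
    Equiv.refl _, fun _ => inferInstanceAs (Finite Bool), fun x y t h => ?_⟩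
  obtain ⟨t', v', ht, h1⟩ := h none
  have h2 : Exec P none (W x [] [] []) (t' + 1) none (W y [] [] []) :=
    h1.seq (Exec.whileNil rfl)
  have hW : ∀ z, W z [] [] [] = update (fun _ => []) 0 z := by
    intro z
    simp only [W, scons_nil]
    rw [← update_scons_zero [], scons_nil]
  have h3 := exec_clamp P.bound h2 le_rfl
  rw [hW, hW, update_clamp (Nat.zero_le _), update_clamp (Nat.zero_le _)] at h3
  have k1 := toFinTM2_outputs _ _ _ _ _ (t' + 1) (t + 2) (by omega) h3
  have e1 : ∀ w : List Bool, List.map (Equiv.refl Bool).invFun w = w := fun w => List.map_id w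
  rw [← e1 x, ← e1 y] at k1
  exact k1

theorem run_out (b : Bool) :
    Run (brk 0 (.seq (clr 0) (.push 0 true)) (.push 0 false)) (code b) [b] 3 := by
  cases b
  · refine Tri.brkF (l := []) rfl (((Tri.push _ _ _).mono (by omega)).cast rfl ?_)
    funext j
    rcases j with _ | j <;> simp [W, scons]
  · refine Tri.brkT (l := [false, false]) rfl
      ((((Tri.clr [false, false] _ (by simp)).seq (Tri.push _ _ _)).mono (by simp)).cast rfl ?_)
    funext j
    rcases j with _ | j <;> simp [W, scons]

theorem sz_bits (x : List Bool) : sz x ≤ 4 * x.length + 1 := by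
  have := sz_list_le (l := x) fun b _ => sz_bool b
  omega

theorem inP_of_pt {f : List Bool → Bool} (hf : PT f) : InP {x | f x = true} := by
  obtain ⟨p, t, ⟨k, hk⟩, hp⟩ := hf
  obtain ⟨tm, ein, eout, h1, h2⟩ := exists_tm' (.seq (cv 0 1 0) (.seq p
    (brk 0 (.seq (clr 0) (.push 0 true)) (.push 0 false))))
  have h3 : ∀ x : List Bool, Nonempty (TM2OutputsInTime tm (x.map ein.invFun)
      (some ([f x].map eout.invFun))
      ((2 * Polynomial.X + 2 + ((4 * Polynomial.X + 3) ^ k + 3) + 2 : Polynomial ℕ).eval
        x.length)) := fun x => by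
    obtain ⟨h⟩ := h2 _ _ _ ((run_cv x).comp (((hp x).mono ((hk x).trans
      (Nat.pow_le_pow_left (show sz x + 2 ≤ 4 * x.length + 3 by have := sz_bits x; omega) k))).comp
      (run_out _)))
    exact ⟨by simpa using h⟩
  exact ⟨f, ⟨⟨⟨tm, ein, eout⟩, _, fun x => (h3 x).some⟩, h1⟩, fun x => Iff.rfl⟩

theorem iter_none {γ : Type} (f : γ → Option γ) (t : ℕ) :
    (fun o : Option γ => o.bind f)^[t] none = none := iterate_fixed rfl t

theorem step_ne (M : OracleTM) (A : Set (List Bool)) {c : M.tm.Cfg} (h : c.l ≠ some M.ask) :
    M.step A c = TM2.step M.tm.m c := if_neg h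

open Classical in
theorem step_ask (M : OracleTM) (A : Set (List Bool)) {c : M.tm.Cfg} (h : c.l = some M.ask) :
    M.step A c = some ⟨some M.ret, c.var,
      update c.stk M.qry [M.qryA.symm (decide ((c.stk M.qry).map M.qryA ∈ A))]⟩ := if_pos h

theorem haltsAt_unique (M : OracleTM) {A x r t t' c c'} (h : M.HaltsAt A x r t c)
    (h' : M.HaltsAt A x r t' c') : c = c' := by
  wlog ht : t ≤ t' generalizing t t' c c'
  · exact (this h' h (by omega)).symm
  obtain ⟨s, rfl⟩ := Nat.exists_eq_add_of_le ht
  have := h'.1
  rw [add_comm, iterate_add_apply, h.1] at this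
  rcases s with _ | s
  · exact Option.some.inj this
  · have e : M.step A c = none := by
      obtain ⟨l, v, S⟩ := c
      obtain rfl : l = none := h.2
      exact step_ne M A (by simp)
    rw [iterate_succ_apply, Option.bind_some, e, iter_none] at this
    cases this

theorem transfer (M : OracleTM) (hM : M.tm.m M.ask = .halt) (A : Set (List Bool)) {c' : M.tm.Cfg}
    (hc : c'.l = some M.ask) : ∀ (t : ℕ) (c : M.tm.Cfg),
    (flip bind (TM2.step M.tm.m))^[t] (some c) = some c' →
    (fun o : Option M.tm.Cfg => o.bind (M.step A))^[t] (some c) = some c'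
  | 0, _, h => h
  | t + 1, ⟨l, v, S⟩, h => by
    have n0 : ∀ s, (flip bind (TM2.step M.tm.m))^[s] none = none := fun s => iterate_fixed rfl s
    rw [iterate_succ_apply] at h ⊢
    by_cases hl : l = some M.ask
    · subst hl
      have e : flip bind (TM2.step M.tm.m) (some ⟨some M.ask, v, S⟩) = some ⟨none, v, S⟩ := by
        simp [flip, TM2.step, hM, TM2.stepAux]
      rw [e] at h
      rcases t with _ | t
      · obtain rfl := Option.some.inj h
        cases hc
      · rw [iterate_succ_apply, show flip bind (TM2.step M.tm.m) (some ⟨none, v, S⟩) = none from rfl,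
          n0] at h
        cases h
    · change (flip bind (TM2.step M.tm.m))^[t] (TM2.step M.tm.m ⟨l, v, S⟩) = _ at h
      change (fun o : Option M.tm.Cfg => o.bind (M.step A))^[t] (M.step A ⟨l, v, S⟩) = _
      rw [step_ne M A (c := ⟨l, v, S⟩) hl]
      rcases e : TM2.step M.tm.m ⟨l, v, S⟩ with _ | c1
      · rw [e, n0] at h; cases h
      · rw [e] at h
        exact transfer M hM A hc t c1 h

/-- The program writing the query. -/
def qP : Prog (Fin 4) Bool := (Prog.seq (cv 2 1 3) (.seq (cv 0 1 3) (.push 3 true))).map (clamp 3)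

/-- The machine asking the single query consisting of the input and the coin flips. -/
def qM : OracleTM where
  tm :=
    { K := Fin 4, k₀ := 0, k₁ := 3, Γ := fun _ => Bool, Λ := Option (Option (Option (Lab qP))),
      main := none
      ΛFin := @instFintypeOption _ (@instFintypeOption _ (@instFintypeOption _ (labFintype qP)))
      σ := Option Bool, initialState := none
      m := fun o => match o with
        | none => entry qP (fun l => some (some (some l))) (.goto fun _ => some none)
        | some none => .halt
        | some (some none) => .halt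
        | some (some (some l)) =>
            tbl qP (fun l => some (some (some l))) (.goto fun _ => some none) l }
  fin := fun _ => inferInstanceAs (Finite Bool)
  coin := (2 : Fin 4)
  qry := (3 : Fin 4)
  ask := some none
  ret := some (some none)
  coin_ne := by decide
  inA := Equiv.refl _
  outA := Equiv.refl _
  coinA := Equiv.refl _
  qryA := Equiv.refl _

open Classical in
theorem qM_run (A : Set (List Bool)) (x r : List Bool) :
    ∃ t ≤ 2 * r.length + 2 * x.length + 7, ∃ c, qM.HaltsAt A x r t c ∧
      (c.stk qM.tm.k₁).map qM.outA = [decide (code (x, r) ∈ A)] := by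
  obtain ⟨t, v, ht, h⟩ := ((tri_cv (a := 2) (t := 1) (b := 3) (by omega) (by omega) (W x [] r [])
    rfl).seq ((tri_cv (a := 0) (t := 1) (b := 3) (by omega) (by omega) _ rfl).seq
      (Tri.push 3 true _))) none
  have h1 := exec_clamp 3 h (by decide)
  obtain ⟨S', hS', h2⟩ : ∃ S' : Fin 4 → List Bool, S' 3 = code (x, r) ∧
      Exec qP none (fun j => W x [] r [] j.val) t v S' :=
    ⟨_, by simp [W, scons, code_pair], h1⟩
  have h3 := transfer qM rfl A (c' := ⟨some (some none), v, S'⟩) rfl t _
    (exec_compile qM.tm.m h2 (fun l => some (some (some l))) (.goto fun _ => some none)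
      fun l => rfl)
  have e0 : qM.step A (qM.init x r) = some (TM2.stepAux
      (entry qP (fun l => some (some (some l))) (.goto fun _ => some none)) none
      (fun j : Fin 4 => W x [] r [] j.val)) := by
    rw [step_ne qM A (by simp [OracleTM.init, qM])]
    have : update (update (fun _ : Fin 4 => ([] : List Bool)) 0 (x.map id)) 2 (r.map id) =
        fun j : Fin 4 => W x [] r [] j.val := by
      funext j
      fin_cases j <;> simp [W, scons]
    rw [← this]
    rfl
  have e1 := step_ask qM A (c := ⟨some (some none), v, S'⟩) rfl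
  have e2 : ∀ S : Fin 4 → List Bool, qM.step A ⟨some (some (some none)), v, S⟩ = some ⟨none, v, S⟩ :=
    fun S => step_ne qM A (by simp [qM])
  refine ⟨t + 1 + 1 + 1, by simp [W, scons] at ht; omega,
    ⟨none, v, update S' (3 : Fin 4) [decide ((S' 3).map id ∈ A)]⟩, ⟨?_, rfl⟩, ?_⟩
  · rw [iterate_succ_apply', iterate_succ_apply', iterate_succ_apply, Option.bind_some, e0]
    exact (congrArg (fun o => (Option.bind o (qM.step A)).bind (qM.step A)) h3).trans
      ((congrArg (fun o => Option.bind o (qM.step A)) e1).trans (e2 _))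
  · change (update S' (3 : Fin 4) [decide ((S' 3).map id ∈ A)] 3).map id = _
    simp [hS']

theorem inPP_query (A : Set (List Bool)) (p : Polynomial ℕ) :
    InPP A {x | 2 ^ p.eval x.length <
      2 * {r : List Bool | r.length = p.eval x.length ∧ code (x, r) ∈ A}.ncard} := by
  refine ⟨qM, p, 2 * p + 2 * Polynomial.X + 7, fun x r hr => ?_, fun x => ?_⟩
  · obtain ⟨t, ht, c, h, -⟩ := qM_run A x r
    exact ⟨t, by simpa [hr] using ht, c, h⟩
  · have : ∀ r, qM.Accepts A x r ↔ code (x, r) ∈ A := fun r => by
      obtain ⟨t, -, c, h, h'⟩ := qM_run A x r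
      refine ⟨fun ⟨t', c', k, k'⟩ => ?_, fun k => ⟨t, c, h, by rw [h']; simp [k]⟩⟩
      rw [haltsAt_unique _ k h, h'] at k'
      simpa using k'
    simp only [this, Set.mem_ofPred_eq]

end Vale.Agent.P337
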