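import Vale.Agent.P337.BQ

/-! Polynomials of exponential degree with computable values. -/

namespace Vale.Agent.P337

open Vale.Agent.Lib.H24.T Finset Polynomial

set_option linter.unusedSectionVars false

variable {α β γ δ : Type} [Enc α] [Enc β] [Enc γ] [Enc δ] [Dec α] [Dec β] [Dec γ] [Dec δ]

/-- Coefficients of the Lagrange basis polynomials. -/
noncomputable def ell (D j k : ℕ) : ℂ :=
  ((lagW D j).coeff k : ℂ) / ∏ i ∈ (range (D + 1)).erase j, ((j : ℂ) - i)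

@[fun_prop] theorem BQ.ell {D j k : α → ℕ} (hD : CF D) (hj : CF j) (hk : CF k) :
    BQ fun a => ell (D a) (j a) (k a) :=
  (BQ.intCast (big_lagW.comp (hD.pair (hj.pair hk)))).div (by fun_prop)

/-- Extraction of a coefficient by interpolation. -/
noncomputable def co (D k : ℕ) (f : ℂ → ℂ) : ℂ := ∑ j ∈ range (D + 1), f j * ell D j k

theorem co_eval {D : ℕ} {Q : ℂ[X]} (h : Q.natDegree ≤ D) (k : ℕ) :
    co D k (fun x => Q.eval x) = Q.coeff k := by
  have := Lagrange.eq_interpolate (s := range (D + 1)) (v := fun i : ℕ => (i : ℂ)) (f := Q)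
    (fun _ _ _ _ h => Nat.cast_injective h)
    (by rw [card_range]; exact degree_le_natDegree.trans_lt (by exact_mod_cast Nat.lt_succ_of_le h))
  conv_rhs => rw [this, Lagrange.interpolate_apply, finsetSum_coeff]
  refine sum_congr rfl fun j _ => ?_
  simp only [Lagrange.basis, Lagrange.basisDivisor, prod_mul_distrib, ← map_prod C, coeff_C_mul,
    ell, prod_inv_distrib, lagW, div_eq_inv_mul]
  rw [← eq_intCast (Int.castRingHom ℂ), ← coeff_map, Polynomial.map_prod]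
  simp

/-- Polynomial functions of degree at most `D`. -/
def IsPoly (D : ℕ) (f : ℂ → ℂ) : Prop := ∃ Q : ℂ[X], Q.natDegree ≤ D ∧ ∀ x, f x = Q.eval x

theorem IsPoly.expand {D : ℕ} {f : ℂ → ℂ} (h : IsPoly D f) (x : ℂ) :
    f x = ∑ k ∈ range (D + 1), co D k f * x ^ k := by
  obtain ⟨Q, h1, h2⟩ := h
  obtain rfl : f = _ := funext h2
  simp only [co_eval h1]
  exact eval_eq_sum_range' (Nat.lt_succ_of_le h1) x

theorem IsPoly.mono {D E : ℕ} {f : ℂ → ℂ} (h : IsPoly D f) (e : D ≤ E) : IsPoly E f :=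
  h.imp fun _ h => ⟨h.1.trans e, h.2⟩

theorem IsPoly.const (c : ℂ) : IsPoly 0 fun _ => c := ⟨C c, by simp, by simp⟩

theorem IsPoly.add {D E : ℕ} {f g : ℂ → ℂ} (h : IsPoly D f) (h' : IsPoly E g) :
    IsPoly (D + E) fun x => f x + g x := by
  obtain ⟨P, h1, h2⟩ := h
  obtain ⟨Q, k1, k2⟩ := h'
  exact ⟨P + Q, (natDegree_add_le _ _).trans (by omega), by simp [h2, k2]⟩

theorem IsPoly.mul {D E : ℕ} {f g : ℂ → ℂ} (h : IsPoly D f) (h' : IsPoly E g) :
    IsPoly (D + E) fun x => f x * g x := by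
  obtain ⟨P, h1, h2⟩ := h
  obtain ⟨Q, k1, k2⟩ := h'
  exact ⟨P * Q, natDegree_mul_le.trans (by omega), by simp [h2, k2]⟩

theorem IsPoly.pow {D : ℕ} {f : ℂ → ℂ} (h : IsPoly D f) (k : ℕ) :
    IsPoly (k * D) fun x => f x ^ k := by
  obtain ⟨P, h1, h2⟩ := h
  exact ⟨P ^ k, natDegree_pow_le.trans (Nat.mul_le_mul_left _ h1), by simp [h2]⟩

theorem IsPoly.sum {ι : Type} {D : ι → ℕ} {f : ι → ℂ → ℂ} (s : Finset ι)
    (h : ∀ i, IsPoly (D i) (f i)) : IsPoly (∑ i ∈ s, D i) fun x => ∑ i ∈ s, f i x := by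
  classical
  induction s using Finset.induction_on with
  | empty => simpa using IsPoly.const 0
  | insert i s hi ih => simpa only [sum_insert hi] using (h i).add ih

theorem IsPoly.prod {ι : Type} {D : ι → ℕ} {f : ι → ℂ → ℂ} (s : Finset ι)
    (h : ∀ i, IsPoly (D i) (f i)) : IsPoly (∑ i ∈ s, D i) fun x => ∏ i ∈ s, f i x := by
  classical
  induction s using Finset.induction_on with
  | empty => simpa using IsPoly.const 1
  | insert i s hi ih => simpa only [sum_insert hi, prod_insert hi] using (h i).mul ih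

/-- Families of polynomial functions of exponential degree. -/
def PX (F : α → ℂ → ℂ) : Prop := ∃ D, CF D ∧ ∀ a, IsPoly (D a) (F a)

theorem PX.comp {G : β → ℂ → ℂ} {f : α → β} (h : PX G) (hf : CF f) : PX fun a => G (f a) := by
  obtain ⟨D, h1, h2⟩ := h
  exact ⟨_, h1.comp hf, fun a => h2 _⟩

theorem PX.const (c : α → ℂ) : PX fun a _ => c a := ⟨_, CF.const 0, fun _ => IsPoly.const _⟩

theorem PX.id : PX fun (_ : α) x => x := ⟨_, CF.const 1, fun _ => ⟨X, by simp, by simp⟩⟩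

theorem PX.add {F G : α → ℂ → ℂ} (h : PX F) (h' : PX G) : PX fun a x => F a x + G a x := by
  obtain ⟨D, h1, h2⟩ := h
  obtain ⟨E, k1, k2⟩ := h'
  exact ⟨_, h1.add k1, fun a => (h2 a).add (k2 a)⟩

theorem PX.mul {F G : α → ℂ → ℂ} (h : PX F) (h' : PX G) : PX fun a x => F a x * G a x := by
  obtain ⟨D, h1, h2⟩ := h
  obtain ⟨E, k1, k2⟩ := h'
  exact ⟨_, h1.add k1, fun a => (h2 a).mul (k2 a)⟩

theorem PX.sub {F G : α → ℂ → ℂ} (h : PX F) (h' : PX G) : PX fun a x => F a x - G a x := by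
  simpa only [neg_one_mul, ← sub_eq_add_neg] using h.add ((PX.const fun _ => -1).mul h')

theorem PX.pow {F : α → ℂ → ℂ} {k : α → ℕ} (h : PX F) (hk : CF k) :
    PX fun a x => F a x ^ k a := by
  obtain ⟨D, h1, h2⟩ := h
  exact ⟨_, hk.mul h1, fun a => (h2 a).pow _⟩

theorem PX.sum {S : α → Finset β} {F : α → β → ℂ → ℂ} (hS : CS S)
    (h : PX fun p : α × β => F p.1 p.2) : PX fun a x => ∑ y ∈ S a, F a y x := by
  obtain ⟨D, h1, h2⟩ := h
  exact ⟨fun a => ∑ y ∈ S a, D (a, y), by fun_prop, fun a => IsPoly.sum _ fun y => h2 (a, y)⟩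

theorem PX.prod {S : α → Finset β} {F : α → β → ℂ → ℂ} (hS : CS S)
    (h : PX fun p : α × β => F p.1 p.2) : PX fun a x => ∏ y ∈ S a, F a y x := by
  obtain ⟨D, h1, h2⟩ := h
  exact ⟨fun a => ∑ y ∈ S a, D (a, y), by fun_prop, fun a => IsPoly.prod _ fun y => h2 (a, y)⟩

/-- Families of polynomial functions of exponential degree with computable values. -/
def PQ (F : α → ℂ → ℂ) : Prop := PX F ∧ BQ fun p : α × ℕ => F p.1 p.2

theorem PQ.of_eq {F G : α → ℂ → ℂ} (h : PQ F) (e : ∀ a x, F a x = G a x) : PQ G := by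
  rwa [← show F = G from funext fun a => funext (e a)]

theorem PQ.comp {G : β → ℂ → ℂ} {f : α → β} (h : PQ G) (hf : CF f) : PQ fun a => G (f a) :=
  ⟨h.1.comp hf, h.2.comp (f := fun p : α × ℕ => (f p.1, p.2)) (by fun_prop)⟩

theorem PQ.const {c : α → ℂ} (h : BQ c) : PQ fun a _ => c a := ⟨PX.const c, by fun_prop⟩

theorem PQ.id : PQ fun (_ : α) x => x := ⟨PX.id, by fun_prop⟩

theorem PQ.add {F G : α → ℂ → ℂ} (h : PQ F) (h' : PQ G) : PQ fun a x => F a x + G a x :=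
  ⟨h.1.add h'.1, h.2.add h'.2⟩

theorem PQ.mul {F G : α → ℂ → ℂ} (h : PQ F) (h' : PQ G) : PQ fun a x => F a x * G a x :=
  ⟨h.1.mul h'.1, h.2.mul h'.2⟩

theorem PQ.sub {F G : α → ℂ → ℂ} (h : PQ F) (h' : PQ G) : PQ fun a x => F a x - G a x :=
  ⟨h.1.sub h'.1, h.2.sub h'.2⟩

theorem PQ.pow {F : α → ℂ → ℂ} {k : α → ℕ} (h : PQ F) (hk : CF k) :
    PQ fun a x => F a x ^ k a := ⟨h.1.pow hk, h.2.pow (hk.comp CF.id.fst)⟩

theorem PQ.sum {S : α → Finset β} {F : α → β → ℂ → ℂ} (hS : CS S)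
    (h : PQ fun p : α × β => F p.1 p.2) : PQ fun a x => ∑ y ∈ S a, F a y x :=
  ⟨h.1.sum hS, BQ.sum (hS.comp CF.id.fst)
    (h.2.comp (f := fun p : (α × ℕ) × β => ((p.1.1, p.2), p.1.2)) (by fun_prop))⟩

theorem PQ.prod {S : α → Finset β} {F : α → β → ℂ → ℂ} (hS : CS S)
    (h : PQ fun p : α × β => F p.1 p.2) : PQ fun a x => ∏ y ∈ S a, F a y x :=
  ⟨h.1.prod hS, BQ.prod (hS.comp CF.id.fst)
    (h.2.comp (f := fun p : (α × ℕ) × β => ((p.1.1, p.2), p.1.2)) (by fun_prop))⟩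

theorem PQ.co {D k : α → ℕ} {F : α → ℂ → ℂ → ℂ} (hD : CF D) (hk : CF k)
    (h : PQ fun (p : α × ℕ) x => F p.1 x p.2) : PQ fun a x => co (D a) (k a) (F a x) :=
  PQ.sum (S := fun a => range (D a + 1)) (F := fun a j x => F a x j * ell (D a) j (k a))
    (by fun_prop) (h.mul (PQ.const (by fun_prop)))

theorem BQ.co {D k : α → ℕ} {F : α → ℂ → ℂ} (hD : CF D) (hk : CF k)
    (h : BQ fun p : α × ℕ => F p.1 p.2) : BQ fun a => co (D a) (k a) (F a) :=
  BQ.sum (S := fun a => range (D a + 1)) (F := fun a j => F a j * P337.ell (D a) j (k a))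
    (by fun_prop) (h.mul (by fun_prop))

theorem PQ.coef {F : α → ℂ → ℂ} (h : PQ F) : ∃ (D : α → ℕ) (c : α × ℕ → ℂ), CF D ∧ BQ c ∧
    ∀ a x, F a x = ∑ k ∈ range (D a + 1), c (a, k) * x ^ k := by
  obtain ⟨⟨D, h1, h2⟩, h3⟩ := h
  exact ⟨D, fun p => P337.co (D p.1) p.2 (F p.1), h1, BQ.co (F := fun p : α × ℕ => F p.1) (by fun_prop)
    (by fun_prop) (h3.comp (f := fun p : (α × ℕ) × ℕ => (p.1.1, p.2)) (by fun_prop)),
    fun a => (h2 a).expand⟩

theorem PQ.eval {F : α → ℂ → ℂ} {x : α → ℂ} (h : PQ F) (hx : BQ x) : BQ fun a => F a (x a) := by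
  obtain ⟨D, c, h1, h2, h3⟩ := h.coef
  simp only [h3]
  fun_prop

theorem PQ.real {F : α → ℂ → ℂ} (h : PQ F) (a : α) (x : ℝ) : ((F a x).re : ℂ) = F a x := by
  obtain ⟨D, c, h1, h2, h3⟩ := h.coef
  have : F a x = (∑ k ∈ range (D a + 1), (c (a, k)).re * x ^ k : ℝ) := by
    simp [h3, h2.real]
  rw [this, Complex.ofReal_re]

theorem PQ.root {F : α → ℂ → ℂ} (h : PQ F) : ∃ ρ : α → ℕ, CF ρ ∧
    ∀ a z, (∃ x, F a x ≠ 0) → F a z = 0 → ‖z‖ < 2 ^ ρ a := by
  obtain ⟨⟨D, h1, h2⟩, h3⟩ := h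
  have hc : BQ fun p : α × ℕ => P337.co (D p.1) p.2 (F p.1) :=
    BQ.co (F := fun p : α × ℕ => F p.1) (by fun_prop)
    (by fun_prop) (h3.comp (f := fun p : (α × ℕ) × ℕ => (p.1.1, p.2)) (by fun_prop))
  obtain ⟨T, t1, t2⟩ := ((hc.comp (f := fun p : (α × ℕ) × ℕ => p.1) (by fun_prop)).div
    (hc.comp (f := fun p : (α × ℕ) × ℕ => (p.1.1, p.2)) (by fun_prop))).bound
  refine ⟨fun a => ∑ j ∈ range (D a + 1), ∑ k ∈ range (D a + 1), T ((a, j), k) + 1, by fun_prop,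
    fun a z ⟨x, hx⟩ hz => ?_⟩
  obtain ⟨Q, q1, q2⟩ := h2 a
  have e : F a = _ := funext q2
  have q0 : Q ≠ 0 := fun h => hx (by simp [q2, h])
  have := IsRoot.norm_lt_cauchyBound q0 (show Q.IsRoot z from (q2 z).symm.trans hz)
  set U := ∑ j ∈ range (D a + 1), ∑ k ∈ range (D a + 1), T ((a, j), k)
  have l0 : 0 < ‖Q.leadingCoeff‖₊ := by simpa using q0
  have : cauchyBound Q ≤ 2 ^ U + 1 := by
    refine add_le_add_left ((div_le_iff₀ l0).2 (Finset.sup_le fun j hj => ?_)) _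
    have hj := mem_range.1 hj
    have := t2 ((a, j), Q.natDegree)
    simp only [e, co_eval q1, norm_div] at this
    have u : T ((a, j), Q.natDegree) ≤ U :=
      (single_le_sum (f := fun k => T ((a, j), k)) (fun _ _ => Nat.zero_le _)
        (mem_range.2 (by omega))).trans (single_le_sum
          (f := fun j => ∑ k ∈ range (D a + 1), T ((a, j), k)) (fun _ _ => Nat.zero_le _)
            (mem_range.2 (by omega)))
    exact_mod_cast (div_le_iff₀ (show 0 < ‖Q.leadingCoeff‖ from l0)).1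
      (this.trans (pow_le_pow_right₀ one_le_two u))
  have h : ‖z‖ < 2 ^ U + 1 := by exact_mod_cast ‹‖z‖₊ < _›.trans_le this
  have : (1 : ℝ) ≤ 2 ^ U := one_le_pow₀ one_le_two
  simp only [pow_succ]
  linarith

/-- The iteration of `x ↦ N c x / D c x` along a list leads from `x` to `y`. -/
def Reach (N D : γ → ℂ → ℂ) : List γ → ℂ → ℂ → Prop
  | [], x, y => x = y
  | c :: l, x, y => D c x ≠ 0 ∧ Reach N D l (N c x / D c x) y

theorem hom_cast {D : ℕ} {n : ℕ → ℤ} {x : ℤ × ℤ} (h : x.2 ≠ 0) :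
    ((hom D n x : ℤ) : ℂ) = x.2 ^ D * ∑ i ∈ range (D + 1), n i * (x.1 / x.2 : ℂ) ^ i := by
  simp only [hom, mul_sum]
  push_cast
  refine sum_congr rfl fun i hi => ?_
  have : (x.2 : ℂ) ≠ 0 := by exact_mod_cast h
  rw [pow_sub₀ _ this (Nat.le_of_lt_succ (mem_range.1 hi)), div_pow]
  field_simp

theorem PQ.iter {N D : α × γ → ℂ → ℂ} (hN : PQ N) (hD : PQ D) : ∃ X : α × List γ → ℂ, BQ X ∧
    ∀ a l y, Reach (fun c => N (a, c)) (fun c => D (a, c)) l 0 y → X (a, l) = y := by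
  obtain ⟨⟨E, e1, e2⟩, e3⟩ := hN
  obtain ⟨⟨E', f1, f2⟩, f3⟩ := hD
  have k : ∀ F : α × γ → ℂ → ℂ, BQ (fun p : (α × γ) × ℕ => F p.1 p.2) →
      BQ fun p : (α × γ) × ℕ => P337.co (E p.1 + E' p.1) p.2 (F p.1) := fun F h =>
    BQ.co (F := fun p : (α × γ) × ℕ => F p.1) (by fun_prop)
      (by fun_prop) (h.comp (f := fun p : ((α × γ) × ℕ) × ℕ => (p.1.1, p.2)) (by fun_prop))
  have hS : CS fun p => range (E p + E' p + 1) := by fun_prop
  obtain ⟨c, G, c1, c2, c3⟩ := (k N e3).clear hS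
  obtain ⟨c', G', d1, d2, d3⟩ := (k D f3).clear hS
  obtain ⟨X, x1, x2, x3⟩ := Big.iter (n := fun p => c' p.1 * G p) (m := fun p => c p.1 * G' p)
    (e1.add f1) (by fun_prop) (by fun_prop)
  refine ⟨fun p => (X p).1 / (X p).2, (BQ.intCast x1).div (BQ.intCast x2), fun a l y h => ?_⟩
  simp only [x3]
  suffices H : ∀ x : ℤ × ℤ, x.2 ≠ 0 → Reach (fun c => N (a, c)) (fun c => D (a, c)) l
      (x.1 / x.2) y → ((l.foldl _ x).1 / (l.foldl _ x).2 : ℂ) = y from H _ (by simp) (by simpa)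
  clear h
  induction l with
  | nil => exact fun x _ h => h
  | cons b l ih =>
    intro x hx ⟨h1, h2⟩
    have c0 : (c (a, b) : ℂ) ≠ 0 := by exact_mod_cast (c3 _).1
    have d0 : (c' (a, b) : ℂ) ≠ 0 := by exact_mod_cast (d3 _).1
    have x0 : (x.2 : ℂ) ≠ 0 := by exact_mod_cast hx
    have n1 : ((hom (E (a, b) + E' (a, b)) (fun i => c' (a, b) * G ((a, b), i)) x : ℤ) : ℂ) =
        x.2 ^ (E (a, b) + E' (a, b)) * (c (a, b) * c' (a, b)) * N (a, b) (x.1 / x.2) := by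
      rw [hom_cast hx, ((e2 _).mono (Nat.le_add_right _ (E' (a, b)))).expand, mul_assoc, mul_sum _ _
        (_ * _ : ℂ)]
      refine congrArg _ (sum_congr rfl fun i hi => ?_)
      rw [(c3 _).2 i hi]
      push_cast
      field_simp
    have n2 : ((hom (E (a, b) + E' (a, b)) (fun i => c (a, b) * G' ((a, b), i)) x : ℤ) : ℂ) =
        x.2 ^ (E (a, b) + E' (a, b)) * (c (a, b) * c' (a, b)) * D (a, b) (x.1 / x.2) := by
      rw [hom_cast hx, ((f2 _).mono (Nat.le_add_left _ (E (a, b)))).expand, mul_assoc, mul_sum _ _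
        (_ * _ : ℂ)]
      refine congrArg _ (sum_congr rfl fun i hi => ?_)
      rw [(d3 _).2 i hi]
      push_cast
      field_simp
    have u : (x.2 : ℂ) ^ (E (a, b) + E' (a, b)) * (c (a, b) * c' (a, b)) ≠ 0 := by positivity
    refine ih _ (fun h => mul_ne_zero u h1 (n2.symm.trans (by exact_mod_cast h))) ?_
    simp only [n1, n2]
    rwa [mul_div_mul_left _ _ u]

end Vale.Agent.P337
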