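import Vale.Agent.P337.Zero

/-! Reduction of existential sentences to zeros of nonnegative polynomials. -/

namespace Vale.Agent.P337

open Vale.Agent.Lib.H24.T Finset MvPolynomial

/-- Polynomials with exponents in unary. -/
abbrev Pol : Type := List (ℤ × List (List Unit))

/-- The value of a polynomial. -/
def evP {R : Type} [CommRing R] (p : Pol) (v : ℕ → R) : R :=
  ∑ j ∈ range p.length, (p.getD j (0, [])).1 * ∏ i ∈ range (p.getD j (0, [])).2.length,
    v i ^ ((p.getD j (0, [])).2.getD i []).length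

/-- An equation in `y` solvable iff `p` has the sign `s`. -/
def qq {R : Type} [CommRing R] (s : ℕ) (p y : R) : R :=
  if s = 0 then p else (if s = 1 then 1 else -1) * p * y ^ 2 - 1

/-- The sum of squares attached to a list of symbols with signs. -/
def Fv {R : Type} [CommRing R] (u : List ((ℕ × Pol) × ℕ)) (v : ℕ → R) : R :=
  ∑ t ∈ range u.length, qq (u.getD t ((0, []), 0)).2 (evP (u.getD t ((0, []), 0)).1.2 v)
    (v (sz u + t)) ^ 2

theorem map_Fv {R S : Type} [CommRing R] [CommRing S] (f : R →+* S) (u : List ((ℕ × Pol) × ℕ))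
    (v : ℕ → R) : f (Fv u v) = Fv u fun i => f (v i) := by
  simp [Fv, qq, evP, apply_ite f]

/-- The number `s` encodes the sign of `t`. -/
def Cons (s : ℕ) (t : ℝ) : Prop := (s = 0 ↔ t = 0) ∧ (s = 1 ↔ 0 < t)

theorem qq_iff (s : ℕ) (t : ℝ) : (∃ y, qq s t y = 0) ↔ Cons s t := by
  have k : ∀ t : ℝ, (∃ y, t * y ^ 2 - 1 = 0) ↔ 0 < t := fun t =>
    ⟨fun ⟨y, h⟩ => by_contra fun h' => by nlinarith [sq_nonneg y], fun h =>
      ⟨√t⁻¹, by rw [Real.sq_sqrt (by positivity), mul_inv_cancel₀ h.ne', sub_self]⟩⟩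
  rcases s with _ | _ | s
  · simp +contextual [qq, Cons]
  · simpa [qq, Cons, k] using ne_of_gt
  · simp only [qq, Cons, Nat.add_eq_zero_iff, one_ne_zero, and_false, if_false, Nat.add_eq_right,
      neg_one_mul, k, false_iff, neg_pos]
    exact ⟨fun h => ⟨h.ne, h.not_gt⟩, fun h => lt_of_le_of_ne (not_lt.1 h.2) h.1⟩

theorem sz_getD {α : Type} [Enc α] {l : List α} {i : ℕ} (h : i < l.length) (d : α) :
    sz (l.getD i d) ≤ sz l := by
  rw [List.getD_eq_getElem _ _ h]
  exact sz_mem (List.getElem_mem _)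

theorem sz_mono {p : Pol} {j : ℕ} (h : j ∈ range p.length) : sz (p.getD j (0, [])).2 ≤ sz p := by
  have := sz_getD (mem_range.1 h) (0, [])
  rw [sz_pair'] at this
  omega

theorem sz_tok {u : List ((ℕ × Pol) × ℕ)} {j : ℕ} (h : j ∈ range u.length) :
    sz (u.getD j ((0, []), 0)).1.2 ≤ sz u := by
  have := sz_getD (mem_range.1 h) ((0, []), 0)
  rw [sz_pair', sz_pair'] at this
  omega

theorem evP_congr {p : Pol} {v w : ℕ → ℝ} (h : ∀ i < sz p, v i = w i) : evP p v = evP p w :=
  sum_congr rfl fun _ hj => congrArg _ (prod_congr rfl fun i hi => by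
    rw [h i ((mem_range.1 hi).trans_le ((length_le_sz _).trans (sz_mono hj)))])

theorem deg_Fv {n : ℕ} {v : ℕ → MvPolynomial (Fin n) ℂ} (hv : ∀ i, (v i).totalDegree ≤ 1)
    (u : List ((ℕ × Pol) × ℕ)) : (Fv u v).totalDegree ≤ 2 * (sz u * sz u + 2) := by
  refine totalDegree_finsetSum_le fun t ht => (totalDegree_pow _ _).trans (Nat.mul_le_mul_left _ ?_)
  have : (evP (u.getD t ((0, []), 0)).1.2 v).totalDegree ≤ sz u * sz u := by
    refine totalDegree_finsetSum_le fun j hj => (totalDegree_mul _ _).trans ?_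
    have h := (sz_mono hj).trans (sz_tok ht)
    rw [← map_intCast (C : ℂ →+* MvPolynomial (Fin n) ℂ), totalDegree_C, zero_add]
    refine (totalDegree_finsetProd _ _).trans ((sum_le_card_nsmul _ _ (sz u) fun i hi =>
      (totalDegree_pow _ _).trans ((Nat.mul_le_mul ((length_le_sz _).trans
        ((sz_getD (mem_range.1 hi) _).trans h)) (hv i)).trans (by simp))).trans ?_)
    rw [card_range]
    exact Nat.mul_le_mul_right _ ((length_le_sz _).trans h)
  have h := (totalDegree_mul _ _).trans (add_le_add this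
    ((totalDegree_pow _ 2).trans (Nat.mul_le_mul_left _ (hv (sz u + t)))))
  rw [qq]
  split_ifs
  · omega
  · exact (totalDegree_sub _ _).trans (by simpa using h)
  · exact (totalDegree_sub _ _).trans (by simpa using h)

theorem bq_Fv {α : Type} [Enc α] [Dec α] {u : α → List ((ℕ × Pol) × ℕ)} {v : α → ℕ → ℂ}
    (hu : CF u) (hv : BQ fun p : α × ℕ => v p.1 p.2) : BQ fun a => Fv (u a) (v a) := by
  have h1 : CF fun a => sz (u a) := (PT.cf (pt_code PT.id).length).comp hu
  have h2 : BQ fun p : α × Pol => evP p.2 (v p.1) := by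
    simp only [evP]
    fun_prop
  have h3 := h2.comp (f := fun p : α × ℕ => (p.1, ((u p.1).getD p.2 ((0, []), 0)).1.2))
    (by fun_prop)
  exact BQ.sum (by fun_prop) ((BQ.ite (by fun_prop) h3 ((((BQ.ite (by fun_prop) (BQ.const _)
    (BQ.const _)).mul h3).mul ((hv.comp (f := fun p : α × ℕ => (p.1, sz (u p.1) + p.2))
      (CF.id.fst.pair ((h1.comp CF.id.fst).add CF.id.snd))).pow (CF.const _))).sub (BQ.const _))).pow (CF.const _))

theorem signs_CH : CH fun u : List ((ℕ × Pol) × ℕ) =>
    ∃ x : ℕ → ℝ, ∀ t ∈ u, Cons t.2 (evP t.1.2 x) := by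
  have h1 : CF fun u : List ((ℕ × Pol) × ℕ) => sz u := PT.cf (pt_code PT.id).length
  have h2 := Pb.sz_id (α := List ((ℕ × Pol) × ℕ))
  have e : ∀ (u : List ((ℕ × Pol) × ℕ)) (x : Fin (sz u + u.length) → ℝ),
      eval x (Fv u fun i => if h : i < sz u + u.length then X ⟨i, h⟩ else 0) =
      Fv u fun i => if h : i < sz u + u.length then x ⟨i, h⟩ else 0 := fun u x => by
    simp only [map_Fv, apply_dite (eval x), eval_X, map_zero]
  refine (zero_CH (n := fun u => sz u + u.length) (D := fun u => 2 * (sz u * sz u + 2))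
    (F := fun u => Fv u fun i => if h : i < sz u + u.length then X ⟨i, h⟩ else 0)
    ⟨by fun_prop, by fun_prop, by fun_prop, fun u => ?_, ?_⟩ (by fun_prop) fun u x => ?_).congr
    fun u => ?_
  · rw [map_Fv]
    exact deg_Fv (fun i => by split_ifs <;> simp) u
  · refine (bq_Fv (u := fun p : _ × List ℕ => p.1) (v := fun p i =>
      if i < sz p.1 + p.1.length then (p.2.getD i 0 : ℂ) else 0) (by fun_prop)
      (by fun_prop)).of_eq fun p => ?_
    simp only [map_Fv]
    congr
    ext i
    split_ifs <;> simp [pt]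
  · rw [e]
    exact sum_nonneg fun _ _ => sq_nonneg _
  · simp only [e]
    simp only [Fv, sum_eq_zero_iff_of_nonneg fun _ _ => sq_nonneg _, sq_eq_zero_iff]
    refine ⟨fun ⟨x, h⟩ => ⟨fun i => if h : i < sz u + u.length then x ⟨i, h⟩ else 0,
      fun t ht => ?_⟩, fun ⟨x, h⟩ => ?_⟩
    · obtain ⟨j, hj, rfl⟩ := List.getElem_of_mem ht
      have := h j (mem_range.2 hj)
      rw [List.getD_eq_getElem _ _ hj] at this
      exact (qq_iff _ _).1 ⟨_, this⟩
    · choose! y hy using fun j (hj : j ∈ range u.length) => (qq_iff _ _).2 (h (u.getD j ((0, []), 0))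
        (List.getD_eq_getElem _ _ (mem_range.1 hj) ▸ List.getElem_mem _))
      refine ⟨fun i => if i < sz u then x i else y (i - sz u), fun j hj => ?_⟩
      rw [dif_pos (Nat.add_lt_add_left (mem_range.1 hj) _), evP_congr (w := x) fun i hi => ?_]
      · simpa using hy j hj
      · have := hi.trans_le (sz_tok hj)
        rw [dif_pos (by omega)]
        exact if_pos this

/-- Exponents in unary. -/
def up (p : List (ℤ × List ℕ)) : Pol := p.map fun m => (m.1, m.2.map fun e => List.replicate e ())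

theorem rep_unit (l : List Unit) : List.replicate l.length () = l :=
  (List.eq_replicate_iff.2 ⟨rfl, fun _ _ => rfl⟩).symm

theorem up_surj (p : Pol) : ∃ q, up q = p :=
  ⟨p.map fun m => (m.1, m.2.map List.length), by simp [up, Function.comp_def, rep_unit]⟩

theorem evP_up (p : List (ℤ × List ℕ)) (x : ℕ → ℝ) : evP (up p) x = evalPoly p x := by
  rw [evP, evalPoly, up, List.length_map, sum_range, ← Fin.sum_univ_fun_getElem]
  refine sum_congr rfl fun j _ => ?_
  rw [List.getD_eq_getElem _ _ (by simp), List.getElem_map]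
  simp only [List.length_map, prod_range]
  simp

/-- The list of symbols of a formula. -/
def toks : Fm → List (ℕ × Pol)
  | .eq p => [(0, up p)]
  | .pos p => [(1, up p)]
  | .not φ => (2, []) :: toks φ
  | .and φ ψ => (3, []) :: (toks φ ++ toks ψ)
  | .or φ ψ => (4, []) :: (toks φ ++ toks ψ)

theorem code_nat (n : ℕ) : code n = codeNat n := code_list (fun b => by cases b <;> rfl) n.bits

theorem code_sym (k : ℕ) (p : List (ℤ × List ℕ)) (l : List (ℕ × Pol)) :
    code ((k, up p) :: l) = codeSym k p ++ code l := by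
  have h1 : ∀ z : ℤ, code z = codeInt z := fun z => by
    rw [codeInt, ← code_nat]
    refine (code_pair _ _).trans ?_
    by_cases h : z < 0 <;> simp [h] <;> rfl
  have h2 : ∀ l : List Unit, code l = codeUnary l.length := fun l => by
    rw [code_list (f := fun _ => [false]) fun _ => rfl, codeUnary, rep_unit]
  rw [code_cons, code_pair, code_nat, code_list fun m : ℤ × List (List Unit) =>
    (code_pair m.1 m.2).trans (by rw [h1, code_list h2])]
  simp [codeSym, codePoly, codeList, up, List.flatMap_map]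

theorem code_toks : ∀ (φ : Fm) (l : List (ℕ × Pol)), code (toks φ ++ l) = codeFm φ ++ code l
  | .eq p, l => code_sym 0 p l
  | .pos p, l => code_sym 1 p l
  | .not φ, l => (code_sym 2 [] _).trans (by simp [codeFm, code_toks φ])
  | .and φ ψ, l => (code_sym 3 [] _).trans (by simp [codeFm, code_toks φ, code_toks ψ])
  | .or φ ψ, l => (code_sym 4 [] _).trans (by simp [codeFm, code_toks φ, code_toks ψ])

/-- One step of the evaluation of a formula on a stack. -/
def bstep (st : Bool × List Bool) (t : (ℕ × Pol) × ℕ) : Bool × List Bool :=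
  if t.1.1 = 0 then (st.1, decide (t.2 = 0) :: st.2)
  else if t.1.1 = 1 then (st.1, decide (t.2 = 1) :: st.2)
  else if t.1.1 = 2 then (st.1 && t.1.2.isEmpty && !st.2.isEmpty, (!st.2.headD false) :: st.2.tail)
  else (st.1 && t.1.2.isEmpty && !st.2.tail.isEmpty && decide (t.1.1 ≤ 4),
    (if t.1.1 = 3 then st.2.headD false && st.2.tail.headD false
      else st.2.headD false || st.2.tail.headD false) :: st.2.tail.tail)

theorem pt_bev : PT fun u : List ((ℕ × Pol) × ℕ) => u.reverse.foldl bstep (true, []) := by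
  refine PT.foldl_add (h := fun _ => bstep) (by simp only [bstep]; fun_prop) (by fun_prop)
    (by fun_prop) (fun _ => 7) (by fun_prop) fun _ y t => ?_
  have h : ∀ (a b : Bool) (l : List Bool), sz l ≤ sz y.2 → sz (a, b :: l) ≤ sz y + 7 :=
    fun a b l h => by
      have := sz_bool a
      have := sz_bool b
      rw [sz_pair' y, sz_pair, sz_cons]
      omega
  have := sz_drop y.2 1
  have := sz_drop y.2.tail 1
  simp only [List.drop_one] at *
  simp only [bstep]
  split_ifs <;> exact h _ _ _ (by omega)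

open Classical in
/-- The truth value of a formula. -/
noncomputable def tv (x : ℕ → ℝ) (φ : Fm) : Bool := decide (φ.Holds x)

@[simp] theorem tv_iff {x : ℕ → ℝ} {φ : Fm} : tv x φ = true ↔ φ.Holds x := by simp [tv]

theorem tv_spec (x : ℕ → ℝ) : (∀ p, tv x (.eq p) = decide (evalPoly p x = 0)) ∧
    (∀ p, tv x (.pos p) = decide (0 < evalPoly p x)) ∧ (∀ φ, tv x (.not φ) = !tv x φ) ∧
    (∀ φ ψ, tv x (.and φ ψ) = (tv x φ && tv x ψ)) ∧ ∀ φ ψ, tv x (.or φ ψ) = (tv x φ || tv x ψ) := by
  refine ⟨fun _ => ?_, fun _ => ?_, fun _ => ?_, fun _ _ => ?_, fun _ _ => ?_⟩ <;>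
    rw [Bool.eq_iff_iff] <;> simp [Fm.Holds, ← Bool.not_eq_true]

theorem bev_sound (x : ℕ → ℝ) (u : List ((ℕ × Pol) × ℕ)) (h : ∀ t ∈ u, Cons t.2 (evP t.1.2 x))
    (ok : (u.reverse.foldl bstep (true, [])).1 = true) : ∃ fs : List Fm,
      u.map Prod.fst = fs.flatMap toks ∧
        (u.reverse.foldl bstep (true, [])).2 = fs.map (tv x) := by
  induction u with
  | nil => exact ⟨[], rfl, rfl⟩
  | cons t u ih =>
    obtain ⟨⟨k, p⟩, s⟩ := t
    obtain ⟨p, rfl⟩ := up_surj p
    have c := h _ List.mem_cons_self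
    simp only [Cons, evP_up] at c
    rw [List.reverse_cons, List.foldl_append, List.foldl_cons, List.foldl_nil] at ok ⊢
    obtain ⟨fs, h1, h2⟩ := ih (fun t ht => h t (List.mem_cons_of_mem _ ht)) (by
      simp only [bstep] at ok
      split_ifs at ok <;> simp_all)
    simp only [bstep, h2, List.map_cons, h1] at ok ⊢
    split_ifs at ok ⊢ with k0 k1 k2 k3
    · exact ⟨.eq p :: fs, by simp [toks, k0], by simp [tv_spec, c.1]⟩
    · exact ⟨.pos p :: fs, by simp [toks, k1], by simp [tv_spec, c.2]⟩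
    · rcases fs with _ | ⟨φ, fs⟩ <;> simp at ok
      exact ⟨.not φ :: fs, by simp [toks, k2, ok.2], by simp [tv_spec]⟩
    · rcases fs with _ | ⟨φ, _ | ⟨ψ, fs⟩⟩ <;> simp at ok
      exact ⟨.and φ ψ :: fs, by simp [toks, k3, ok.1.2], by simp [tv_spec]⟩
    · rcases fs with _ | ⟨φ, _ | ⟨ψ, fs⟩⟩ <;> simp at ok
      exact ⟨.or φ ψ :: fs, by simp [toks, show k = 4 by omega, ok.1.2], by simp [tv_spec]⟩

theorem bev_complete {x : ℕ → ℝ} {f : ℕ × Pol → ℕ} (h : ∀ t, Cons (f t) (evP t.2 x)) :
    ∀ (φ : Fm) (st : Bool × List Bool), ((toks φ).map fun t => (t, f t)).reverse.foldl bstep st =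
      (st.1, tv x φ :: st.2)
  | .eq p, st => by simp [toks, bstep, (h _).1, evP_up, tv_spec]
  | .pos p, st => by simp [toks, bstep, (h _).2, evP_up, tv_spec]
  | .not φ, st => by
    rw [toks, List.map_cons, List.reverse_cons, List.foldl_append, bev_complete h φ]
    simp [bstep, tv_spec]
  | .and φ ψ, st => by
    rw [toks, List.map_cons, List.reverse_cons, List.map_append, List.reverse_append,
      List.foldl_append, List.foldl_append, bev_complete h φ, bev_complete h ψ]
    simp [bstep, tv_spec]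
  | .or φ ψ, st => by
    rw [toks, List.map_cons, List.reverse_cons, List.map_append, List.reverse_append,
      List.foldl_append, List.foldl_append, bev_complete h φ, bev_complete h ψ]
    simp [bstep, tv_spec]

theorem etr_CH : CH fun w => w ∈ ETR := by
  have h1 : CH fun p : List Bool × List ((ℕ × Pol) × ℕ) =>
      code (p.2.map Prod.fst) = p.1 ++ [false] ∧ p.2.reverse.foldl bstep (true, []) = (true, [true]) ∧
        ∃ x : ℕ → ℝ, ∀ t ∈ p.2, Cons t.2 (evP t.1.2 x) :=
    (CH.eq (PT.cf (pt_code (PT.map (g := fun _ t => t.1) PT.id.snd (by fun_prop))))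
      (PT.cf (by fun_prop))).and ((CH.eq (PT.cf (pt_bev.comp PT.id.snd)) (CF.const _)).and
        (signs_CH.comp CF.id.snd))
  have := Pb.sz_id (α := List Bool)
  obtain ⟨P, p1, p2⟩ := h1.guess (φ := fun w => (sz w + 1) * (sz w + 11 + 1) + 1) (by fun_prop)
  refine p1.congr fun w => ⟨fun h => ?_, fun ⟨φ, hw, x, hx⟩ => ?_⟩
  · obtain ⟨u, h1, h2, x, h3⟩ := (p2 w).1 h
    obtain ⟨fs, h4, h5⟩ := bev_sound x u h3 (congrArg Prod.fst h2)
    rw [h2] at h5
    rcases fs with _ | ⟨φ, _ | _⟩ <;> simp at h5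
    simp only [h4, List.flatMap_cons, List.flatMap_nil, code_toks, code_nil] at h1
    exact ⟨φ, (List.append_cancel_right h1).symm, x, h5⟩
  · obtain ⟨f, f1, f2⟩ : ∃ f : ℕ × Pol → ℕ, (∀ t, f t ≤ 2) ∧ ∀ t, Cons (f t) (evP t.2 x) :=
      ⟨fun t => if evP t.2 x = 0 then 0 else if 0 < evP t.2 x then 1 else 2,
        fun t => by beta_reduce; split_ifs <;> omega,
        fun t => by beta_reduce; split_ifs <;> simp_all [Cons]⟩
    have c : code (toks φ) = w ++ [false] := by simpa [hw, code_nil] using code_toks φ []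
    have s : sz (toks φ) ≤ sz w + 1 := by
      rw [sz, c, List.length_append]
      exact Nat.succ_le_succ (length_le_sz w)
    refine (p2 w).2 ((toks φ).map fun t => (t, f t)) ((sz_list_le (B := sz w + 11) fun t ht =>
      ?_).trans ?_) ⟨by simpa [Function.comp_def] using c, by simp only [bev_complete f2]; simp [hx],
        x, fun t ht => ?_⟩
    · obtain ⟨t, ht', rfl⟩ := List.mem_map.1 ht
      have := sz_mem ht'
      have := sz_nat_le (k := 2) ((f1 t).trans_lt (by norm_num))
      rw [sz_pair]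
      omega
    · rw [List.length_map]
      exact Nat.succ_le_succ (Nat.mul_le_mul_right _ ((length_le_sz _).trans s))
    · obtain ⟨t, -, rfl⟩ := List.mem_map.1 ht
      exact f2 t

theorem etr_level : ∃ j, Level j ETR := etr_CH.imp fun _ h => K.level (d := fun w => w) PT.id h

end Vale.Agent.P337
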