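import Vale.Agent.P337.Poly

/-! Families of complex numbers given by their power sums. -/

namespace Vale.Agent.P337

open Vale.Agent.Lib.H24.T Finset Polynomial

set_option linter.unusedSectionVars false

variable {α β γ δ : Type} [Enc α] [Enc β] [Enc γ] [Enc δ] [Dec α] [Dec β] [Dec γ] [Dec δ]

theorem ode_unique {L y : ℂ[X]} {d : ℕ} (h : X ^ d ∣ derivative y - L * y) (h0 : y.coeff 0 = 0) :
    ∀ m ≤ d + 1, X ^ m ∣ y := by
  intro m hm
  induction m with
  | zero => simp
  | succ m ih =>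
    have ih := ih (by omega)
    rw [X_pow_dvd_iff] at ih ⊢
    intro k hk
    rcases (Nat.le_of_lt_succ hk).eq_or_lt with rfl | h'
    · rcases k with _ | k
      · exact h0
      · have : X ^ (k + 1) ∣ derivative y := by
          simpa using dvd_add ((pow_dvd_pow X (show k + 1 ≤ d by omega)).trans h)
            ((X_pow_dvd_iff.2 ih).mul_left L)
        have := X_pow_dvd_iff.1 this k (by omega)
        rw [coeff_derivative] at this
        exact (mul_eq_zero.1 this).resolve_right (by exact_mod_cast Nat.succ_ne_zero k)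
    · exact ih k h'

/-- The product of `d` numbers in terms of their power sums `p`. -/
noncomputable def nf (d : ℕ) (p : ℕ → ℂ) : ℂ :=
  co (d * d) d fun s => ∑ j ∈ range (d + 1), (∏ i ∈ range j, ((i : ℂ) + 1))⁻¹ *
    (∑ k ∈ range d, (-1) ^ k * p (k + 1) * ((k : ℂ) + 1)⁻¹ * s ^ (k + 1)) ^ j

theorem nf_eq (d : ℕ) (w : ℕ → ℂ) : nf d (fun k => ∑ i ∈ range d, w i ^ k) = ∏ i ∈ range d, w i := by
  set L : ℂ[X] := ∑ k ∈ range d,
    C ((-1) ^ k * (∑ i ∈ range d, w i ^ (k + 1)) * ((k : ℂ) + 1)⁻¹) * X ^ (k + 1) with hL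
  set E : ℕ → ℂ[X] := fun m => ∑ j ∈ range (m + 1), C (∏ i ∈ range j, ((i : ℂ) + 1))⁻¹ * L ^ j
    with hE
  set Q : ℂ[X] := ∏ i ∈ range d, (C (w i) * X + 1) with hQ
  have l1 : L.natDegree ≤ d := natDegree_sum_le_of_forall_le _ _ fun k hk =>
    (natDegree_C_mul_X_pow_le _ _).trans (mem_range.1 hk)
  have l2 : X ∣ L := dvd_sum fun k _ => (dvd_pow_self X (Nat.succ_ne_zero k)).mul_left _
  have e1 : (E d).natDegree ≤ d * d := natDegree_sum_le_of_forall_le _ _ fun j hj =>
    (natDegree_C_mul_le _ _).trans (natDegree_pow_le.trans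
      (Nat.mul_le_mul (Nat.le_of_lt_succ (mem_range.1 hj)) l1))
  have e2 : ∀ m, derivative (E m) - derivative L * E m =
      -(derivative L * (C (∏ i ∈ range m, ((i : ℂ) + 1))⁻¹ * L ^ m)) := fun m => by
    induction m with
    | zero => simp [hE]
    | succ m ih =>
      have : E (m + 1) = E m + C (∏ i ∈ range (m + 1), ((i : ℂ) + 1))⁻¹ * L ^ (m + 1) :=
        sum_range_succ _ _
      have h : C ((m : ℂ) + 1)⁻¹ * C ((m : ℂ) + 1) = 1 := by
        rw [← C_mul, inv_mul_cancel₀ (by exact_mod_cast Nat.succ_ne_zero m), C_1]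
      rw [this, derivative_add, derivative_C_mul, derivative_pow_succ]
      rw [prod_range_succ, mul_inv, C_mul]
      linear_combination ih + C (∏ i ∈ range m, ((i : ℂ) + 1))⁻¹ * L ^ m * derivative L * h
  have l3 : derivative L = ∑ i ∈ range d, C (w i) * ∑ k ∈ range d, (-(C (w i) * X)) ^ k := by
    simp only [mul_sum]
    rw [sum_comm, hL, derivative_sum]
    refine sum_congr rfl fun k _ => ?_
    rw [derivative_C_mul, derivative_X_pow_succ, ← mul_assoc, ← C_mul,
      inv_mul_cancel_right₀ (by exact_mod_cast Nat.succ_ne_zero k), mul_sum, map_sum, sum_mul]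
    refine sum_congr rfl fun i _ => ?_
    rw [neg_pow (C _ * X)]
    simp only [map_mul, map_pow, map_neg, map_one]
    ring
  have q1 : X ^ d ∣ derivative Q - derivative L * Q := by
    rw [l3, sum_mul, hQ, derivative_prod_finset, ← sum_sub_distrib]
    refine dvd_sum fun i hi => ⟨(∏ j ∈ (range d).erase i, (C (w j) * X + 1)) * C (w i) *
      (-C (w i)) ^ d, ?_⟩
    have := mul_neg_geom_sum (-(C (w i) * X)) d
    rw [← mul_prod_erase _ _ hi, ← neg_mul, mul_pow] at *
    simp only [derivative_add, derivative_C_mul_X, derivative_one, add_zero]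
    linear_combination (-(∏ j ∈ (range d).erase i, (C (w j) * X + 1)) * C (w i)) * this
  have := ode_unique (L := derivative L) (y := Q - E d) (d := d) (by
    have := dvd_sub q1 (e2 d ▸ (((pow_dvd_pow_of_dvd l2 d).mul_left _).mul_left _).neg_right)
    convert this using 1
    rw [derivative_sub]
    ring) (by
    obtain ⟨M, hM⟩ := l2
    simp [hQ, hE, coeff_zero_eq_eval_zero, eval_prod, eval_finsetSum, hM, sum_range_succ']) _ le_rfl
  have := X_pow_dvd_iff.1 this d (by omega)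
  rw [coeff_sub, sub_eq_zero] at this
  have q2 := coeff_prod_of_natDegree_le (s := range d) (fun i => C (w i) * X + 1) 1
    fun i _ => by compute_degree
  rw [card_range, mul_one, ← hQ, this, ← co_eval e1] at q2
  simp only [coeff_add, coeff_C_mul, coeff_X_one, mul_one, coeff_one, one_ne_zero, if_false,
    add_zero] at q2
  rw [← q2, nf]
  simp [hE, hL, eval_finsetSum]

theorem PQ.nf {d : α → ℕ} {p : α → ℂ → ℕ → ℂ} (hd : CF d)
    (h : PQ fun (q : α × ℕ) x => p q.1 x q.2) : PQ fun a x => nf (d a) (p a x) :=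
  PQ.co (by fun_prop) hd (PQ.sum (by fun_prop) ((PQ.const (by fun_prop)).mul (PQ.pow
    (PQ.sum (by fun_prop) ((((PQ.const (by fun_prop)).mul
      (h.comp (f := fun q : ((α × ℕ) × ℕ) × ℕ => (q.1.1.1, q.2 + 1)) (by fun_prop))).mul
        (PQ.const (by fun_prop))).mul (PQ.const (by fun_prop)))) (by fun_prop))))

/-- Families of complex numbers, depending on a parameter, with computable power sums. -/
def PS (d : α → ℕ) (Z : α → ℂ → ℕ → ℂ) : Prop :=
  CF d ∧ PQ fun (p : α × ℕ) x => ∑ i ∈ range (d p.1), Z p.1 x i ^ p.2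

variable {d : α → ℕ} {Z : α → ℂ → ℕ → ℂ}

theorem PS.comp {f : β → α} (h : PS d Z) (hf : CF f) : PS (fun b => d (f b)) fun b => Z (f b) :=
  ⟨h.1.comp hf, h.2.comp (f := fun p : β × ℕ => (f p.1, p.2)) (by fun_prop)⟩

theorem PS.tr {f : α → ℂ → ℂ} (h : PS d Z) (hf : PQ f) :
    PQ fun a x => ∑ i ∈ range (d a), f a (Z a x i) := by
  obtain ⟨D, c, h1, h2, h3⟩ := hf.coef
  refine (PQ.sum (S := fun a => range (D a + 1))
    (F := fun a k x => c (a, k) * ∑ i ∈ range (d a), Z a x i ^ k) (by fun_prop)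
    ((PQ.const h2).mul h.2)).of_eq fun a x => ?_
  simp only [h3, mul_sum]
  exact sum_comm

theorem PS.map {f : α → ℂ → ℂ} (h : PS d Z) (hf : PQ f) : PS d fun a x i => f a (Z a x i) :=
  ⟨h.1, (h.comp CF.id.fst).tr ((hf.comp CF.id.fst).pow CF.id.snd)⟩

theorem PS.prod {f : α → ℂ → ℂ} (h : PS d Z) (hf : PQ f) :
    PQ fun a x => ∏ i ∈ range (d a), f a (Z a x i) :=
  (PQ.nf (p := fun a x k => ∑ i ∈ range (d a), f a (Z a x i) ^ k) h.1 (h.map hf).2).of_eq
    fun _ _ => nf_eq _ _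

theorem co_one_prod (d : ℕ) (u v : ℕ → ℂ) : co d 1 (fun s => ∏ i ∈ range d, (v i + s * u i)) =
    ∑ i ∈ range d, u i * ∏ j ∈ (range d).erase i, v j := by
  have : (∏ i ∈ range d, (C (v i) + X * C (u i))).natDegree ≤ d :=
    (natDegree_prod_le _ _).trans ((sum_le_card_nsmul _ _ 1 fun i _ => by
      compute_degree).trans (by simp))
  have := co_eval this 1
  simp only [eval_prod, eval_add, eval_C, eval_mul, eval_X] at this
  rw [this]
  have := coeff_derivative (∏ i ∈ range d, (C (v i) + X * C (u i))) 0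
  simp only [zero_add, Nat.cast_zero, mul_one] at this
  rw [← this, derivative_prod_finset, coeff_zero_eq_eval_zero]
  simp only [eval_finsetSum, eval_prod, eval_mul, eval_add, eval_C, eval_X, zero_mul, add_zero,
    derivative_add, derivative_C, derivative_mul, derivative_X, one_mul, mul_zero, zero_add]
  exact sum_congr rfl fun _ _ => mul_comm _ _

theorem PS.num {u v : α → ℂ → ℂ} (h : PS d Z) (hu : PQ u) (hv : PQ v) :
    PQ fun a x => ∑ i ∈ range (d a), u a (Z a x i) * ∏ j ∈ (range (d a)).erase i, v a (Z a x j) :=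
  (PQ.co (F := fun a x s => ∏ i ∈ range (d a), (v a (Z a x i) + s * u a (Z a x i))) h.1 (CF.const 1)
    ((h.comp CF.id.fst).prod ((hv.comp CF.id.fst).add ((PQ.const (c := fun p : α × ℕ => p.2)
      (by fun_prop)).mul (hu.comp CF.id.fst))))).of_eq fun _ _ => co_one_prod _ _ _

theorem PS.fix {x : α → ℂ} (h : PS d Z) (hx : BQ x) : PS d fun a _ => Z a (x a) :=
  ⟨h.1, PQ.const (h.2.eval (hx.comp CF.id.fst))⟩

theorem PQ.bq {c : α → ℂ} (h : PQ fun a _ => c a) : BQ c := h.eval (BQ.const 0)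

theorem PX.charp (h : CF d) (Z : α → ℕ → ℂ) : PX fun a t => ∏ i ∈ range (d a), (t - Z a i) :=
  PX.prod (by fun_prop) (PX.id.sub (PX.const _))

theorem PS.charp (h : PS d Z) :
    PQ fun (p : α × ℕ) x => ∏ i ∈ range (d p.1), ((p.2 : ℂ) - Z p.1 x i) :=
  (h.comp CF.id.fst).prod (f := fun (p : α × ℕ) z => (p.2 : ℂ) - z)
    ((PQ.const (by fun_prop)).sub PQ.id)

theorem charp_ne (d : ℕ) (Z : ℕ → ℂ) : ∃ t, ∏ i ∈ range d, (t - Z i) ≠ 0 := by
  obtain ⟨t, ht⟩ := Infinite.exists_notMem_finset ((range d).image Z)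
  exact ⟨t, prod_ne_zero_iff.2 fun i hi h => ht (sub_eq_zero.1 h ▸ mem_image_of_mem _ hi)⟩

theorem PS.bound {Z : α → ℕ → ℂ} (h : PS d fun a _ => Z a) :
    ∃ ρ : α → ℕ, CF ρ ∧ ∀ a, ∀ i < d a, ‖Z a i‖ < 2 ^ ρ a := by
  obtain ⟨ρ, h1, h2⟩ := PQ.root ⟨PX.charp h.1 Z, h.charp.bq⟩
  exact ⟨ρ, h1, fun a i hi => h2 a _ (charp_ne _ _)
    (prod_eq_zero (mem_range.2 hi) (sub_self _))⟩

end Vale.Agent.P337
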