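import Vale.Agent.P337.Big

/-! The sign of a big integer from its residues. -/

namespace Vale.Agent.P337

open Vale.Agent.Lib.H24.T Finset

set_option linter.unusedSectionVars false

variable {α β γ δ : Type} [Enc α] [Enc β] [Enc γ] [Enc δ] [Dec α] [Dec β] [Dec γ] [Dec δ]

lemma pi_lower (e : ℕ) : 2 ^ e ≤ e * (Nat.primesLE (2 ^ e)).card + (e + 1) := by
  have h1 := Chebyshev.two_pow_le_mul_lcmUpto (2 ^ e)
  have h2 : Nat.lcmUpto (2 ^ e) ≤ (2 ^ e) ^ (Nat.primesLE (2 ^ e)).card := by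
    rw [Nat.lcmUpto_eq_prod_pow_log]
    exact prod_le_pow_card _ _ _ fun p _ => Nat.pow_log_le_self p (by positivity)
  have h3 : 2 ^ e + 1 ≤ 2 ^ (e + 1) := by
    have : 1 ≤ 2 ^ e := Nat.one_le_two_pow
    rw [pow_succ]; omega
  have h4 : 2 ^ (2 ^ e) ≤ 2 ^ (e * (Nat.primesLE (2 ^ e)).card + (e + 1)) := by
    calc 2 ^ (2 ^ e) ≤ (2 ^ e + 1) * Nat.lcmUpto (2 ^ e) := h1
      _ ≤ 2 ^ (e + 1) * (2 ^ e) ^ (Nat.primesLE (2 ^ e)).card := Nat.mul_le_mul h3 h2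
      _ = _ := by rw [← pow_mul, ← pow_add, add_comm]
  exact (Nat.pow_le_pow_iff_right (by norm_num)).1 h4

lemma many_primes {T s : ℕ} (h : T < 2 ^ s) :
    T + 5 ≤ ((range (2 ^ (2 * s + 8) + 1)).filter fun q => q.Prime ∧ T ≤ q).card := by
  have h1 := pi_lower (2 * s + 8)
  have h2 : (Nat.primesLE (2 ^ (2 * s + 8))).card ≤
      ((range (2 ^ (2 * s + 8) + 1)).filter fun q => q.Prime ∧ T ≤ q).card + T := by
    refine le_trans (card_le_card fun q hq => ?_)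
      ((card_union_le _ (range T)).trans_eq (congrArg _ (card_range T)))
    have := Nat.le_of_mem_primesLE hq
    simp only [mem_union, mem_filter, mem_range, Nat.prime_of_mem_primesLE hq, true_and]
    omega
  have h3 : s < 2 ^ s := Nat.lt_two_pow_self
  rw [show 2 ^ (2 * s + 8) = 256 * (2 ^ s * 2 ^ s) by ring] at h1 h2 ⊢
  generalize 2 ^ s = x at *
  by_contra hc
  have h4 := Nat.mul_le_mul (show 2 * s + 8 ≤ 10 * x by omega)
    (show (Nat.primesLE (256 * (x * x))).card ≤ 7 * x by omega)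
  nlinarith

lemma window {n W : ℕ} {κ : ℤ} {v : ℝ} (hn : 0 < n) (hv : |v| ≤ 4)
    (h1 : n * (16 * κ + v - 1) ≤ W) (h2 : (W : ℝ) ≤ n * (16 * κ + v)) :
    (W % (16 * n) < n ∨ 14 * n ≤ W % (16 * n) → |v| ≤ 2) ∧
    (n ≤ W % (16 * n) ∧ W % (16 * n) < 8 * n → 0 < v) ∧
    (0 < v → ¬(W % (16 * n) < n ∨ 14 * n ≤ W % (16 * n)) →
      n ≤ W % (16 * n) ∧ W % (16 * n) < 8 * n) := by
  have e : ((16 * n * (W / (16 * n)) + W % (16 * n) : ℕ) : ℝ) = W := by rw [Nat.div_add_mod]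
  have hω : ((W % (16 * n) : ℕ) : ℝ) < (16 * n : ℕ) := by
    exact_mod_cast Nat.mod_lt W (by omega)
  generalize W % (16 * n) = ω at *
  generalize W / (16 * n) = t at *
  have ω0 : (0 : ℝ) ≤ ω := Nat.cast_nonneg _
  have n0 : (0 : ℝ) < n := by exact_mod_cast hn
  obtain ⟨m, hm⟩ : ∃ m : ℤ, (m : ℝ) = κ - t := ⟨κ - t, by simp⟩
  push_cast at e hω
  obtain ⟨v1, v2⟩ := abs_le.1 hv
  have k1 : n * (16 * m + v - 1) ≤ ω := by rw [hm]; linarith
  have k2 : ω ≤ n * (16 * m + v) := by rw [hm]; linarith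
  have m0 : (-1 : ℝ) < m := by by_contra hc; nlinarith
  have m1 : (m : ℝ) < 2 := by by_contra hc; nlinarith
  have m2 : m = 0 ∨ m = 1 := by
    have a : -1 < m := by exact_mod_cast m0
    have b : m < 2 := by exact_mod_cast m1
    omega
  simp only [← Nat.cast_lt (α := ℝ), ← Nat.cast_le (α := ℝ), not_or, not_lt, not_le, abs_le]
  push_cast
  rcases m2 with rfl | rfl <;> push_cast at k1 k2 <;>
    refine ⟨fun h => ⟨?_, ?_⟩, fun h => ?_, fun h h' => ⟨h'.1, ?_⟩⟩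
  · nlinarith
  · rcases h with h | h <;> nlinarith
  · nlinarith [h.1]
  · nlinarith
  · rcases h with h | h <;> nlinarith
  · nlinarith
  · nlinarith [h.2]
  · nlinarith [h'.2]

lemma sign_scan {Z P : ℕ → Prop} {v : ℝ} {U : ℕ} (h0 : |v| ≤ 4) (hU : 0 < v → 2 < 2 ^ U * v)
    (H : ∀ u, |2 ^ u * v| ≤ 4 → (Z u → |2 ^ u * v| ≤ 2) ∧ (P u → 0 < 2 ^ u * v) ∧
      (0 < 2 ^ u * v → ¬Z u → P u)) :
    (∃ u ∈ range (U + 1), P u ∧ All (range u) Z) ↔ 0 < v := by
  classical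
  have k : ∀ u, All (range u) Z → |2 ^ u * v| ≤ 4 := fun u => by
    induction u with
    | zero => intro _; simpa using h0
    | succ u ih =>
      intro h
      have := (H u (ih fun i hi => h i (mem_range.2 ((mem_range.1 hi).trans u.lt_succ_self)))).1
        (h u (self_mem_range_succ u))
      rw [pow_succ', mul_assoc, abs_mul, abs_two]
      linarith
  refine ⟨fun ⟨u, _, h1, h2⟩ => (mul_pos_iff_of_pos_left (by positivity)).1 ((H u (k u h2)).2.1 h1),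
    fun h => ?_⟩
  obtain ⟨u, u1, u2⟩ : ∃ u ≤ U, ¬Z u := by
    by_contra hc
    push Not at hc
    have := (H U (k U fun i hi => hc i (mem_range.1 hi).le)).1 (hc U le_rfl)
    linarith [hU h, le_abs_self (2 ^ U * v)]
  have e : ∃ u, ¬Z u := ⟨u, u2⟩
  have a : All (range (Nat.find e)) Z := fun i hi => not_not.1 (Nat.find_min e (mem_range.1 hi))
  exact ⟨_, mem_range.2 (Nat.lt_succ_of_le ((Nat.find_min' e u2).trans u1)),
    (H _ (k _ a)).2.2 (by positivity) (Nat.find_spec e), a⟩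

lemma crt_dvd {S : Finset ℕ} (hS : ∀ q ∈ S, q.Prime) {c : ℕ → ℕ} {X : ℤ}
    (hc : ∀ q ∈ S, (c q : ZMod q) = X * (∏ r ∈ S.erase q, (r : ZMod q)) ^ (q - 2)) :
    ∃ κ : ℤ, ∑ q ∈ S, (c q : ℝ) / q = κ + X / ∏ q ∈ S, (q : ℝ) := by
  have h1 : ∏ q ∈ S, (q : ℤ) ∣ ∑ q ∈ S, c q * ∏ r ∈ S.erase q, (r : ℤ) - X := by
    refine prod_dvd_of_coprime (fun q hq r hr h => Nat.isCoprime_iff_coprime.2
      ((Nat.coprime_primes (hS q hq) (hS r hr)).2 h)) fun q hq => ?_
    have := Fact.mk (hS q hq)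
    rw [← ZMod.intCast_zmod_eq_zero_iff_dvd]
    push_cast
    rw [sum_eq_single_of_mem q hq fun r _ h => by
      rw [prod_eq_zero (mem_erase.2 ⟨h.symm, hq⟩) (ZMod.natCast_self q), mul_zero], hc q hq,
      mul_assoc, ← pow_succ, show q - 2 + 1 = q - 1 by have := (hS q hq).two_le; omega,
      ZMod.pow_card_sub_one_eq_one, mul_one, sub_self]
    refine prod_ne_zero_iff.2 fun r hr e => (mem_erase.1 hr).1 ?_
    exact ((Nat.prime_dvd_prime_iff_eq (hS q hq) (hS r (mem_erase.1 hr).2)).1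
      ((ZMod.natCast_eq_zero_iff _ _).1 e)).symm
  obtain ⟨κ, hκ⟩ := h1
  have p0 : ∀ q ∈ S, (q : ℝ) ≠ 0 := fun q hq => by exact_mod_cast (hS q hq).ne_zero
  have p1 := prod_ne_zero_iff.2 p0
  have h2 : ∑ q ∈ S, (c q : ℝ) * ∏ r ∈ S.erase q, (r : ℝ) - X = (∏ q ∈ S, (q : ℝ)) * κ := by
    simpa using congrArg (Int.cast (R := ℝ)) hκ
  refine ⟨κ, ?_⟩
  rw [← sub_eq_iff_eq_add, ← mul_right_inj' p1, ← h2, mul_sub, mul_div_cancel₀ _ p1, mul_sum]
  refine congrArg (· - _) (sum_congr rfl fun q hq => ?_)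
  rw [← mul_prod_erase _ _ hq]
  field_simp [p0 q hq]

theorem Big.pos {G : α → ℤ} (h : Big G) : CH fun a => 0 < G a := by
  obtain ⟨T, h1, h2, φ, h3, h4⟩ := h
  have s1 : CF fun a => sz (T a) := (PT.cf (pt_code PT.id).length).comp h1
  obtain ⟨S, S0, S1, S2⟩ : ∃ S : α → Finset ℕ, CS S ∧ (∀ a, ∀ q ∈ S a, q.Prime ∧ T a ≤ q) ∧
      ∀ a, T a + 5 ≤ (S a).card :=
    ⟨fun a => (range (2 ^ (2 * sz (T a) + 8) + 1)).filter fun q => q.Prime ∧ T a ≤ q,
      by fun_prop, fun a q hq => (mem_filter.1 hq).2, fun a => many_primes (lt_two_pow_sz _)⟩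
  obtain ⟨ψ, k1, k2⟩ := prodMod (S := fun p : α × ℕ => (S p.1).erase p.2) (f := fun _ r => r)
    (p := fun p => p.2) (by fun_prop) (by fun_prop) (by fun_prop)
  let c : α → ℕ → ℕ → ℕ := fun a u q => pm 2 u (q - 1) * φ (a, q) * pm (ψ (a, q)) (q - 2) (q - 1)
  let ω : α → ℕ → ℕ := fun a u => (∑ q ∈ S a, 16 * (S a).card * c a u q / q) % (16 * (S a).card)
  have : CH fun a => ∃ u ∈ range ((∑ q ∈ S a, q) + 1),
      ((S a).card ≤ ω a u ∧ ω a u < 8 * (S a).card) ∧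
      All (range u) fun u => ω a u < (S a).card ∨ 14 * (S a).card ≤ ω a u := by
    simp only [ω, c]
    fun_prop
  refine this.congr fun a => ?_
  have p0 : ∀ q ∈ S a, (0 : ℝ) < q := fun q hq => by exact_mod_cast (S1 a q hq).1.pos
  obtain ⟨M, hM⟩ : ∃ M, M = ∏ q ∈ S a, (q : ℝ) := ⟨_, rfl⟩
  have M0 : 0 < M := hM ▸ prod_pos p0
  have M1 : 2 ^ (T a + 5) ≤ M := by
    refine (pow_le_pow_right₀ one_le_two (S2 a)).trans ?_
    rw [← prod_const, hM]
    exact prod_le_prod (fun _ _ => zero_le_two) fun q hq => by exact_mod_cast (S1 a q hq).1.two_le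
  have M2 : M ≤ 2 ^ ∑ q ∈ S a, q := by
    rw [← prod_pow_eq_pow_sum, hM]
    exact prod_le_prod (fun q hq => (p0 q hq).le) fun q _ => by
      exact_mod_cast Nat.lt_two_pow_self.le
  have g1 : |(G a : ℝ)| ≤ 2 ^ T a := by exact_mod_cast h2 a
  refine (sign_scan (v := 16 * G a / M) ?_ (fun h => ?_) fun u hu => ?_).trans (by simp [M0])
  · rw [abs_div, abs_mul, abs_of_pos M0, div_le_iff₀ M0, abs_of_pos (by norm_num : (0 : ℝ) < 16)]
    rw [pow_add] at M1
    linarith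
  · have : (1 : ℝ) ≤ G a := by
      have : 0 < G a := by simpa [M0] using h
      exact_mod_cast this
    rw [← mul_div_assoc, lt_div_iff₀ M0]
    nlinarith
  · obtain ⟨κ, hκ⟩ := crt_dvd (fun q hq => (S1 a q hq).1) (c := c a u) (X := 2 ^ u * G a)
      fun q hq => by
        simp only [c]
        push_cast
        rw [pm_cast (S1 a q hq).1.pos, pm_cast (S1 a q hq).1.pos, h4 a q (S1 a q hq).1 (S1 a q hq).2,
          k2 (a, q) (S1 a q hq).1]
        rfl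
    have e : ∑ q ∈ S a, ((16 * (S a).card * c a u q : ℕ) : ℝ) / q =
        (S a).card * (16 * κ + 2 ^ u * (16 * G a / M)) := by
      push_cast at hκ ⊢
      simp only [mul_div_assoc]
      rw [← mul_sum, hκ, ← hM]
      ring
    refine window (κ := κ) (by have := S2 a; omega) hu ?_ ?_
    · rw [mul_sub, ← e, mul_one, card_eq_sum_ones, Nat.cast_sum, Nat.cast_sum, ← sum_sub_distrib]
      refine sum_le_sum fun q hq => ?_
      rw [← card_eq_sum_ones, sub_le_iff_le_add, ← Nat.cast_add, div_le_iff₀ (p0 q hq)]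
      exact_mod_cast (Nat.lt_div_mul_add (S1 a q hq).1.pos).le.trans_eq (by ring)
    · rw [← e, Nat.cast_sum]
      exact sum_le_sum fun q _ => Nat.cast_div_le

theorem Big.eq_zero {G : α → ℤ} (h : Big G) : CH fun a => G a = 0 :=
  (h.pos.not.and h.neg.pos.not).congr fun a => by omega

end Vale.Agent.P337
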