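import Vale.Agent.P337.Alg

/-! Thresholds for the existence of a zero of a nonnegative polynomial. -/

namespace Vale.Agent.P337

open Finset

theorem top_root {J j : ℕ} {c : ℕ → ℂ} {l : ℝ} (hj : j ≤ J) (hc : ∀ i, j < i → i ≤ J → c i = 0)
    (hl : 1 ≤ l) (h : ∑ i ∈ range (J + 1), c i * (l : ℂ) ^ i = 0) :
    l * ‖c j‖ ≤ ∑ i ∈ range j, ‖c i‖ := by
  rw [← sum_subset (range_mono (Nat.succ_le_succ hj)) (fun i h1 h2 => by
    rw [hc i (by simpa using h2) (Nat.le_of_lt_succ (mem_range.1 h1)), zero_mul]), sum_range_succ,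
    add_eq_zero_iff_eq_neg] at h
  have l0 : ‖(l : ℂ)‖ = l := by simp [abs_of_pos (one_pos.trans_le hl)]
  refine le_of_mul_le_mul_right ?_ (pow_pos (one_pos.trans_le hl) j)
  have := congrArg norm h
  rw [norm_neg, norm_mul, norm_pow, l0] at this
  rw [mul_assoc, ← this, sum_mul]
  refine (mul_le_mul_of_nonneg_left (norm_sum_le _ _) (by linarith)).trans ?_
  rw [mul_sum]
  refine sum_le_sum fun i hi => ?_
  rw [norm_mul, norm_pow, l0, mul_left_comm, ← pow_succ']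
  exact mul_le_mul_of_nonneg_left (pow_le_pow_right₀ hl (mem_range.1 hi)) (norm_nonneg _)

theorem threshold {E : Type} [TopologicalSpace E] {S f : E → ℝ} (hS : Continuous S)
    (hf : Continuous f) (hf0 : ∀ x, 0 ≤ f x) (hc : ∀ K, IsCompact {x | S x ≤ K})
    {P : ℂ → ℂ → ℂ} {J : ℕ} (hP : ∀ t, IsPoly J fun l => P l t) (hP' : ∀ l, Continuous (P l))
    (hP0 : ∃ t, P 0 t ≠ 0)
    (hz : ∀ (l : ℝ) ξ, (∀ x, S ξ + l * f ξ ≤ S x + l * f x) → P l (S ξ + l * f ξ : ℝ) = 0)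
    {R Λ : ℝ} (hΛ0 : 0 ≤ Λ) (hR : ∀ j ≤ J, ∀ z, (∃ t, co J j (fun l => P l t) ≠ 0) →
      co J j (fun l => P l z) = 0 → ‖z‖ < R)
    (hΛ : ∀ z, (∃ l, P l (R + 1) ≠ 0) → P z (R + 1) = 0 → ‖z‖ < Λ) :
    ((∃ x, f x = 0) → ∃ ξ, (∀ x, S ξ + Λ * f ξ ≤ S x + Λ * f x) ∧ S ξ + Λ * f ξ ≤ R) ∧
      ((∃ x, S x + Λ * f x < R + 1) → ∃ x, f x = 0) := by
  classical
  obtain ⟨j, h1, h2, h3⟩ : ∃ j ≤ J, (∃ t, co J j (fun l => P l t) ≠ 0) ∧
      ∀ i, j < i → i ≤ J → ∀ t, co J i (fun l => P l t) = 0 := by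
    obtain ⟨t, ht⟩ := hP0
    rw [(hP t).expand 0] at ht
    obtain ⟨i, hi, h⟩ := exists_ne_zero_of_sum_ne_zero ht
    exact ⟨_, Nat.findGreatest_le J, Nat.findGreatest_spec
      (P := fun j => ∃ t, co J j (fun l => P l t) ≠ 0) (Nat.le_of_lt_succ (mem_range.1 hi))
      ⟨t, left_ne_zero_of_mul h⟩, fun i h h' t => by_contra fun ht =>
        Nat.findGreatest_is_greatest h h' ⟨t, ht⟩⟩
  have h4 : ∀ t : ℝ, R ≤ t → co J j (fun l => P l t) ≠ 0 := fun t ht h => by
    have := hR j h1 t h2 h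
    rw [Complex.norm_real] at this
    linarith [le_abs_self t, Real.norm_eq_abs t]
  refine ⟨fun ⟨x₀, h0⟩ => ?_, fun ⟨x₁, h⟩ => by_contra fun H => ?_⟩
  · have mn : ∀ l : ℝ, 0 ≤ l → ∃ ξ, ∀ x, S ξ + l * f ξ ≤ S x + l * f x := fun l hl => by
      obtain ⟨ξ, -, h⟩ := (hc (S x₀)).exists_isMinOn ⟨x₀, le_refl (S x₀)⟩
        (f := fun x => S x + l * f x) (by fun_prop)
      refine ⟨ξ, fun x => (le_total (S x) (S x₀)).elim (fun h' => h h') fun h' => ?_⟩
      have : S ξ + l * f ξ ≤ S x₀ + l * f x₀ := h (le_refl (S x₀))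
      nlinarith [mul_nonneg hl (hf0 x)]
    obtain ⟨ξ, hξ⟩ := mn Λ hΛ0
    refine ⟨ξ, hξ, by_contra fun H => ?_⟩
    have cc : ∀ i, Continuous fun t : ℝ => co J i fun l => P l t := fun i => by
      simp only [co]; fun_prop
    obtain ⟨M, hM⟩ := (isCompact_Icc (a := R) (b := S x₀)).bddAbove_image
      (f := fun t : ℝ => (∑ i ∈ range j, ‖co J i fun l => P l t‖) / ‖co J j fun l => P l t‖)
      (ContinuousOn.div (continuous_finsetSum _ fun i _ => (cc i).norm).continuousOn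
        (cc j).norm.continuousOn fun t ht => by simpa using h4 t ht.1)
    obtain ⟨η, hη⟩ := mn (Λ + |M| + 1) (by positivity)
    have a : R ≤ S η + (Λ + |M| + 1) * f η := by
      nlinarith [hξ η, mul_nonneg (abs_nonneg M) (hf0 η), hf0 η]
    have b := hM (Set.mem_image_of_mem _ ⟨a, by simpa [h0] using hη x₀⟩)
    have c := top_root h1 (fun i h h' => h3 i h h' _) (l := Λ + |M| + 1)
      (by linarith [abs_nonneg M]) (((hP _).expand _).symm.trans (hz _ η hη))
    rw [← le_div_iff₀ (by simpa using h4 _ a)] at c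
    linarith [le_abs_self M]
  · have p : ∀ x, 0 < f x := fun x => (hf0 x).lt_of_ne' fun h => H ⟨x, h⟩
    have m : S x₁ ≤ R + 1 := by nlinarith [mul_nonneg hΛ0 (hf0 x₁)]
    obtain ⟨ξ, -, hξ⟩ := (hc (R + 1)).exists_isMaxOn ⟨x₁, m⟩ (f := fun x => (R + 1 - S x) / f x)
      (ContinuousOn.div (by fun_prop) (by fun_prop) fun x _ => (p x).ne')
    have a : Λ < (R + 1 - S ξ) / f ξ :=
      lt_of_lt_of_le (by rw [lt_div_iff₀ (p _)]; linarith) (hξ m)
    have b : S ξ + (R + 1 - S ξ) / f ξ * f ξ = R + 1 := by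
      rw [div_mul_cancel₀ _ (p _).ne']; ring
    have := hz _ ξ fun x => by
      rw [b]
      rcases le_total (S x) (R + 1) with h | h
      · have : (R + 1 - S x) / f x ≤ _ := hξ h
        rw [div_le_iff₀ (p _)] at this
        linarith
      · nlinarith [mul_nonneg (hΛ0.trans a.le) (hf0 x)]
    rw [b, Complex.ofReal_add, Complex.ofReal_one] at this
    have := hΛ _ (by_contra fun h => h4 (R + 1) (by linarith) (by
      push Not at h
      simp [co, h])) this
    rw [Complex.norm_real] at this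
    linarith [le_abs_self ((R + 1 - S ξ) / f ξ), Real.norm_eq_abs ((R + 1 - S ξ) / f ξ)]

open MvPolynomial

variable {n : ℕ}

theorem hasDerivAt_eval (g : MvPolynomial (Fin n) ℝ) (ξ : Fin n → ℝ) (i : Fin n) :
    HasDerivAt (fun s => eval (Function.update ξ i s) g) (eval ξ (pderiv i g)) (ξ i) := by
  induction g using MvPolynomial.induction_on with
  | C a => simpa using hasDerivAt_const (ξ i) a
  | add p q hp hq => simpa using hp.fun_add hq
  | mul_X p j hp =>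
    have : HasDerivAt (fun s => Function.update ξ i s j) (eval ξ (pderiv i (X j))) (ξ i) := by
      by_cases h : j = i
      · subst h; simpa using hasDerivAt_id' (ξ j)
      · simpa [h, pderiv_X_of_ne h] using hasDerivAt_const (ξ i) (ξ j)
    have := hp.fun_mul this
    simp only [Function.update_eq_self] at this
    simpa only [map_mul, eval_X, Derivation.leibniz, smul_eq_mul, map_add, add_comm, mul_comm (ξ j)]
      using this

theorem crit {g : MvPolynomial (Fin n) ℝ} {ξ : Fin n → ℝ} (h : ∀ x, eval ξ g ≤ eval x g)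
    (i : Fin n) : eval ξ (pderiv i g) = 0 :=
  IsLocalMin.hasDerivAt_eq_zero (Filter.Eventually.of_forall fun s => by
    simpa using h _) (hasDerivAt_eval g ξ i)

theorem deg_pderiv (g : MvPolynomial (Fin n) ℂ) (i : Fin n) :
    (pderiv i g).totalDegree ≤ g.totalDegree := by
  refine Finset.sup_le fun m hm => ?_
  have := le_deg (left_ne_zero_of_mul (coeff_pderiv g m ▸ mem_support_iff.1 hm))
  simp only [Finsupp.add_apply, sum_add_distrib] at this
  rw [Finsupp.sum_fintype _ _ (by simp)]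
  omega

theorem compact_pow (e : ℕ) (K : ℝ) : IsCompact {x : Fin n → ℝ | ∑ i, x i ^ (2 * e + 2) ≤ K} := by
  refine (isCompact_closedBall 0 (|K| + 1)).of_isClosed_subset
    (isClosed_le (by fun_prop) continuous_const) fun x hx => ?_
  rw [mem_closedBall_zero_iff, pi_norm_le_iff_of_nonneg (by positivity)]
  intro i
  have ev : Even (2 * e + 2) := ⟨e + 1, by ring⟩
  have h := (single_le_sum (fun i _ => ev.pow_nonneg (x i)) (mem_univ i)).trans hx
  rw [← ev.pow_abs] at h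
  by_contra! H
  have := le_self_pow₀ (a := |x i|) (by linarith [abs_nonneg K, Real.norm_eq_abs (x i)])
    (n := 2 * e + 2) (by omega)
  linarith [le_abs_self K, Real.norm_eq_abs (x i)]

/-- Two bounded numbers that are close to each other. -/
def Lp (ρ δ : ℝ) (k : ℕ) (u v : ℂ) : Prop := ‖u‖ ≤ ρ ^ k ∧ ‖v‖ ≤ ρ ^ k ∧ ‖u - v‖ ≤ k * ρ ^ k * δ

theorem Lp.mul {ρ δ : ℝ} {k l : ℕ} {u v u' v' : ℂ} (h : Lp ρ δ k u v) (h' : Lp ρ δ l u' v') :
    Lp ρ δ (k + l) (u * u') (v * v') := by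
  have p := (norm_nonneg _).trans h.1
  simp only [Lp, norm_mul, pow_add]
  refine ⟨mul_le_mul h.1 h'.1 (norm_nonneg _) p, mul_le_mul h.2.1 h'.2.1 (norm_nonneg _) p, ?_⟩
  rw [show u * u' - v * v' = u * (u' - v') + (u - v) * v' by ring]
  refine (norm_add_le _ _).trans ?_
  rw [norm_mul, norm_mul]
  refine (add_le_add (mul_le_mul h.1 h'.2.2 (norm_nonneg _) p)
    (mul_le_mul h.2.2 h'.2.1 (norm_nonneg _) ((norm_nonneg _).trans h.2.2))).trans_eq ?_
  push_cast
  ring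

theorem Lp.one {ρ δ : ℝ} : Lp ρ δ 0 1 1 := by simp [Lp]

theorem Lp.pow {ρ δ : ℝ} {u v : ℂ} (h : Lp ρ δ 1 u v) : ∀ k, Lp ρ δ k (u ^ k) (v ^ k)
  | 0 => by simpa using Lp.one
  | k + 1 => by simpa only [pow_succ] using (h.pow k).mul h

theorem Lp.prod {ρ δ : ℝ} {k : Fin n → ℕ} {u v : Fin n → ℂ} (s : Finset (Fin n))
    (h : ∀ i, Lp ρ δ (k i) (u i) (v i)) : Lp ρ δ (∑ i ∈ s, k i) (∏ i ∈ s, u i) (∏ i ∈ s, v i) := by
  induction s using Finset.induction_on with
  | empty => simpa using Lp.one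
  | insert i s hi ih => simpa only [sum_insert hi, prod_insert hi] using (h i).mul ih

theorem lipschitz {g : MvPolynomial (Fin n) ℂ} {B T s : ℕ} (hg : g.totalDegree ≤ B)
    (hT : ∀ l ∈ lists n (range (B + 1)), ‖coeff (ex n (l.getD · 0)) g‖ ≤ 2 ^ T) {x ξ : Fin n → ℂ}
    {δ : ℝ} (hδ : δ ≤ 1) (hξ : ∀ i, ‖ξ i‖ ≤ 2 ^ s) (hx : ∀ i, ‖x i - ξ i‖ ≤ δ) (h0 : 0 ≤ δ) :
    ‖eval x g - eval ξ g‖ ≤ 2 ^ (B * n + T + B + (s + 1) * B) * δ := by
  have o : (1 : ℝ) ≤ 2 ^ s := one_le_pow₀ one_le_two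
  have L : ∀ i, Lp (2 ^ (s + 1)) δ 1 (x i) (ξ i) := fun i => by
    have := norm_add_le (x i - ξ i) (ξ i)
    have := hx i
    have := hξ i
    simp only [Lp, pow_succ, sub_add_cancel, pow_zero, Nat.cast_one] at *
    exact ⟨by linarith, by linarith, by nlinarith⟩
  rw [eval_lists hg, eval_lists hg, ← sum_sub_distrib]
  refine (norm_sum_le _ _).trans ((sum_le_card_nsmul _ _ (2 ^ T * (2 ^ B * (2 ^ (s + 1)) ^ B * δ))
    fun l hl => ?_).trans ?_)
  · rw [← mul_sub, norm_mul]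
    by_cases h : coeff (ex n (l.getD · 0)) g = 0
    · rw [h, norm_zero, zero_mul]; positivity
    have k := (le_deg h).trans hg
    refine mul_le_mul (hT l hl) ((Lp.prod univ fun i => (L i).pow _).2.2.trans ?_) (norm_nonneg _)
      (by positivity)
    gcongr
    · exact_mod_cast k.trans Nat.lt_two_pow_self.le
    · exact one_le_pow₀ one_le_two
    · exact k
  · rw [card_lists, card_range, nsmul_eq_mul]
    simp only [pow_add _ _ ((s + 1) * B), pow_add _ _ B, pow_add _ _ T, pow_mul, ← mul_assoc]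
    gcongr
    exact_mod_cast Nat.pow_le_pow_left Nat.lt_two_pow_self n

end Vale.Agent.P337
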