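import Vale.Agent.P337.Alg
import Vale.Agent.P337.Roots

/-! Computable power sums over the roots of a system `x_i ^ e = r_i (x)`. -/

namespace Vale.Agent.P337

open Vale.Agent.Lib.H24.T Finset MvPolynomial

set_option linter.unusedSectionVars false

/-- A monomial at a grid point. -/
noncomputable def mon (n : ℕ) (a y : List ℕ) : ℂ := ∏ i ∈ range n, (y.getD i 0 : ℂ) ^ a.getD i 0

/-- The residue functional in terms of values on a grid. -/
noncomputable def PhiF (n e B : ℕ) (R : ℕ → List ℕ → ℂ) (g : List ℕ → ℂ) (b : List ℕ) : ℂ :=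
  ∑ k ∈ lists n (range (B + 1)), cf n (B + e * (n * B))
    (fun i => b.getD i 0 + (e + 1) * k.getD i 0) fun y => g y * ∏ i ∈ range n, R i y ^ k.getD i 0

/-- The nilpotent part of the matrix of the residue functionals. -/
noncomputable def nilF (n e : ℕ) (R : ℕ → List ℕ → ℂ) (b a : List ℕ) : ℂ :=
  (if a = b then 1 else 0) - PhiF n e (n * e) R (mon n a) b

/-- The trace of multiplication by a power of a polynomial. -/
noncomputable def trF (n e B : ℕ) (R : ℕ → List ℕ → ℂ) (H : List ℕ → ℂ) (k : ℕ) : ℂ :=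
  ∑ a ∈ lists n (range (e + 1)), ∑ m ∈ range (n * e + 1), vp (lists n (range (e + 1))) (nilF n e R)
    (PhiF n e (k * B + n * e) R fun y => H y ^ k * mon n a y) m a

section
variable {n e : ℕ} {r : Fin n → MvPolynomial (Fin n) ℂ} (hr : ∀ i, (r i).totalDegree ≤ e)
  {R : ℕ → List ℕ → ℂ} (hR : ∀ (i : Fin n) y, R i y = eval (pt n y) (r i))

theorem sum_getD_le {B : ℕ} {l : List ℕ} (h : l ∈ lists n (range (B + 1))) :
    ∑ i : Fin n, l.getD i 0 ≤ n * B :=
  (sum_le_card_nsmul _ _ B fun i _ => Nat.le_of_lt_succ (mem_range.1 (getD_mem h i))).trans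
    (by simp)

theorem mon_eq (a : List ℕ) :
    mon n a = fun y => eval (pt n y) (monomial (ex n (a.getD · 0)) 1) := by
  ext y
  simp [mon, eval_monomial, Finsupp.prod_fintype, prod_range, pt]

theorem deg_mon {a : List ℕ} (h : a ∈ lists n (range (e + 1))) :
    (monomial (ex n (a.getD · 0)) (1 : ℂ)).totalDegree ≤ n * e := by
  rw [totalDegree_monomial _ one_ne_zero, Finsupp.sum_fintype _ _ (by simp)]
  exact sum_getD_le h

include hr hR

theorem PhiF_eq {g : MvPolynomial (Fin n) ℂ} {B : ℕ} (hg : g.totalDegree ≤ B) (b : List ℕ) :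
    PhiF n e B R (fun y => eval (pt n y) g) b = Phi hr (ex n (b.getD · 0)) g := by
  refine Eq.trans (sum_congr rfl fun k hk => ?_) (phi_hasSum hr hg _).tsum_eq.symm
  have := cf_eq ((deg_mul_prod hr g fun i => k.getD i 0).trans
    (add_le_add hg (Nat.mul_le_mul_left e (sum_getD_le hk))))
    fun i => b.getD i 0 + (e + 1) * k.getD i 0
  simp only [map_mul, map_prod, map_pow, ← hR] at this
  simp only [prod_range]
  exact this.trans (congrArg (coeff · _) (by ext; simp))

theorem nf_unique {g : MvPolynomial (Fin n) ℂ} {B : ℕ} (hg : g.totalDegree ≤ B)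
    {c : lists n (range (e + 1)) → ℂ} (hc : g - ∑ a, c a • monomial (ex n (a.1.getD · 0)) 1 ∈
      Ideal.span (Set.range fun i => X i ^ (e + 1) - r i)) (a : lists n (range (e + 1))) :
    c a = ∑ m ∈ range (n * e + 1), vp (lists n (range (e + 1))) (nilF n e R)
      (PhiF n e B R fun y => eval (pt n y) g) m a := by
  classical
  have := neumann (c := fun x => if h : x ∈ lists n (range (e + 1)) then c ⟨x, h⟩ else 0)
    (v := PhiF n e B R fun y => eval (pt n y) g) (M := nilF n e R)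
    (deg := fun l => ∑ i : Fin n, l.getD i 0) (L := n * e + 1) (fun x hx => ?_)
    (fun x hx z hz h => ?_) (fun x hx => Nat.lt_succ_of_le (sum_getD_le hx)) a a.2
  · rwa [dif_pos a.2] at this
  · have := phi_ideal hr (b := ex n (x.getD · 0))
      (fun i => Nat.le_of_lt_succ (mem_range.1 (getD_mem hx i))) hc
    rw [map_sub, map_sum, sub_eq_zero] at this
    rw [PhiF_eq hr hR hg, this, ← sum_coe_sort (lists _ _), ← sum_add_distrib, dif_pos hx,
      sum_eq_single ⟨x, hx⟩ (fun z _ hz => ?_) (by simp)] <;>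
      simp only [nilF, mon_eq, PhiF_eq hr hR (deg_mon (Subtype.prop _)), PhiF_eq hr hR (deg_mon hx),
        map_smul, smul_eq_mul, dif_pos (Subtype.prop _), dif_pos hx, if_true]
    · ring
    · rw [if_neg fun h => hz (Subtype.ext h)]
      ring
  · rw [nilF, mon_eq, PhiF_eq hr hR (deg_mon hz), phi_monomial hr h, sub_eq_zero]
    exact if_congr ⟨fun h => h ▸ rfl, fun h => ex_inj hz hx h⟩ rfl rfl

theorem exists_roots_pure {h : MvPolynomial (Fin n) ℂ} {B : ℕ} (hB : h.totalDegree ≤ B) :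
    ∃ Z : ℕ → ℂ, (∀ k, ∑ i ∈ range ((e + 1) ^ n), Z i ^ k =
      trF n e B R (fun y => eval (pt n y) h) k) ∧
      ∀ ξ : Fin n → ℂ, (∀ i, ξ i ^ (e + 1) = eval ξ (r i)) →
        ∃ i < (e + 1) ^ n, Z i = eval ξ h := by
  classical
  choose A hA using fun a : lists n (range (e + 1)) =>
    exists_nf hr (h * monomial (ex n (a.1.getD · 0)) 1)
  set I := Ideal.span (Set.range fun i => X i ^ (e + 1) - r i)
  have k1 : ∀ k a, h ^ k * monomial (ex n (a.1.getD · 0)) 1 -
      ∑ b, (Matrix.of A ^ k) a b • monomial (ex n (b.1.getD · 0)) 1 ∈ I := fun k => by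
    induction k with
    | zero => simp [Matrix.one_apply]
    | succ k ih =>
      intro a
      have := I.add_mem (I.mul_mem_left h (ih a)) (I.sum_mem (t := univ) fun b _ =>
        I.mul_mem_left (C ((Matrix.of A ^ k) a b)) (hA b))
      simp only [pow_succ, Matrix.mul_apply, Matrix.of_apply, mul_sub, mul_sum,
        sum_sub_distrib, C_mul'.symm, map_mul, map_sum, sum_mul] at this ⊢
      rw [sum_comm]
      convert this using 1
      simp only [mul_assoc, mul_left_comm h]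
      ring
  obtain ⟨Z, z1, z2⟩ := exists_eigs (Matrix.toLin' (Matrix.of A))
  simp only [Module.finrank_fintype_fun_eq_card, Fintype.card_coe, card_lists, card_range] at z1 z2
  refine ⟨Z, fun k => ?_, fun ξ hξ => z2 _ (Module.End.hasEigenvalue_of_hasEigenvector
    (x := fun a => eval ξ (monomial (ex n (a.1.getD · 0)) 1)) ⟨?_, fun h0 => ?_⟩)⟩
  · rw [← z1, ← Matrix.toLin'_pow, Matrix.trace_toLin'_eq, trF, ← sum_coe_sort]
    refine sum_congr rfl fun a _ => (nf_unique hr hR ((totalDegree_mul _ _).trans (add_le_add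
      ((totalDegree_pow _ _).trans (Nat.mul_le_mul_left k hB)) (deg_mon a.2))) (k1 k a) a).trans ?_
    simp only [map_mul, map_pow, mon_eq]
  · rw [Module.End.mem_eigenspace_iff]
    ext a
    have : I ≤ RingHom.ker (eval ξ) := Ideal.span_le.2 (Set.range_subset_iff.2 fun i => by
      simp [hξ])
    have := RingHom.mem_ker.1 (this (hA a))
    simp only [map_sub, map_mul, map_sum, smul_eval, sub_eq_zero] at this
    exact this.symm
  · obtain ⟨l, hl, h1⟩ := ex_surj (n := n) (S := range (e + 1)) (m := 0) (by simp)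
    have := congrFun h0 ⟨l, hl⟩
    simp only [h1] at this
    simp at this

end

variable {α β γ δ : Type} [Enc α] [Enc β] [Enc γ] [Enc δ] [Dec α] [Dec β] [Dec γ] [Dec δ]

theorem PQ.cf {n B : α → ℕ} {μ : α → ℕ → ℕ} {g : α → ℂ → List ℕ → ℂ} (hn : CF n) (hn' : Pb n)
    (hB : CF B) (hμ : CF fun p : α × ℕ => μ p.1 p.2)
    (hg : PQ fun (p : α × List ℕ) x => g p.1 x p.2) :
    PQ fun a x => cf (n a) (B a) (μ a) (g a x) :=
  PQ.sum (S := fun a => lists (n a) (range (B a + 1))) (by fun_prop)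
    (hg.mul (PQ.const (by fun_prop)))

theorem PQ.PhiF {n e B : α → ℕ} {R : α → ℂ → ℕ → List ℕ → ℂ} {g : α → ℂ → List ℕ → ℂ}
    {b : α → List ℕ} (hn : CF n) (hn' : Pb n) (he : CF e) (hB : CF B)
    (hR : PQ fun (p : (α × List ℕ) × ℕ) x => R p.1.1 x p.2 p.1.2)
    (hg : PQ fun (p : α × List ℕ) x => g p.1 x p.2) (hb : CF b) :
    PQ fun a x => PhiF (n a) (e a) (B a) (R a x) (g a x) (b a) := by
  have h1 : PQ fun (p : (α × List ℕ) × List ℕ) x =>
      ∏ i ∈ range (n p.1.1), R p.1.1 x i p.2 ^ p.1.2.getD i 0 :=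
    PQ.prod (by fun_prop) ((hR.comp (f := fun p : ((α × List ℕ) × List ℕ) × ℕ =>
      ((p.1.1.1, p.1.2), p.2)) (by fun_prop)).pow (by fun_prop))
  exact PQ.sum (S := fun a => lists (n a) (range (B a + 1))) (by fun_prop)
    (PQ.cf (by fun_prop) (by fun_prop) (by fun_prop) (by fun_prop)
      ((hg.comp (f := fun p : (α × List ℕ) × List ℕ => (p.1.1, p.2)) (by fun_prop)).mul h1))

theorem PQ.vp {S : α → Finset β} {M : α → ℂ → β → β → ℂ} {v : α → ℂ → β → ℂ} {m : α → ℕ}
    {b : α → β} (hS : CS S) (hM : PQ fun (p : α × β × β) x => M p.1 x p.2.1 p.2.2)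
    (hv : PQ fun (p : α × β) x => v p.1 x p.2) (hm : CF m) (hm' : Pb m) (hb : CF b) :
    PQ fun a x => vp (S a) (M a x) (v a x) (m a) (b a) := by
  obtain ⟨d⟩ : Nonempty β := ⟨Dec.dec .nil⟩
  simp only [vp_eq _ _ _ d]
  exact PQ.sum (by fun_prop) ((PQ.prod (by fun_prop) (hM.comp (f := fun p : (α × List β) × ℕ =>
    (p.1.1, (b p.1.1 :: p.1.2).getD p.2 d, p.1.2.getD p.2 d)) (by fun_prop))).mul
    (hv.comp (f := fun p : α × List β => (p.1, (b p.1 :: p.2).getD (m p.1) d)) (by fun_prop)))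

@[fun_prop] theorem BQ.mon {n : α → ℕ} {a y : α → List ℕ} (hn : CF n) (ha : CF a) (hy : CF y) :
    BQ fun p => mon (n p) (a p) (y p) := by
  simp only [P337.mon]
  fun_prop

theorem Pb.of_mem_range {n : α → ℕ} {F : α → ℕ → ℂ → ℂ} (hn : CF n) (hn' : Pb n)
    (h : ∀ m : α × List ℕ → ℕ, CF m → Pb m → PQ fun (p : α × List ℕ) x => F p.1 (m p) x) :
    PQ fun a x => ∑ m ∈ range (n a), F a m x := by
  refine (PQ.sum (S := fun a => range (n a)) (F := fun a m x => F a
    (List.range (min m (n a))).length x) (by fun_prop) ((h (fun p => p.2.length) (by fun_prop)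
      (by fun_prop)).comp (f := fun p : α × ℕ => (p.1, List.range (min p.2 (n p.1))))
        (CF.id.fst.pair (CF.listRange ?_ ?_)))).of_eq fun a x => sum_congr rfl fun m hm => by
    rw [List.length_range, min_eq_left (mem_range.1 hm).le]
  · simp only [min_def]
    fun_prop
  · exact (Pb.compCF hn' CF.id.fst).mono fun p => min_le_right _ _

theorem PQ.trF {n e B k : α → ℕ} {R : α → ℂ → ℕ → List ℕ → ℂ} {H : α → ℂ → List ℕ → ℂ}
    (hn : CF n) (hn' : Pb n) (he : CF e) (he' : Pb e) (hB : CF B) (hk : CF k)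
    (hR : PQ fun (p : (α × List ℕ) × ℕ) x => R p.1.1 x p.2 p.1.2)
    (hH : PQ fun (p : α × List ℕ) x => H p.1 x p.2) :
    PQ fun a x => trF (n a) (e a) (B a) (R a x) (H a x) (k a) := by
  have h1 : PQ fun (p : α × List ℕ × List ℕ) x => nilF (n p.1) (e p.1) (R p.1 x) p.2.1 p.2.2 :=
    (PQ.const (by fun_prop)).sub (PQ.PhiF (by fun_prop) (by fun_prop) (by fun_prop) (by fun_prop)
      (hR.comp (f := fun p : ((α × List ℕ × List ℕ) × List ℕ) × ℕ => ((p.1.1.1, p.1.2), p.2))
        (by fun_prop)) (PQ.const (by fun_prop)) (by fun_prop))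
  have h2 : PQ fun (p : (α × List ℕ) × List ℕ) x => P337.PhiF (n p.1.1) (e p.1.1)
      (k p.1.1 * B p.1.1 + n p.1.1 * e p.1.1) (R p.1.1 x)
      (fun y => H p.1.1 x y ^ k p.1.1 * mon (n p.1.1) p.1.2 y) p.2 :=
    PQ.PhiF (by fun_prop) (by fun_prop) (by fun_prop) (by fun_prop)
      (hR.comp (f := fun p : (((α × List ℕ) × List ℕ) × List ℕ) × ℕ => ((p.1.1.1.1, p.1.2), p.2))
        (by fun_prop)) (((hH.comp (f := fun p : ((α × List ℕ) × List ℕ) × List ℕ =>
          (p.1.1.1, p.2)) (by fun_prop)).pow (by fun_prop)).mul (PQ.const (by fun_prop)))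
      (by fun_prop)
  refine PQ.sum (S := fun a => lists (n a) (range (e a + 1))) (by fun_prop)
    (Pb.of_mem_range (by fun_prop) (by fun_prop) fun m h3 h4 => ?_)
  exact PQ.vp (by fun_prop) (h1.comp (f := fun p : ((α × List ℕ) × List ℕ) × List ℕ × List ℕ =>
    (p.1.1.1, p.2)) (by fun_prop)) (h2.comp (f := fun p : ((α × List ℕ) × List ℕ) × List ℕ =>
      (p.1.1, p.2)) (by fun_prop)) h3 h4 (by fun_prop)

theorem exists_roots {n e B : α → ℕ} (hn : CF n) (hn' : Pb n) (he : CF e) (he' : Pb e) (hB : CF B)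
    {r : ∀ a, ℂ → Fin (n a) → MvPolynomial (Fin (n a)) ℂ} {h : ∀ a, ℂ → MvPolynomial (Fin (n a)) ℂ}
    (hr : ∀ a x i, (r a x i).totalDegree ≤ e a) (hh : ∀ a x, (h a x).totalDegree ≤ B a)
    {R : α → ℂ → ℕ → List ℕ → ℂ} (hR : PQ fun (p : (α × List ℕ) × ℕ) x => R p.1.1 x p.2 p.1.2)
    (hR' : ∀ a x (i : Fin (n a)) y, R a x i y = eval (pt (n a) y) (r a x i))
    (hH : PQ fun (p : α × List ℕ) x => eval (pt (n p.1) p.2) (h p.1 x)) :
    ∃ Z : α → ℂ → ℕ → ℂ, PS (fun a => (e a + 1) ^ n a) Z ∧ ∀ a x (ξ : Fin (n a) → ℂ),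
      (∀ i, ξ i ^ (e a + 1) = eval ξ (r a x i)) → ∃ i < (e a + 1) ^ n a, Z a x i = eval ξ (h a x) := by
  choose Z h1 h2 using fun a x => exists_roots_pure (hr a x) (hR' a x) (hh a x)
  refine ⟨Z, ⟨by fun_prop, ?_⟩, h2⟩
  simp only [h1]
  exact PQ.trF (by fun_prop) (by fun_prop) (by fun_prop) (by fun_prop) (by fun_prop) (by fun_prop)
    (hR.comp (f := fun p : ((α × ℕ) × List ℕ) × ℕ => ((p.1.1.1, p.1.2), p.2)) (by fun_prop))
    (hH.comp (f := fun p : (α × ℕ) × List ℕ => (p.1.1, p.2)) (by fun_prop))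

end Vale.Agent.P337
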