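import Vale.Agent.P337.Filter
import Vale.Agent.P337.Roots

/-! Approximation of a real member of a family given by its power sums. -/

namespace Vale.Agent.P337

open Vale.Agent.Lib.H24.T Finset

set_option linter.unusedSectionVars false

/-- A radius read from a certificate. -/
noncomputable def rad (c : List ℕ) (a : ℕ) : ℂ := c.getD a 0 * (c.getD 10 0 : ℂ) ^ c.getD (a + 1) 0

/-- Denominator of a zooming step. -/
noncomputable def cD (d : ℕ) (Z : ℕ → ℂ) (c : List ℕ) (x : ℂ) : ℂ :=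
  zD d Z (rad c 0) (rad c 2) (c.getD 4 0) (c.getD 5 0) (c.getD 6 0) x

/-- Numerator of a zooming step. -/
noncomputable def cN (d : ℕ) (Z : ℕ → ℂ) (c : List ℕ) (x : ℂ) : ℂ :=
  (c.getD 7 0 - c.getD 8 0) * (c.getD 10 0 : ℂ) ^ c.getD 9 0 * cD d Z c x +
    zS d Z (rad c 0) (rad c 2) (c.getD 4 0) (c.getD 5 0) x

lemma exists_offset {a ξ b : ℝ} {q : ℕ} (hb : 0 < b) (h : |a - ξ| ≤ q * b) :
    ∃ c : ℕ, c ≤ 2 * q ∧ |(c - q) * b + a - ξ| ≤ b := by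
  rw [abs_le] at h
  have h0 : 0 ≤ (ξ - a) / b + q := by
    rw [← neg_le_iff_add_nonneg, le_div_iff₀ hb]; linarith
  have h1 := Nat.floor_le h0
  have h2 := Nat.lt_floor_add_one ((ξ - a) / b + q)
  have h3 : (ξ - a) / b ≤ q := by rw [div_le_iff₀ hb]; linarith
  refine ⟨⌊(ξ - a) / b + q⌋₊, Nat.floor_le_of_le (by push_cast; linarith), ?_⟩
  rw [← sub_le_iff_le_add, le_div_iff₀ hb] at h1
  rw [← lt_sub_iff_add_lt, div_lt_iff₀ hb] at h2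
  rw [abs_le]
  constructor <;> linarith

lemma zoom_step {d ρ J T L i i₀ : ℕ} {Z : ℕ → ℂ} {x ξ : ℝ} (hB : ∀ i < d, ‖Z i‖ ≤ 2 ^ ρ)
    (hJ : J = 2 * (d * d) + 4 * d + 2) (hT : J * (d + ρ + 7) + 2 * ((2 * J + 1) * (J + 1) ^ 2) ≤ T)
    (real : ∀ c (x : ℝ), ((cN d Z c x / cD d Z c x).re : ℂ) = cN d Z c x / cD d Z c x)
    (h0 : i₀ < d) (hξ : Z i₀ = ξ) (hi : i ≤ ρ) (hx : |x - ξ| ≤ (J + 1) ^ i)
    (hL : #((range d).filter fun j => ‖Z j - ξ‖ < (J + 1) ^ (i + 1)) < 2 ^ (L + 1)) :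
    ∃ (c : List ℕ) (i' : ℕ) (x' : ℝ), (c.length = 11 ∧ ∀ e ∈ c, e ≤ T) ∧ cD d Z c x ≠ 0 ∧
      cN d Z c x / cD d Z c x = x' ∧ i' ≤ ρ ∧ |x' - ξ| ≤ (J + 1) ^ i' ∧
      (i' = 0 ∨ #((range d).filter fun j => ‖Z j - ξ‖ < (J + 1) ^ (i' + 1)) < 2 ^ L) := by
  have Q0 : ∀ k : ℕ, (0 : ℝ) < (J + 1) ^ k := fun k => by positivity
  have Q1 : (1 : ℝ) ≤ J + 1 := by linarith [Nat.cast_nonneg (α := ℝ) J]
  obtain ⟨j, j1, j2, j3⟩ := exists_gap (range d) (fun j => ‖Z j - x‖) (Q0 i) (lo := 2) (J := J)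
    (by omega) (by rw [card_range]; omega)
  have j1' : (2 : ℝ) ≤ j := by exact_mod_cast j1
  have j2' : (j : ℝ) ≤ J := by exact_mod_cast j2
  have hx' : ‖(x : ℂ) - ξ‖ ≤ (J + 1) ^ i := by rwa [← Complex.ofReal_sub, Complex.norm_real]
  set C := (range d).filter fun k => ‖Z k - x‖ < j * (J + 1) ^ i with hC
  have c1 : ∀ k < d, ‖Z k - ξ‖ < (J + 1) ^ i → k ∈ C := fun k hk h => mem_filter.2 ⟨mem_range.2 hk, by
    have := norm_sub_le_norm_sub_add_norm_sub (Z k) ξ x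
    rw [norm_sub_rev (ξ : ℂ)] at this
    nlinarith [Q0 i]⟩
  have c2 : ∀ k ∈ C, ‖Z k - ξ‖ < (J + 1) ^ (i + 1) := fun k hk => by
    have := norm_sub_le_norm_sub_add_norm_sub (Z k) x ξ
    have := (mem_filter.1 hk).2
    rw [pow_succ]
    nlinarith [Q0 i]
  have c3 : i₀ ∈ C := c1 _ h0 (by simp [hξ, Q0])
  have c4 : #C < 2 ^ (L + 1) := (card_le_card fun k hk =>
    mem_filter.2 ⟨(mem_filter.1 hk).1, c2 k hk⟩).trans_lt hL
  have c5 : #C ≤ d := (card_filter_le _ _).trans (card_range d).le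
  have ex : #C < 2 * #(C.filter fun k => ‖Z k - ξ‖ < (J + 1) ^ (i + 1)) := by
    rw [filter_true_of_mem c2]
    have := card_pos.2 ⟨_, c3⟩
    omega
  obtain ⟨t, t1, t2, t3⟩ : ∃ t ≤ i + 1, #C < 2 * #(C.filter fun k => ‖Z k - ξ‖ < (J + 1) ^ t) ∧
      ∀ u < t, ¬#C < 2 * #(C.filter fun k => ‖Z k - ξ‖ < (J + 1) ^ u) :=
    have H : ∃ t, #C < 2 * #(C.filter fun k => ‖Z k - ξ‖ < (J + 1) ^ t) := ⟨_, ex⟩
    ⟨Nat.find H, Nat.find_min' H ex, Nat.find_spec H, fun u => Nat.find_min H⟩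
  obtain ⟨j', k1, k2, k3⟩ := exists_gap (range d ×ˢ range d) (fun p => ‖Z p.2 - Z p.1‖) (Q0 t)
    (lo := 1) (J := J) (by omega) (by rw [card_product, card_range]; omega)
  have k1' : (1 : ℝ) ≤ j' := by exact_mod_cast k1
  have k2' : (j' : ℝ) ≤ J := by exact_mod_cast k2
  set M := (range d).filter fun i => #C < 2 * #(C.filter fun k => ‖Z k - Z i‖ < j' * (J + 1) ^ t)
    with hM
  have m1 : i₀ ∈ M := mem_filter.2 ⟨mem_range.2 h0, t2.trans_le (Nat.mul_le_mul_left _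
    (card_le_card (monotone_filter_right _ fun k _ hk => by rw [hξ]; nlinarith [Q0 t])))⟩
  have m2 : #M ≤ d := (card_filter_le _ _).trans (card_range d).le
  obtain ⟨a1, a2⟩ := mean_spec (n := d + ρ + 7) (by omega) le_rfl hB (by positivity) (by positivity)
    j3 (fun i hi k hk => k3 (i, k) (mk_mem_product hi hk)) hC hM (ξ := ξ)
    (R := 2 * (j' * (J + 1) ^ t)) ⟨_, m1⟩ fun i hi => by
      obtain ⟨k, hk⟩ := inter_nonempty_of_card_lt_card_add_card (filter_subset _ _)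
        (filter_subset _ _) (show #C < _ from lt_of_mul_lt_mul_left (a := 2) (by
          rw [mul_add, two_mul #C]
          exact add_lt_add (mem_filter.1 hi).2 (mem_filter.1 m1).2) (Nat.zero_le _))
      have a := (mem_filter.1 (mem_inter.1 hk).1).2
      have b := (mem_filter.1 (mem_inter.1 hk).2).2
      have := norm_sub_le_norm_sub_add_norm_sub (Z i) (Z k) ξ
      rw [norm_sub_rev (Z i) (Z k)] at this
      rw [hξ] at b
      linarith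
  have r := real [j, i, j', t, J * (d + ρ + 7), 2 * #C + 1, #M, 0, 0, 0, J + 1] x
  simp only [cN, cD, rad, List.getD_cons_zero, List.getD_cons_succ] at r
  push_cast at r a1 a2
  rw [sub_zero, zero_mul, zero_mul, zero_add] at r
  rw [← r, ← Complex.ofReal_sub, Complex.norm_real, Real.norm_eq_abs] at a2
  obtain ⟨c, o1, o2⟩ := exists_offset (q := (2 * J + 1) * (J + 1) ^ 2) (Q0 (t - 2)) (a2.trans (by
    have : ((J : ℝ) + 1) ^ t ≤ (J + 1) ^ 2 * (J + 1) ^ (t - 2) :=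
      pow_add (J + 1 : ℝ) _ _ ▸ pow_le_pow_right₀ Q1 (by omega)
    have := one_le_pow₀ (n := t) Q1
    push_cast
    nlinarith [Q0 t, Nat.cast_nonneg (α := ℝ) J]))
  refine ⟨[j, i, j', t, J * (d + ρ + 7), 2 * #C + 1, #M, c, (2 * J + 1) * (J + 1) ^ 2, t - 2, J + 1],
    t - 2, _, ⟨rfl, ?_⟩, ?_, ?_, by omega, o2, ?_⟩
  · have : d + ρ + 7 ≤ J * (d + ρ + 7) := Nat.le_mul_of_pos_left _ (by omega)
    have : 2 * J + 1 ≤ (2 * J + 1) * (J + 1) ^ 2 := Nat.le_mul_of_pos_right _ (by positivity)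
    simp only [List.forall_mem_cons, List.not_mem_nil, false_imp_iff, implies_true, and_true]
    omega
  · simpa [cD, rad] using a1
  · simp only [cN, cD, rad, List.getD_cons_zero, List.getD_cons_succ]
    push_cast
    rw [add_div, mul_div_cancel_right₀ _ a1, r]
  · refine (Nat.eq_zero_or_pos _).imp_right fun h => ?_
    have := t3 (t - 2 + 1) (by omega)
    have : #((range d).filter fun k => ‖Z k - ξ‖ < (J + 1) ^ (t - 2 + 1)) ≤
        #(C.filter fun k => ‖Z k - ξ‖ < (J + 1) ^ (t - 2 + 1)) := card_le_card fun k hk =>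
      mem_filter.2 ⟨c1 k (mem_range.1 (mem_filter.1 hk).1) ((mem_filter.1 hk).2.trans_le
        (pow_le_pow_right₀ Q1 (by omega))), (mem_filter.1 hk).2⟩
    omega

lemma zoom_all {d ρ J T i₀ : ℕ} {Z : ℕ → ℂ} {ξ : ℝ} (hB : ∀ i < d, ‖Z i‖ ≤ 2 ^ ρ)
    (hJ : J = 2 * (d * d) + 4 * d + 2) (hT : J * (d + ρ + 7) + 2 * ((2 * J + 1) * (J + 1) ^ 2) ≤ T)
    (real : ∀ c (x : ℝ), ((cN d Z c x / cD d Z c x).re : ℂ) = cN d Z c x / cD d Z c x)
    (h0 : i₀ < d) (hξ : Z i₀ = ξ) (L : ℕ) : ∀ i ≤ ρ, ∀ x : ℝ, |x - ξ| ≤ (J + 1) ^ i →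
      (i = 0 ∨ #((range d).filter fun j => ‖Z j - ξ‖ < (J + 1) ^ (i + 1)) < 2 ^ L) →
      ∃ l : List (List ℕ), l.length ≤ L ∧ (∀ c ∈ l, c.length = 11 ∧ ∀ e ∈ c, e ≤ T) ∧
        ∃ y : ℝ, Reach (cN d Z) (cD d Z) l x y ∧ |y - ξ| ≤ 1 := by
  induction L with
  | zero =>
    rintro i hi x hx (rfl | h)
    · exact ⟨[], le_rfl, by simp, x, rfl, by simpa using hx⟩
    · exact absurd h (not_lt.2 (card_pos.2 ⟨i₀, mem_filter.2 ⟨mem_range.2 h0, by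
        simp [hξ]; positivity⟩⟩))
  | succ L ih =>
    rintro i hi x hx (rfl | h)
    · exact ⟨[], by simp, by simp, x, rfl, by simpa using hx⟩
    · obtain ⟨c, i', x', h1, h2, h3, h4, h5, h6⟩ := zoom_step hB hJ hT real h0 hξ hi hx h
      obtain ⟨l, l1, l2, y, l3, l4⟩ := ih i' h4 x' h5 h6
      exact ⟨c :: l, by simpa, List.forall_mem_cons.2 ⟨h1, l2⟩, y, ⟨h2, h3 ▸ l3⟩, l4⟩

variable {α β γ δ : Type} [Enc α] [Enc β] [Enc γ] [Enc δ] [Dec α] [Dec β] [Dec γ] [Dec δ]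
  {d N κ h : α → ℕ} {Z : α → ℕ → ℂ} {r s : α → ℂ}

theorem PX.zAB {x t : α → ℂ → ℂ} (hN : CF N) (hx : PX x) (ht : PX t) (z : α × ℕ → ℂ) :
    PX fun (p : α × ℕ) u => (r p.1 ^ N p.1 + (z p - x p.1 u) ^ N p.1) *
      (s p.1 ^ N p.1 + (z p - t p.1 u) ^ N p.1) :=
  ((PX.const _).add (((PX.const _).sub (hx.comp CF.id.fst)).pow (hN.comp CF.id.fst))).mul
    ((PX.const _).add (((PX.const _).sub (ht.comp CF.id.fst)).pow (hN.comp CF.id.fst)))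

theorem PX.zV {x t : α → ℂ → ℂ} (hd : CF d) (hN : CF N) (hx : PX x) (ht : PX t) :
    PX fun a u => zV (d a) (Z a) (r a) (s a) (N a) (x a u) (t a u) :=
  PX.prod (CS.range hd) (PX.zAB hN hx ht fun p => Z p.1 p.2)

theorem PX.zU {x t : α → ℂ → ℂ} (hd : CF d) (hN : CF N) (hx : PX x) (ht : PX t) :
    PX fun a u => zU (d a) (Z a) (r a) (s a) (N a) (x a u) (t a u) :=
  PX.sum (CS.range hd) ((PX.const _).mul (PX.prod (by fun_prop)
    (PX.zAB (r := fun p : α × ℕ => r p.1) (s := fun p => s p.1) (hN.comp CF.id.fst)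
      (hx.comp CF.id.fst) (ht.comp CF.id.fst) fun p => Z p.1.1 p.2)))

theorem PX.zW {x t : α → ℂ → ℂ} (hd : CF d) (hN : CF N) (hx : PX x) (ht : PX t) :
    PX fun a u => zW (d a) (Z a) (r a) (s a) (N a) (κ a) (x a u) (t a u) :=
  (((PX.const _).mul (PX.zV hd hN hx ht)).pow hN).add ((PX.zU hd hN hx ht).pow hN)

theorem PQ.zAB {x : α → ℂ} (hr : BQ r) (hs : BQ s) (hN : CF N) (hx : BQ x) :
    PQ fun (p : α × ℕ) z => (r p.1 ^ N p.1 + (z - x p.1) ^ N p.1) *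
      (s p.1 ^ N p.1 + (z - p.2) ^ N p.1) :=
  ((PQ.const (by fun_prop)).add ((PQ.id.sub (PQ.const (by fun_prop))).pow (by fun_prop))).mul
    ((PQ.const (by fun_prop)).add ((PQ.id.sub (PQ.const (by fun_prop))).pow (by fun_prop)))

theorem PQ.zV {x : α → ℂ} (hZ : PS d fun a _ => Z a) (hr : BQ r) (hs : BQ s) (hN : CF N)
    (hx : BQ x) : PQ fun a t => zV (d a) (Z a) (r a) (s a) (N a) (x a) t :=
  ⟨PX.zV hZ.1 hN (PX.const _) PX.id, ((hZ.comp CF.id.fst).prod (PQ.zAB hr hs hN hx)).bq⟩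

theorem PQ.zU {x : α → ℂ} (hZ : PS d fun a _ => Z a) (hr : BQ r) (hs : BQ s) (hN : CF N)
    (hx : BQ x) : PQ fun a t => zU (d a) (Z a) (r a) (s a) (N a) (x a) t :=
  ⟨PX.zU hZ.1 hN (PX.const _) PX.id, ((hZ.comp CF.id.fst).num (PQ.const
    (c := fun p : α × ℕ => 4 * r p.1 ^ N p.1 * s p.1 ^ N p.1) (by fun_prop))
      (PQ.zAB hr hs hN hx)).bq⟩

theorem PQ.zW {x : α → ℂ} (hZ : PS d fun a _ => Z a) (hr : BQ r) (hs : BQ s) (hN : CF N)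
    (hκ : CF κ) (hx : BQ x) : PQ fun a t => zW (d a) (Z a) (r a) (s a) (N a) (κ a) (x a) t :=
  (((PQ.const (by fun_prop)).mul (PQ.zV hZ hr hs hN hx)).pow hN).add ((PQ.zU hZ hr hs hN hx).pow hN)

theorem PQ.zD (hZ : PS d fun a _ => Z a) (hr : BQ r) (hs : BQ s) (hN : CF N)
    (hκ : CF κ) (hh : CF h) : PQ fun a x => zD (d a) (Z a) (r a) (s a) (N a) (κ a) (h a) x :=
  (PQ.const (by fun_prop)).mul ⟨PX.prod (CS.range hZ.1) (PX.zW (Z := fun p : α × ℕ => Z p.1)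
    (hZ.1.comp CF.id.fst) (hN.comp CF.id.fst) PX.id (PX.const fun p : α × ℕ => Z p.1 p.2)),
    ((hZ.comp CF.id.fst).prod (PQ.zW (hZ.comp CF.id.fst) (hr.comp CF.id.fst) (hs.comp CF.id.fst)
      (hN.comp CF.id.fst) (hκ.comp CF.id.fst) (BQ.natCast CF.id.snd))).bq⟩

theorem PX.zS (hd : CF d) (hN : CF N) :
    PX fun a x => zS (d a) (Z a) (r a) (s a) (N a) (κ a) x := by
  have h1 : PX fun (p : α × ℕ) x => P337.zU (d p.1) (Z p.1) (r p.1) (s p.1) (N p.1) x (Z p.1 p.2) :=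
    PX.zU (hd.comp CF.id.fst) (hN.comp CF.id.fst) PX.id (PX.const fun p : α × ℕ => Z p.1 p.2)
  have h2 : PX fun (p : α × ℕ) x =>
      P337.zW (d p.1) (Z p.1) (r p.1) (s p.1) (N p.1) (κ p.1) x (Z p.1 p.2) :=
    PX.zW (hd.comp CF.id.fst) (hN.comp CF.id.fst) PX.id (PX.const fun p : α × ℕ => Z p.1 p.2)
  have h3 : PX fun (p : α × ℕ) x => ∏ j ∈ (range (d p.1)).erase p.2,
      P337.zW (d p.1) (Z p.1) (r p.1) (s p.1) (N p.1) (κ p.1) x (Z p.1 j) :=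
    PX.prod (by fun_prop) (h2.comp (f := fun p : (α × ℕ) × ℕ => (p.1.1, p.2)) (by fun_prop))
  exact PX.sum (CS.range hd) (((PX.const fun p : α × ℕ => Z p.1 p.2).mul
    (h1.pow (hN.comp CF.id.fst))).mul h3)

theorem PQ.zS (hZ : PS d fun a _ => Z a) (hr : BQ r) (hs : BQ s) (hN : CF N)
    (hκ : CF κ) : PQ fun a x => zS (d a) (Z a) (r a) (s a) (N a) (κ a) x :=
  have h1 := PQ.zU (hZ.comp CF.id.fst) (hr.comp CF.id.fst) (hs.comp CF.id.fst) (hN.comp CF.id.fst)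
    (BQ.natCast (α := α × ℕ) CF.id.snd)
  have h2 := PQ.zW (hZ.comp CF.id.fst) (hr.comp CF.id.fst) (hs.comp CF.id.fst)
    (hN.comp CF.id.fst) (hκ.comp CF.id.fst) (BQ.natCast (α := α × ℕ) CF.id.snd)
  ⟨PX.zS hZ.1 hN, ((hZ.comp CF.id.fst).num (PQ.id.mul (h1.pow (hN.comp CF.id.fst))) h2).bq⟩

theorem zoom_one (hZ : PS d fun a _ => Z a) : ∃ (X : α × List (List ℕ) → ℂ) (φ : α → ℕ),
    BQ X ∧ Pb φ ∧ ∀ a, ∀ i < d a, ∀ ξ : ℝ, Z a i = ξ → ∃ l, sz l ≤ φ a ∧ ‖X (a, l) - ξ‖ ≤ 1 := by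
  have hr : ∀ k, BQ fun p : α × List ℕ => rad p.2 k := fun k => by simp only [rad]; fun_prop
  have hD : PQ fun (p : α × List ℕ) x => cD (d p.1) (Z p.1) p.2 x :=
    PQ.zD (hZ.comp CF.id.fst) (hr 0) (hr 2) (by fun_prop) (by fun_prop) (by fun_prop)
  have hN : PQ fun (p : α × List ℕ) x => cN (d p.1) (Z p.1) p.2 x :=
    ((PQ.const (by fun_prop)).mul hD).add
      (PQ.zS (hZ.comp CF.id.fst) (hr 0) (hr 2) (by fun_prop) (by fun_prop))
  obtain ⟨X, x1, x2⟩ := hN.iter hD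
  obtain ⟨ρ, r1, r2⟩ := hZ.bound
  have := hZ.1
  obtain ⟨J, j1, j2⟩ : ∃ J, CF J ∧ ∀ a, J a = 2 * (d a * d a) + 4 * d a + 2 :=
    ⟨_, by fun_prop, fun _ => rfl⟩
  obtain ⟨T, t1, t2⟩ : ∃ T, CF T ∧ ∀ a,
      J a * (d a + ρ a + 7) + 2 * ((2 * J a + 1) * (J a + 1) ^ 2) ≤ T a :=
    ⟨_, by fun_prop, fun _ => le_rfl⟩
  refine ⟨X, fun a => sz (d a) * (11 * (4 * sz (T a) + 1 + 1) + 1 + 1) + 1, x1, by fun_prop,
    fun a i hi ξ hξ => ?_⟩
  obtain ⟨l, l1, l2, y, l3, l4⟩ := zoom_all (fun i hi => (r2 a i hi).le) (j2 a) (t2 a)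
    (fun c x => by
      rw [← hN.real (a, c) x, ← hD.real (a, c) x, ← Complex.ofReal_div, Complex.ofReal_re])
    hi hξ (sz (d a)) (ρ a) le_rfl 0 (by
      have := r2 a i hi
      rw [hξ, Complex.norm_real] at this
      rw [zero_sub, abs_neg]
      refine this.le.trans (pow_le_pow_left₀ zero_le_two ?_ _)
      exact_mod_cast (show 2 ≤ J a + 1 by rw [j2]; omega))
    (.inr ((card_filter_le _ _).trans_lt (by rw [card_range]; exact lt_two_pow_sz _)))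
  refine ⟨l, (sz_list_le (B := 11 * (4 * sz (T a) + 1 + 1) + 1) fun c hc => ?_).trans
    (Nat.succ_le_succ (Nat.mul_le_mul_right _ l1)), ?_⟩
  · rw [← (l2 c hc).1]
    exact sz_list_le fun e he => sz_nat_mono ((l2 c hc).2 e he)
  · rw [x2 a l y l3, ← Complex.ofReal_sub, Complex.norm_real]
    exact l4

theorem zoom (hZ : PS d fun a _ => Z a) {E : α → ℕ} (hE : CF E) :
    ∃ (X : α × List (List ℕ) → ℂ) (φ : α → ℕ), BQ X ∧ Pb φ ∧
      ∀ a, ∀ i < d a, ∀ ξ : ℝ, Z a i = ξ → ∃ l, sz l ≤ φ a ∧ ‖X (a, l) - ξ‖ ≤ (2 ^ E a)⁻¹ := by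
  obtain ⟨X, φ, h1, h2, h3⟩ := zoom_one (hZ.map (f := fun a z => 2 ^ E a * z)
    ((PQ.const (by fun_prop)).mul PQ.id))
  refine ⟨fun p => X p / 2 ^ E p.1, φ, by fun_prop, h2, fun a i hi ξ hξ => ?_⟩
  obtain ⟨l, l1, l2⟩ := h3 a i hi (2 ^ E a * ξ) (by simp [hξ])
  refine ⟨l, l1, ?_⟩
  rw [show X (a, l) / 2 ^ E a - ξ = (X (a, l) - (2 ^ E a * ξ : ℝ)) / 2 ^ E a by
    push_cast; field_simp, norm_div, norm_pow, Complex.norm_two, inv_eq_one_div]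
  gcongr

end Vale.Agent.P337
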