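import Vale.Agent.P337.Thr
import Vale.Agent.P337.Trace
import Vale.Agent.P337.Zoom

/-! Existence of a real zero of a nonnegative polynomial is in the counting hierarchy. -/

namespace Vale.Agent.P337

open Vale.Agent.Lib.H24.T Finset MvPolynomial

set_option linter.unusedSectionVars false

variable {α β γ δ : Type} [Enc α] [Enc β] [Enc γ] [Enc δ] [Dec α] [Dec β] [Dec γ] [Dec δ]

theorem CH.guess {Q : α × β → Prop} (h : CH Q) {φ : α → ℕ} (hφ : Pb φ) : ∃ P, CH P ∧ ∀ a,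
    (P a → ∃ y, Q (a, y)) ∧ ∀ y, sz y ≤ φ a → Q (a, y) → P a := by
  obtain ⟨len, h1, h2⟩ := Pb.unary hφ
  refine ⟨_, CH.exBits (h.pt (f := fun p : α × List Bool => (p.1, prs p.2))
    (PT.id.fst.pair (pt_prs PT.id.snd))) h1, fun a => ⟨fun ⟨r, _, h⟩ => ⟨_, h⟩, fun y hy h =>
      ⟨code y ++ List.replicate ((len a).length - sz y) false, ?_, by rwa [prs_code]⟩⟩⟩
  have := hy.trans (h2 a)
  simp only [List.length_append, List.length_replicate, sz] at this ⊢
  omega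

/-- Families of multivariate polynomials with computable values. -/
structure MQ (n B : α → ℕ) (g : ∀ a, MvPolynomial (Fin (n a)) ℂ) : Prop where
  /-- The number of variables is computable. -/
  cn : CF n
  /-- The number of variables is polynomially bounded. -/
  pn : Pb n
  /-- The degree bound is computable. -/
  cB : CF B
  /-- The degree bound. -/
  deg : ∀ a, (g a).totalDegree ≤ B a
  /-- The values on the grid are computable. -/
  val : BQ fun p : α × List ℕ => eval (pt (n p.1) p.2) (g p.1)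

variable {n B D : α → ℕ} {g : ∀ a, MvPolynomial (Fin (n a)) ℂ}

theorem MQ.comp (h : MQ n B g) {f : β → α} (hf : CF f) :
    MQ (fun b => n (f b)) (fun b => B (f b)) fun b => g (f b) :=
  ⟨h.cn.comp hf, Pb.compCF h.pn hf, h.cB.comp hf, fun _ => h.deg _,
    h.val.comp (f := fun p : β × List ℕ => (f p.1, p.2)) (by fun_prop)⟩

theorem MQ.coeff (h : MQ n B g) {μ : α → ℕ → ℕ} (hμ : CF fun p : α × ℕ => μ p.1 p.2) :
    BQ fun a => coeff (ex (n a) (μ a)) (g a) :=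
  (PQ.cf (g := fun a _ y => eval (pt (n a) y) (g a)) h.cn h.pn h.cB hμ (PQ.const h.val)).bq.of_eq
    fun a => cf_eq (h.deg a) _

theorem MQ.coeffL (h : MQ n B g) :
    BQ fun p : α × List ℕ => MvPolynomial.coeff (ex (n p.1) (p.2.getD · 0)) (g p.1) :=
  (h.comp CF.id.fst).coeff (by fun_prop)

theorem MQ.evalQ (h : MQ n B g) {x : α → ℕ → ℂ} (hx : BQ fun p : α × ℕ => x p.1 p.2) :
    BQ fun a => eval (fun i : Fin (n a) => x a i) (g a) := by
  obtain ⟨h1, h2, h3, -⟩ := id h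
  refine (BQ.sum (S := fun a => lists (n a) (range (B a + 1))) (F := fun a l =>
    MvPolynomial.coeff (ex (n a) (l.getD · 0)) (g a) * ∏ i ∈ range (n a), x a i ^ l.getD i 0)
    (by fun_prop) (h.coeffL.mul (by fun_prop))).of_eq fun a => ?_
  simp only [eval_lists (h.deg a), prod_range]

theorem MQ.pderiv (h : MQ n B g) : ∃ R : α → ℕ → List ℕ → ℂ,
    (BQ fun p : (α × List ℕ) × ℕ => R p.1.1 p.2 p.1.2) ∧
      ∀ a (i : Fin (n a)) y, R a i y = eval (pt (n a) y) (pderiv i (g a)) := by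
  obtain ⟨h1, h2, h3, -⟩ := id h
  refine ⟨fun a i y => ∑ l ∈ lists (n a) (range (B a + 1)), MvPolynomial.coeff (ex (n a)
    fun j => l.getD j 0 + if i = j then 1 else 0) (g a) * ((l.getD i 0 + 1) * mon (n a) l y),
    BQ.sum (by fun_prop) (((h.comp (f := fun p : ((α × List ℕ) × ℕ) × List ℕ => p.1.1.1)
      (by fun_prop)).coeff (by fun_prop)).mul (by fun_prop)), fun a i y => ?_⟩
  rw [eval_lists ((deg_pderiv _ i).trans (h.deg a))]
  refine sum_congr rfl fun l _ => ?_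
  rw [coeff_pderiv, mul_assoc, mon, prod_range]
  congr 2
  ext j
  simp [Finsupp.single_apply, Fin.ext_iff]

theorem eval_ofReal {n : ℕ} (G : MvPolynomial (Fin n) ℝ) (x : Fin n → ℝ) :
    eval (fun i => (x i : ℂ)) (map Complex.ofRealHom G) = (eval x G : ℝ) := by
  rw [eval_map]
  exact (eval₂_comp Complex.ofRealHom x G).symm

theorem sys_roots {F : ∀ a, MvPolynomial (Fin (n a)) ℝ}
    (hF : MQ n D fun a => map Complex.ofRealHom (F a)) (hD : Pb D) (hB : CF B)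
    {h : ∀ a, ℂ → MvPolynomial (Fin (n a)) ℂ} (hh : ∀ a x, (h a x).totalDegree ≤ B a)
    (hH : PQ fun (p : α × List ℕ) x => eval (pt (n p.1) p.2) (h p.1 x)) :
    ∃ (d : α → ℕ) (Z : α → ℂ → ℕ → ℂ), PS d Z ∧ ∀ a (l : ℝ) (ξ : Fin (n a) → ℝ),
      (∀ x, ∑ i, ξ i ^ (2 * D a + 2) + l * eval ξ (F a) ≤
        ∑ i, x i ^ (2 * D a + 2) + l * eval x (F a)) →
      ∃ i < d a, Z a l i = eval (fun i => (ξ i : ℂ)) (h a l) := by
  obtain ⟨R, r1, r2⟩ := hF.pderiv
  have := hF.cB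
  obtain ⟨Z, z1, z2⟩ := exists_roots (e := fun a => 2 * D a) hF.cn hF.pn (by fun_prop) (by fun_prop)
    hB (r := fun a x i => C (-(2 * D a + 2 : ℂ)⁻¹ * x) * pderiv i (map Complex.ofRealHom (F a)))
    (fun a x i => (totalDegree_mul _ _).trans (by
      have := (deg_pderiv _ i).trans (hF.deg a)
      rw [totalDegree_C]
      omega)) hh (R := fun a x i y => -(2 * D a + 2 : ℂ)⁻¹ * x * R a i y)
    (((PQ.const (by fun_prop)).mul PQ.id).mul (PQ.const r1)) (fun a x i y => by simp [r2]) hH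
  refine ⟨_, Z, z1, fun a l ξ hξ => z2 a l _ fun i => ?_⟩
  have := crit (g := ∑ i, X i ^ (2 * D a + 2) + C l * F a) (ξ := ξ) (by simpa using hξ) i
  simp only [map_add, map_sum, Derivation.leibniz_pow, pderiv_X, pderiv_C_mul, map_mul, eval_C,
    Pi.single_apply, mul_ite, mul_zero, sum_ite_eq', mem_univ,
    if_true, smul_eq_mul, mul_one, nsmul_eq_mul, map_pow, eval_X, map_natCast] at this
  have := congrArg Complex.ofReal this
  rw [map_mul, eval_C, pderiv_map, eval_ofReal]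
  push_cast at this
  have h : (2 * D a + 2 : ℂ) ≠ 0 := by exact_mod_cast Nat.succ_ne_zero (2 * D a + 1)
  field_simp
  linear_combination this

theorem MQ.pen {F : ∀ a, MvPolynomial (Fin (n a)) ℂ} (hF : MQ n D F) :
    (∀ a x, (∑ i, X i ^ (2 * D a + 2) + C x * F a).totalDegree ≤ 2 * D a + 2) ∧
    PQ fun (p : α × List ℕ) x =>
      eval (pt (n p.1) p.2) (∑ i, X i ^ (2 * D p.1 + 2) + C x * F p.1) := by
  obtain ⟨h1, h2, h3, h4, h5⟩ := hF
  refine ⟨fun a x => (totalDegree_add _ _).trans (max_le (totalDegree_finsetSum_le fun i _ =>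
    (totalDegree_X_pow _ _).le) ((totalDegree_mul _ _).trans (by
      have := h4 a
      rw [totalDegree_C]
      omega))), ((PQ.const (c := fun p : α × List ℕ => ∑ i ∈ range (n p.1),
        (p.2.getD i 0 : ℂ) ^ (2 * D p.1 + 2)) (by fun_prop)).add (PQ.id.mul (PQ.const h5))).of_eq
          fun p x => ?_⟩
  simp [sum_range, pt]

theorem IsPoly.continuous {D : ℕ} {f : ℂ → ℂ} (h : IsPoly D f) : Continuous f := by
  obtain ⟨Q, -, h⟩ := h
  exact funext h ▸ Q.continuous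

theorem PS.thresholds {d : α → ℕ} {Z : α → ℂ → ℕ → ℂ} (h : PS d Z) :
    ∃ J ρ σ : α → ℕ, CF ρ ∧ CF σ ∧ ∀ a,
      (∀ t, IsPoly (J a) fun l => ∏ i ∈ range (d a), (t - Z a l i)) ∧
      (∀ j ≤ J a, ∀ z, (∃ t, co (J a) j (fun l => ∏ i ∈ range (d a), (t - Z a l i)) ≠ 0) →
        co (J a) j (fun l => ∏ i ∈ range (d a), (z - Z a l i)) = 0 → ‖z‖ < 2 ^ ρ a) ∧
      ∀ z, (∃ l, ∏ i ∈ range (d a), (2 ^ ρ a + 1 - Z a l i) ≠ 0) →
        ∏ i ∈ range (d a), (2 ^ ρ a + 1 - Z a z i) = 0 → ‖z‖ < 2 ^ σ a := by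
  have hd := h.1
  have e1 : PQ fun (p : α × ℕ) l => co (d p.1) p.2 fun t => ∏ i ∈ range (d p.1), (t - Z p.1 l i) :=
    PQ.co (by fun_prop) (by fun_prop)
      (h.charp.comp (f := fun p : (α × ℕ) × ℕ => (p.1.1, p.2)) (by fun_prop))
  have e2 : ∀ a l t, ∏ i ∈ range (d a), (t - Z a l i) = ∑ k ∈ range (d a + 1),
      (co (d a) k fun t => ∏ i ∈ range (d a), (t - Z a l i)) * t ^ k := fun a l =>
    IsPoly.expand ⟨∏ i ∈ range (d a), (Polynomial.X - Polynomial.C (Z a l i)), by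
      simp [Polynomial.natDegree_prod_of_monic, Polynomial.monic_X_sub_C],
      by simp [Polynomial.eval_prod]⟩
  obtain ⟨J, j1, j2⟩ := e1.1
  obtain ⟨J', k1, k2⟩ : ∃ J', CF J' ∧ ∀ a t, IsPoly (J' a)
      fun l => ∏ i ∈ range (d a), (t - Z a l i) :=
    ⟨fun a => ∑ k ∈ range (d a + 1), (J (a, k) + 0), by fun_prop, fun a t => by
      simp only [e2 a _ t]
      exact IsPoly.sum _ fun k => (j2 (a, k)).mul (IsPoly.const _)⟩
  have e3 : PQ fun (p : α × ℕ) t => ∏ i ∈ range (d p.1), (t - Z p.1 p.2 i) :=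
    ⟨PX.charp (hd.comp CF.id.fst) _,
      h.charp.2.comp (f := fun p : (α × ℕ) × ℕ => ((p.1.1, p.2), p.1.2)) (by fun_prop)⟩
  obtain ⟨ρ, r1, r2⟩ := (PQ.co (D := fun p : α × ℕ => J' p.1) (k := fun p => p.2)
    (F := fun p t l => ∏ i ∈ range (d p.1), (t - Z p.1 l i)) (by fun_prop) (by fun_prop)
    (e3.comp (f := fun p : (α × ℕ) × ℕ => (p.1.1, p.2)) (by fun_prop))).root
  obtain ⟨ρ', s1, s2⟩ : ∃ ρ', CF ρ' ∧ ∀ a, ∀ j ≤ J' a, ρ (a, j) ≤ ρ' a :=
    ⟨fun a => ∑ j ∈ range (J' a + 1), ρ (a, j), by fun_prop, fun a j hj => single_le_sum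
      (f := fun j => ρ (a, j)) (fun _ _ => Nat.zero_le _) (mem_range.2 (Nat.lt_succ_of_le hj))⟩
  obtain ⟨σ, t1, t2⟩ := ((PQ.sum (S := fun a => range (d a + 1)) (F := fun a k l =>
    (co (d a) k fun t => ∏ i ∈ range (d a), (t - Z a l i)) * (2 ^ ρ' a + 1) ^ k) (by fun_prop)
    (e1.mul (PQ.const (by fun_prop)))).of_eq fun a l => (e2 a l _).symm).root
  exact ⟨J', ρ', σ, s1, t1, fun a => ⟨k2 a, fun j hj z h1 h2 => (r2 (a, j) z h1 h2).trans_le
    (pow_le_pow_right₀ one_le_two (s2 a j hj)), t2 a⟩⟩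

theorem exists_thresholds {F : ∀ a, MvPolynomial (Fin (n a)) ℝ}
    (hF : MQ n D fun a => map Complex.ofRealHom (F a)) (hD : Pb D) (h0 : ∀ a x, 0 ≤ eval x (F a)) :
    ∃ ρ σ : α → ℕ, CF ρ ∧ CF σ ∧ ∀ a, ((∃ x, eval x (F a) = 0) → ∃ ξ : Fin (n a) → ℝ,
      (∀ x, ∑ i, ξ i ^ (2 * D a + 2) + 2 ^ σ a * eval ξ (F a) ≤
        ∑ i, x i ^ (2 * D a + 2) + 2 ^ σ a * eval x (F a)) ∧
      ∑ i, ξ i ^ (2 * D a + 2) + 2 ^ σ a * eval ξ (F a) ≤ 2 ^ ρ a) ∧
      ((∃ x : Fin (n a) → ℝ, ∑ i, x i ^ (2 * D a + 2) + 2 ^ σ a * eval x (F a) < 2 ^ ρ a + 1) →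
        ∃ x, eval x (F a) = 0) := by
  have := hF.cB
  obtain ⟨d, Z, z1, z2⟩ := sys_roots hF hD (by fun_prop) hF.pen.1 hF.pen.2
  obtain ⟨J, ρ, σ, h1, h2, h3⟩ := z1.thresholds
  obtain ⟨E, -, hE⟩ := PX.charp (α := α) z1.1 fun a => Z a 0
  refine ⟨ρ, σ, h1, h2, fun a => threshold (by fun_prop) (continuous_eval _) (h0 a) (compact_pow _)
    (P := fun l t => ∏ i ∈ range (d a), (t - Z a l i)) (h3 a).1 (fun l => by fun_prop)
    (charp_ne _ _) (fun l ξ h => ?_) (by positivity) (h3 a).2.1 (by simpa using (h3 a).2.2)⟩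
  obtain ⟨i, hi, e⟩ := z2 a l ξ h
  refine prod_eq_zero (mem_range.2 hi) ?_
  simp only [e, map_add, map_sum, map_pow, eval_X, map_mul, eval_C, eval_ofReal]
  push_cast
  exact sub_self _

theorem zero_CH {F : ∀ a, MvPolynomial (Fin (n a)) ℝ}
    (hF : MQ n D fun a => map Complex.ofRealHom (F a)) (hD : Pb D) (h0 : ∀ a x, 0 ≤ eval x (F a)) :
    CH fun a => ∃ x, eval x (F a) = 0 := by
  obtain ⟨ρ, σ, r1, r2, r3⟩ := exists_thresholds hF hD h0
  obtain ⟨n1, n2, n3, -⟩ := id hF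
  have hG : MQ n (fun a => 2 * D a + 2) fun a =>
      ∑ i, X i ^ (2 * D a + 2) + C (2 ^ σ a) * map Complex.ofRealHom (F a) :=
    ⟨n1, n2, by fun_prop, fun a => hF.pen.1 a _, hF.pen.2.eval (by fun_prop)⟩
  have eG : ∀ a (x : Fin (n a) → ℝ), eval (fun i => (x i : ℂ))
      (∑ i, X i ^ (2 * D a + 2) + C (2 ^ σ a) * map Complex.ofRealHom (F a)) =
      (∑ i, x i ^ (2 * D a + 2) + 2 ^ σ a * eval x (F a) : ℝ) := fun a x => by
    simp only [map_add, map_sum, map_pow, eval_X, map_mul, eval_C, eval_ofReal]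
    push_cast
    rfl
  obtain ⟨T, t1, t2⟩ := hG.coeffL.bound
  obtain ⟨U, u1, u2⟩ : ∃ U, CF U ∧ ∀ a, ∀ l ∈ lists (n a) (range (2 * D a + 2 + 1)),
      T (a, l) ≤ U a := ⟨fun a => ∑ l ∈ lists (n a) (range (2 * D a + 2 + 1)), T (a, l),
    by fun_prop, fun a l => single_le_sum (f := fun l => T (a, l)) fun _ _ => Nat.zero_le _⟩
  obtain ⟨d, Z, z1, z2⟩ := sys_roots (hF.comp (CF.id (α := α × ℕ)).fst) (Pb.compCF hD CF.id.fst)
    (CF.const 1) (h := fun p _ => if h : p.2 < n p.1 then X ⟨p.2, h⟩ else 0)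
    (fun p _ => by split_ifs <;> simp) ((PQ.const (c := fun p : (α × ℕ) × List ℕ =>
      if p.1.2 < n p.1.1 then (p.2.getD p.1.2 0 : ℂ) else 0) (by fun_prop)).of_eq fun p _ => by
        split_ifs <;> simp [pt])
  obtain ⟨Y, φ, y1, y2, y3⟩ := zoom (z1.fix (x := fun p => 2 ^ σ p.1) (by fun_prop))
    (E := fun p => (2 * D p.1 + 2) * n p.1 + U p.1 + (2 * D p.1 + 2) +
      (ρ p.1 + 1) * (2 * D p.1 + 2) + 1) (by fun_prop)
  obtain ⟨χ, c1, c2⟩ := Pb.sup (CS.range n1) y2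
  obtain ⟨P, p1, p2⟩ := (((show BQ fun p : α × List (List (List ℕ)) => 2 ^ ρ p.1 + 1 by
    fun_prop).sub ((hG.comp CF.id.fst).evalQ (x := fun p i => Y ((p.1, i), p.2.getD i []))
      (by fun_prop))).pos).guess (φ := fun a => n a * (χ a + 1) + 1) (by fun_prop)
  refine p1.congr fun a => ⟨fun h => (r3 a).2 ?_, fun h => ?_⟩
  · obtain ⟨y, hy⟩ := (p2 a).1 h
    refine ⟨fun i => (Y ((a, i), y.getD i [])).re, ?_⟩
    simp only at hy
    rw [← funext fun i : Fin (n a) => y1.real ((a, i), y.getD i []), eG] at hy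
    norm_cast at hy
    simpa using hy
  · obtain ⟨ξ, h1, h2⟩ := (r3 a).1 h
    have k := fun i : Fin (n a) => (z2 (a, i) (2 ^ σ a) ξ h1).elim fun j hj =>
      y3 (a, i) j hj.1 (ξ i) (by simpa using hj.2)
    simp only at k
    choose y k1 k2 using k
    refine (p2 a).2 (List.ofFn y) ((sz_list_le (B := χ a) (List.forall_mem_ofFn_iff.2 fun i =>
      (k1 i).trans (c2 a i (mem_range.2 i.2)))).trans (by simp)) ?_
    have := lipschitz (hG.deg a) (fun l hl => (t2 (a, l)).trans (pow_le_pow_right₀ one_le_two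
      (u2 a l hl))) (inv_le_one_of_one_le₀ (one_le_pow₀ one_le_two)) (s := ρ a) (fun i => ?_) k2
      (by positivity)
    · have := (Complex.re_le_norm _).trans this
      rw [eG, pow_succ, mul_inv, mul_inv_cancel_left₀ (by positivity), Complex.sub_re,
        Complex.ofReal_re] at this
      have e : (2 ^ ρ a + 1 : ℂ).re = 2 ^ ρ a + 1 := by norm_cast
      simp only [Complex.sub_re, e, List.getD_eq_getElem?_getD, List.getElem?_ofFn, Fin.is_lt,
        dif_pos, Option.getD_some]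
      linarith
    · have ev : Even (2 * D a + 2) := ⟨D a + 1, by ring⟩
      have h := single_le_sum (fun i _ => ev.pow_nonneg (ξ i)) (mem_univ i)
      have := mul_nonneg (show (0 : ℝ) ≤ 2 ^ σ a by positivity) (h0 a ξ)
      rw [← ev.pow_abs] at h
      rw [Complex.norm_real, Real.norm_eq_abs]
      by_contra! H
      linarith [le_self_pow₀ (a := |ξ i|) ((one_le_pow₀ one_le_two).trans H.le)
        (n := 2 * D a + 2) (by omega)]

end Vale.Agent.P337
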